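import Vale.Agent.P229.Ident

/-! Bounds on derivatives, for single functions and for families depending on a small parameter. -/

namespace Vale.Agent.P229

open scoped ContDiff Topology
open Set Filter

/-- All partial derivatives of order `j ≤ k` of `f` are bounded by `s ν^j`. -/
def B : ℕ → ℝ → ℝ → Fn → Prop
  | 0, _, s, f => ∀ z, |f z| ≤ s
  | k + 1, ν, s, f => (∀ z, |f z| ≤ s) ∧ B k ν (s * ν) (dx f) ∧ B k ν (s * ν) (dy f)

theorem B.abs {k : ℕ} {ν s : ℝ} {f : Fn} (h : B k ν s f) (z : Om) : |f z| ≤ s := by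
  cases k with
  | zero => exact h z
  | succ k => exact h.1 z

theorem B.pred {k : ℕ} {ν s : ℝ} {f : Fn} (h : B (k + 1) ν s f) : B k ν s f := by
  induction k generalizing s f with
  | zero => exact h.1
  | succ k ih => exact ⟨h.1, ih h.2.1, ih h.2.2⟩

theorem B.le {j k : ℕ} {ν s : ℝ} {f : Fn} (h : B k ν s f) (hjk : j ≤ k) : B j ν s f := by
  induction hjk with
  | refl => exact h
  | step _ ih => exact ih h.pred

theorem B.mono {k : ℕ} {ν ν' s s' : ℝ} {f : Fn} (h : B k ν s f) (h0 : 0 ≤ ν) (hν : ν ≤ ν')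
    (hs : s ≤ s') : B k ν' s' f := by
  induction k generalizing s s' f with
  | zero => exact fun z => (h z).trans hs
  | succ k ih =>
    have hs0 : 0 ≤ s := (abs_nonneg _).trans (h.1 o)
    have : s * ν ≤ s' * ν' := mul_le_mul hs hν h0 (hs0.trans hs)
    exact ⟨fun z => (h.1 z).trans hs, ih h.2.1 this, ih h.2.2 this⟩

theorem B.zero {k : ℕ} {ν s : ℝ} (h0 : 0 ≤ ν) (hs : 0 ≤ s) : B k ν s 0 := by
  induction k generalizing s with
  | zero => intro z; simpa using hs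
  | succ k ih =>
    refine ⟨fun z => by simpa using hs, ?_, ?_⟩
    · rw [dx_zero]; exact ih (by positivity)
    · rw [dy_zero]; exact ih (by positivity)

theorem B.cst {k : ℕ} {ν s c : ℝ} (h0 : 0 ≤ ν) (hs : |c| ≤ s) : B k ν s (cst c) := by
  have hs0 : 0 ≤ s := (abs_nonneg _).trans hs
  cases k with
  | zero => intro z; simpa using hs
  | succ k =>
    refine ⟨fun z => by simpa using hs, ?_, ?_⟩
    · rw [dx_cst]; exact B.zero h0 (by positivity)
    · rw [dy_cst]; exact B.zero h0 (by positivity)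

theorem B.add {k : ℕ} {ν s s' : ℝ} {f g : Fn} (rf : Reg k f) (rg : Reg k g) (hf : B k ν s f)
    (hg : B k ν s' g) : B k ν (s + s') (f + g) := by
  induction k generalizing s s' f g with
  | zero => exact fun z => (abs_add_le _ _).trans (add_le_add (hf z) (hg z))
  | succ k ih =>
    have := rf.le (j := 1) (by omega)
    have := rg.le (j := 1) (by omega)
    refine ⟨fun z => (abs_add_le _ _).trans (add_le_add (hf.1 z) (hg.1 z)), ?_, ?_⟩
    · rw [dx_add, add_mul]; exact ih rf.dx rg.dx hf.2.1 hg.2.1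
    · rw [dy_add, add_mul]; exact ih rf.dy rg.dy hf.2.2 hg.2.2

theorem B.neg {k : ℕ} {ν s : ℝ} {f : Fn} (hf : B k ν s f) : B k ν s (-f) := by
  induction k generalizing s f with
  | zero => intro z; simpa using hf z
  | succ k ih =>
    refine ⟨fun z => by simpa using hf.1 z, ?_, ?_⟩
    · rw [dx_neg]; exact ih hf.2.1
    · rw [dy_neg]; exact ih hf.2.2

theorem B.cmul {k : ℕ} {ν s c c' : ℝ} {f : Fn} (rf : Reg k f) (hf : B k ν s f) (hc : |c| ≤ c') :
    B k ν (c' * s) (P229.cst c * f) := by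
  have key : ∀ {s : ℝ} {f : Fn}, (∀ z, |f z| ≤ s) → ∀ z, |(P229.cst c * f) z| ≤ c' * s := by
    intro s f h z
    simp only [Pi.mul_apply, cst_apply, abs_mul]
    exact mul_le_mul hc (h z) (abs_nonneg _) ((abs_nonneg _).trans hc)
  induction k generalizing s f with
  | zero => exact key hf
  | succ k ih =>
    have := rf.le (j := 1) (by omega)
    refine ⟨key hf.1, ?_, ?_⟩
    · rw [dx_mul, dx_cst, zero_mul, add_zero, mul_assoc]; exact ih rf.dx hf.2.1
    · rw [dy_mul, dy_cst, zero_mul, add_zero, mul_assoc]; exact ih rf.dy hf.2.2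

theorem B.mul {k : ℕ} {ν s s' : ℝ} {f g : Fn} (rf : Reg k f) (rg : Reg k g) (hf : B k ν s f)
    (hg : B k ν s' g) : B k ν (2 ^ k * (s * s')) (f * g) := by
  have key : ∀ {s s' : ℝ} {f g : Fn}, (∀ z, |f z| ≤ s) → (∀ z, |g z| ≤ s') →
      ∀ z, |(f * g) z| ≤ s * s' := by
    intro s s' f g h h' z
    simp only [Pi.mul_apply, abs_mul]
    exact mul_le_mul (h z) (h' z) (abs_nonneg _) ((abs_nonneg _).trans (h z))
  induction k generalizing s s' f g with
  | zero => rw [pow_zero, one_mul]; exact key hf hg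
  | succ k ih =>
    have := rf.le (j := 1) (by omega)
    have := rg.le (j := 1) (by omega)
    have rf' := rf.le (j := k) (by omega)
    have rg' := rg.le (j := k) (by omega)
    have h0 : 0 ≤ s * s' := (abs_nonneg _).trans (key hf.1 hg.1 o)
    have h1 : s * s' ≤ 2 ^ (k + 1) * (s * s') :=
      le_mul_of_one_le_left h0 (one_le_pow₀ (by norm_num))
    have e : 2 ^ (k + 1) * (s * s') * ν = 2 ^ k * (s * (s' * ν)) + 2 ^ k * (s * ν * s') := by ring
    refine ⟨fun z => (key hf.1 hg.1 z).trans h1, ?_, ?_⟩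
    · rw [dx_mul, e]
      have := rf.dx; have := rg.dx
      exact B.add inferInstance inferInstance (ih rf' rg.dx hf.pred hg.2.1)
        (ih rf.dx rg' hf.2.1 hg.pred)
    · rw [dy_mul, e]
      have := rf.dy; have := rg.dy
      exact B.add inferInstance inferInstance (ih rf' rg.dy hf.pred hg.2.2)
        (ih rf.dy rg' hf.2.2 hg.pred)

theorem B.sum {k : ℕ} {ν s : ℝ} {ι : Type*} (S : Finset ι) (f : ι → Fn) (h0 : 0 ≤ ν)
    (rf : ∀ i ∈ S, Reg k (f i)) (hf : ∀ i ∈ S, B k ν s (f i)) :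
    B k ν (S.card * s) (∑ i ∈ S, f i) := by
  classical
  induction S using Finset.induction_on with
  | empty => simpa using B.zero h0 le_rfl
  | insert a S ha ih =>
    rw [Finset.sum_insert ha, Finset.card_insert_of_notMem ha]
    have e : ((S.card + 1 : ℕ) : ℝ) * s = s + S.card * s := by push_cast; ring
    rw [e]
    exact B.add (rf a (Finset.mem_insert_self a S))
      (Reg.sum S f (fun i hi => rf i (Finset.mem_insert_of_mem hi)))
      (hf a (Finset.mem_insert_self a S))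
      (ih (fun i hi => rf i (Finset.mem_insert_of_mem hi))
        (fun i hi => hf i (Finset.mem_insert_of_mem hi)))

/-- Mean value inequality on a ball around the origin. -/
theorem lip_ball {f : Fn} (rf : Reg 1 f) {s ρ : ℝ}
    (hx : ∀ z : Om, ‖(z : P)‖ ≤ ρ → |dx f z| ≤ s) (hy : ∀ z : Om, ‖(z : P)‖ ≤ ρ → |dy f z| ≤ s)
    (z w : Om) (hz : ‖(z : P)‖ ≤ ρ) (hw : ‖(w : P)‖ ≤ ρ) :
    |f z - f w| ≤ 2 * s * ‖(z : P) - w‖ := by
  have hconv : Convex ℝ (Om ∩ Metric.closedBall (0 : P) ρ) :=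
    (convex_ball _ _).inter (convex_closedBall _ _)
  have key := hconv.norm_image_sub_le_of_norm_fderiv_le (𝕜 := ℝ) (f := ext f) (C := 2 * s)
    (fun y hy => rf.diffAt ⟨y, hy.1⟩)
    (fun y hy' => by
      have hy2 : ‖y‖ ≤ ρ := by simpa using hy'.2
      have h1 := hx ⟨y, hy'.1⟩ hy2
      have h2 := hy ⟨y, hy'.1⟩ hy2
      have hs : 0 ≤ s := (abs_nonneg _).trans h1
      refine ContinuousLinearMap.opNorm_le_bound _ (by positivity) (fun v => ?_)
      have := fderiv_ext_apply f ⟨y, hy'.1⟩ v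
      simp only at this
      rw [this, Real.norm_eq_abs]
      have v1 : |v.1| ≤ ‖v‖ := norm_fst_le v
      have v2 : |v.2| ≤ ‖v‖ := norm_snd_le v
      calc |v.1 * dx f ⟨y, hy'.1⟩ + v.2 * dy f ⟨y, hy'.1⟩|
          ≤ |v.1| * |dx f ⟨y, hy'.1⟩| + |v.2| * |dy f ⟨y, hy'.1⟩| := by
            rw [← abs_mul, ← abs_mul]; exact abs_add_le _ _
        _ ≤ ‖v‖ * s + ‖v‖ * s := by gcongr
        _ = 2 * s * ‖v‖ := by ring)
    (x := w) (y := z) ⟨w.2, by simpa using hw⟩ ⟨z.2, by simpa using hz⟩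
  simpa using key

theorem norm_le_Om (z : Om) : ‖(z : P)‖ ≤ 7 / 5 := (mem_Om.1 z.2).le

theorem lip {f : Fn} (rf : Reg 1 f) {s : ℝ} (hx : ∀ z, |dx f z| ≤ s) (hy : ∀ z, |dy f z| ≤ s)
    (z w : Om) : |f z - f w| ≤ 2 * s * ‖(z : P) - w‖ :=
  lip_ball rf (ρ := 7 / 5) (fun z _ => hx z) (fun z _ => hy z) z w (norm_le_Om z) (norm_le_Om w)

theorem B.lip {k : ℕ} {ν s : ℝ} {f : Fn} (rf : Reg 1 f) (h : B (k + 1) ν s f) (z w : Om) :
    |f z - f w| ≤ 2 * (s * ν) * ‖(z : P) - w‖ :=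
  P229.lip rf h.2.1.abs h.2.2.abs z w

@[simp] theorem o_val : ((o : Om) : P) = 0 := rfl

/-- A small parameter along a filter. -/
structure Par (ι : Type) where
  /-- the filter -/
  l : Filter ι
  /-- the parameter -/
  t : ι → ℝ
  ht : Tendsto t l (𝓝[>] 0)

variable {ι : Type} {π : Par ι}

theorem Par.pos (π : Par ι) : ∀ᶠ i in π.l, 0 < π.t i :=
  π.ht.eventually self_mem_nhdsWithin

theorem Par.small (π : Par ι) {ε : ℝ} (hε : 0 < ε) : ∀ᶠ i in π.l, π.t i ≤ ε := by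
  have := (π.ht.mono_right nhdsWithin_le_nhds).eventually (ge_mem_nhds hε)
  exact this

theorem Par.small_mul (π : Par ι) (C : ℝ) {ε : ℝ} (hε : 0 < ε) : ∀ᶠ i in π.l, C * π.t i ≤ ε := by
  have h1 := (π.ht.mono_right nhdsWithin_le_nhds).const_mul C
  rw [mul_zero] at h1
  exact h1.eventually (ge_mem_nhds hε)

theorem zpow_anti {t : ℝ} (h0 : 0 < t) (h1 : t ≤ 1) {e e' : ℤ} (h : e' ≤ e) : t ^ e ≤ t ^ e' :=
  zpow_le_zpow_right_of_le_one₀ h0 h1 h

/-- A family of reals which is `O(t^e)`. -/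
def Ot (π : Par ι) (e : ℤ) (c : ι → ℝ) : Prop :=
  ∃ C : ℝ, 0 ≤ C ∧ ∀ᶠ i in π.l, |c i| ≤ C * π.t i ^ e

/-- A family of functions whose derivatives of order `j ≤ k` are `O(t^(e - a j))`. -/
def Bt (π : Par ι) (k : ℕ) (a e : ℤ) (f : ι → Fn) : Prop :=
  ∃ C : ℝ, 0 ≤ C ∧ ∀ᶠ i in π.l, Reg k (f i) ∧ B k (π.t i ^ (-a)) (C * π.t i ^ e) (f i)

theorem Ot.mono {e e' : ℤ} {c : ι → ℝ} (h : Ot π e c) (he : e' ≤ e) : Ot π e' c := by
  obtain ⟨C, hC, h⟩ := h
  refine ⟨C, hC, ?_⟩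
  filter_upwards [h, π.pos, π.small one_pos] with i hi h0 h1
  exact hi.trans (mul_le_mul_of_nonneg_left (zpow_anti h0 h1 he) hC)

theorem Ot.congr {e : ℤ} {c c' : ι → ℝ} (h : Ot π e c) (he : ∀ᶠ i in π.l, c' i = c i) :
    Ot π e c' := by
  obtain ⟨C, hC, h⟩ := h
  refine ⟨C, hC, ?_⟩
  filter_upwards [h, he] with i hi h0
  rwa [h0]

theorem Ot.of_le {e : ℤ} {c c' : ι → ℝ} (h : Ot π e c) (he : ∀ᶠ i in π.l, |c' i| ≤ c i) :
    Ot π e c' := by
  obtain ⟨C, hC, h⟩ := h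
  refine ⟨C, hC, ?_⟩
  filter_upwards [h, he] with i hi h0
  exact h0.trans ((le_abs_self _).trans hi)

theorem Ot.const (π : Par ι) (c : ℝ) : Ot π 0 (fun _ => c) :=
  ⟨|c|, abs_nonneg _, Eventually.of_forall (fun i => by simp)⟩

theorem Ot.tpow (π : Par ι) (e : ℤ) : Ot π e (fun i => π.t i ^ e) := by
  refine ⟨1, zero_le_one, ?_⟩
  filter_upwards [π.pos] with i h0
  rw [one_mul, abs_of_pos (zpow_pos h0 e)]

theorem Ot.add {e : ℤ} {c c' : ι → ℝ} (h : Ot π e c) (h' : Ot π e c') :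
    Ot π e (fun i => c i + c' i) := by
  obtain ⟨C, hC, h⟩ := h
  obtain ⟨C', hC', h'⟩ := h'
  refine ⟨C + C', by positivity, ?_⟩
  filter_upwards [h, h'] with i hi hi'
  rw [add_mul]
  exact (abs_add_le _ _).trans (add_le_add hi hi')

theorem Ot.neg {e : ℤ} {c : ι → ℝ} (h : Ot π e c) : Ot π e (fun i => -c i) := by
  obtain ⟨C, hC, h⟩ := h
  exact ⟨C, hC, by simpa using h⟩

theorem Ot.sub {e : ℤ} {c c' : ι → ℝ} (h : Ot π e c) (h' : Ot π e c') :
    Ot π e (fun i => c i - c' i) := by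
  simpa [sub_eq_add_neg] using h.add h'.neg

theorem Ot.mul {e e' : ℤ} {c c' : ι → ℝ} (h : Ot π e c) (h' : Ot π e' c') :
    Ot π (e + e') (fun i => c i * c' i) := by
  obtain ⟨C, hC, h⟩ := h
  obtain ⟨C', hC', h'⟩ := h'
  refine ⟨C * C', by positivity, ?_⟩
  filter_upwards [h, h', π.pos] with i hi hi' h0
  rw [abs_mul, zpow_add₀ h0.ne']
  calc |c i| * |c' i| ≤ (C * π.t i ^ e) * (C' * π.t i ^ e') :=
        mul_le_mul hi hi' (abs_nonneg _) ((abs_nonneg _).trans hi)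
    _ = _ := by ring

theorem Ot.cmul {e : ℤ} {c : ι → ℝ} (h : Ot π e c) (a : ℝ) : Ot π e (fun i => a * c i) := by
  simpa using (Ot.const π a).mul h

theorem Ot.small {e e' : ℤ} {c : ι → ℝ} (h : Ot π e c) (he : e' < e) {ε : ℝ} (hε : 0 < ε) :
    ∀ᶠ i in π.l, |c i| ≤ ε * π.t i ^ e' := by
  obtain ⟨C, hC, h⟩ := h.mono (e' := e' + 1) he
  filter_upwards [h, π.pos, π.small_mul C hε] with i hi h0 h1
  rw [zpow_add_one₀ h0.ne'] at hi
  have := zpow_pos h0 e'
  nlinarith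

theorem Par.tpow_le (π : Par ι) {e : ℤ} (he : 1 ≤ e) (C : ℝ) {ε : ℝ} (hε : 0 < ε) :
    ∀ᶠ i in π.l, C * π.t i ^ e ≤ ε := by
  have := ((Ot.tpow π e).cmul C).small (e' := 0) he hε
  filter_upwards [this] with i hi
  simpa using (le_abs_self _).trans hi

theorem Par.tpow_le' (π : Par ι) {e e' : ℤ} (he : e' < e) (C : ℝ) {ε : ℝ} (hε : 0 < ε) :
    ∀ᶠ i in π.l, C * π.t i ^ e ≤ ε * π.t i ^ e' := by
  have := ((Ot.tpow π e).cmul C).small he hε
  filter_upwards [this] with i hi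
  exact (le_abs_self _).trans hi

theorem Bt.reg {k : ℕ} {a e : ℤ} {f : ι → Fn} (h : Bt π k a e f) : ∀ᶠ i in π.l, Reg k (f i) := by
  obtain ⟨C, hC, h⟩ := h
  exact h.mono (fun i hi => hi.1)

theorem Bt.mono {k k' : ℕ} {a a' e e' : ℤ} {f : ι → Fn} (h : Bt π k a e f) (hk : k' ≤ k)
    (ha : a ≤ a') (he : e' ≤ e) : Bt π k' a' e' f := by
  obtain ⟨C, hC, h⟩ := h
  refine ⟨C, hC, ?_⟩
  filter_upwards [h, π.pos, π.small one_pos] with i hi h0 h1
  exact ⟨hi.1.le hk, (hi.2.le hk).mono (zpow_pos h0 _).le (zpow_anti h0 h1 (by omega))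
    (mul_le_mul_of_nonneg_left (zpow_anti h0 h1 he) hC)⟩

theorem Bt.congr {k : ℕ} {a e : ℤ} {f g : ι → Fn} (h : Bt π k a e f)
    (he : ∀ᶠ i in π.l, g i = f i) : Bt π k a e g := by
  obtain ⟨C, hC, h⟩ := h
  refine ⟨C, hC, ?_⟩
  filter_upwards [h, he] with i hi h0
  rwa [h0]

theorem Bt.dx {k : ℕ} {a e : ℤ} {f : ι → Fn} (h : Bt π (k + 1) a e f) :
    Bt π k a (e - a) (fun i => dx (f i)) := by
  obtain ⟨C, hC, h⟩ := h
  refine ⟨C, hC, ?_⟩
  filter_upwards [h, π.pos] with i hi h0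
  refine ⟨hi.1.dx, ?_⟩
  have := hi.2.2.1
  rwa [mul_assoc, ← zpow_add₀ h0.ne', ← sub_eq_add_neg] at this

theorem Bt.dy {k : ℕ} {a e : ℤ} {f : ι → Fn} (h : Bt π (k + 1) a e f) :
    Bt π k a (e - a) (fun i => dy (f i)) := by
  obtain ⟨C, hC, h⟩ := h
  refine ⟨C, hC, ?_⟩
  filter_upwards [h, π.pos] with i hi h0
  refine ⟨hi.1.dy, ?_⟩
  have := hi.2.2.2
  rwa [mul_assoc, ← zpow_add₀ h0.ne', ← sub_eq_add_neg] at this

theorem Bt.bound {k : ℕ} {a e : ℤ} {f : ι → Fn} (h : Bt π k a e f) :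
    ∃ C : ℝ, 0 ≤ C ∧ ∀ᶠ i in π.l, ∀ z, |f i z| ≤ C * π.t i ^ e := by
  obtain ⟨C, hC, h⟩ := h
  exact ⟨C, hC, h.mono (fun i hi => hi.2.abs)⟩

theorem Bt.bound0 {k : ℕ} {a : ℤ} {f : ι → Fn} (h : Bt π k a 0 f) :
    ∃ C : ℝ, 0 ≤ C ∧ ∀ᶠ i in π.l, ∀ z, |f i z| ≤ C := by
  simpa using h.bound

theorem Bt.small {k : ℕ} {a e e' : ℤ} {f : ι → Fn} (h : Bt π k a e f) (he : e' < e) {ε : ℝ}
    (hε : 0 < ε) : ∀ᶠ i in π.l, ∀ z, |f i z| ≤ ε * π.t i ^ e' := by
  obtain ⟨C, hC, h⟩ := h.bound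
  have := ((Ot.tpow π e).cmul C).small he hε
  filter_upwards [h, this] with i hi h1 z
  exact (hi z).trans ((le_abs_self _).trans h1)

theorem Bt.at {k : ℕ} {a e : ℤ} {f : ι → Fn} (h : Bt π k a e f) (z : ι → Om) :
    Ot π e (fun i => f i (z i)) := by
  obtain ⟨C, hC, h⟩ := h.bound
  exact ⟨C, hC, h.mono (fun i hi => hi (z i))⟩

theorem Bt.zero_of {a e : ℤ} {f : ι → Fn} {C : ℝ} (hr : ∀ᶠ i in π.l, Reg 0 (f i))
    (h : ∀ᶠ i in π.l, ∀ z, |f i z| ≤ C * π.t i ^ e) : Bt π 0 a e f := by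
  refine ⟨|C|, abs_nonneg _, ?_⟩
  filter_upwards [hr, h, π.pos] with i h1 h2 h0
  exact ⟨h1, fun z => (h2 z).trans
    (mul_le_mul_of_nonneg_right (le_abs_self _) (zpow_pos h0 _).le)⟩

theorem Bt.succ {k : ℕ} {a e : ℤ} {f : ι → Fn} (hr : ∀ᶠ i in π.l, Reg (k + 1) (f i))
    (h0 : Bt π 0 a e f) (hx : Bt π k a (e - a) (fun i => P229.dx (f i)))
    (hy : Bt π k a (e - a) (fun i => P229.dy (f i))) : Bt π (k + 1) a e f := by
  obtain ⟨C0, hC0, h0⟩ := h0
  obtain ⟨C1, hC1, hx⟩ := hx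
  obtain ⟨C2, hC2, hy⟩ := hy
  refine ⟨C0 + C1 + C2, by positivity, ?_⟩
  filter_upwards [hr, h0, hx, hy, π.pos] with i h1 h2 h3 h4 h5
  have p1 := zpow_pos h5 e
  have p2 := zpow_pos h5 (-a)
  have p3 := zpow_pos h5 (e - a)
  have e1 : (C0 + C1 + C2) * π.t i ^ e * π.t i ^ (-a) = (C0 + C1 + C2) * π.t i ^ (e - a) := by
    rw [mul_assoc, ← zpow_add₀ h5.ne', ← sub_eq_add_neg]
  refine ⟨h1, fun z => (h2.2 z).trans (by gcongr; linarith), ?_, ?_⟩
  · rw [e1]; exact h3.2.mono p2.le le_rfl (by gcongr; linarith)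
  · rw [e1]; exact h4.2.mono p2.le le_rfl (by gcongr; linarith)

theorem Bt.cst {k : ℕ} {a e : ℤ} {c : ι → ℝ} (h : Ot π e c) :
    Bt π k a e (fun i => cst (c i)) := by
  obtain ⟨C, hC, h⟩ := h
  refine ⟨C, hC, ?_⟩
  filter_upwards [h, π.pos] with i hi h0
  exact ⟨inferInstance, B.cst (zpow_pos h0 _).le hi⟩

theorem Bt.const {k : ℕ} {a : ℤ} (c : ℝ) : Bt π k a 0 (fun _ => P229.cst c) :=
  Bt.cst (Ot.const π c)

theorem Bt.one {k : ℕ} {a : ℤ} : Bt π k a 0 (fun _ => 1) := Bt.const 1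

theorem Bt.two {k : ℕ} {a : ℤ} : Bt π k a 0 (fun _ => 2) := Bt.const 2

theorem Bt.zero {k : ℕ} {a e : ℤ} : Bt π k a e (fun _ => 0) := by
  refine ⟨0, le_rfl, ?_⟩
  filter_upwards [π.pos] with i h0
  exact ⟨inferInstance, B.zero (zpow_pos h0 _).le (by simp)⟩

theorem Bt.add {k : ℕ} {a e : ℤ} {f g : ι → Fn} (h : Bt π k a e f) (h' : Bt π k a e g) :
    Bt π k a e (fun i => f i + g i) := by
  obtain ⟨C, hC, h⟩ := h
  obtain ⟨C', hC', h'⟩ := h'
  refine ⟨C + C', by positivity, ?_⟩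
  filter_upwards [h, h'] with i hi hi'
  have := hi.1; have := hi'.1
  rw [add_mul]
  exact ⟨inferInstance, B.add hi.1 hi'.1 hi.2 hi'.2⟩

theorem Bt.neg {k : ℕ} {a e : ℤ} {f : ι → Fn} (h : Bt π k a e f) :
    Bt π k a e (fun i => -f i) := by
  obtain ⟨C, hC, h⟩ := h
  refine ⟨C, hC, ?_⟩
  filter_upwards [h] with i hi
  have := hi.1
  exact ⟨inferInstance, hi.2.neg⟩

theorem Bt.sub {k : ℕ} {a e : ℤ} {f g : ι → Fn} (h : Bt π k a e f) (h' : Bt π k a e g) :
    Bt π k a e (fun i => f i - g i) := by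
  simpa [sub_eq_add_neg] using h.add h'.neg

theorem Bt.mul {k : ℕ} {a e e' : ℤ} {f g : ι → Fn} (h : Bt π k a e f) (h' : Bt π k a e' g) :
    Bt π k a (e + e') (fun i => f i * g i) := by
  obtain ⟨C, hC, h⟩ := h
  obtain ⟨C', hC', h'⟩ := h'
  refine ⟨2 ^ k * (C * C'), by positivity, ?_⟩
  filter_upwards [h, h', π.pos] with i hi hi' h0
  have := hi.1; have := hi'.1
  refine ⟨inferInstance, ?_⟩
  have := B.mul hi.1 hi'.1 hi.2 hi'.2
  rw [zpow_add₀ h0.ne']
  convert this using 1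
  ring

theorem Bt.mul' {k : ℕ} {a e e' e'' : ℤ} {f g : ι → Fn} (h : Bt π k a e f) (h' : Bt π k a e' g)
    (he : e'' ≤ e + e') : Bt π k a e'' (fun i => f i * g i) :=
  (h.mul h').mono le_rfl le_rfl he

theorem Bt.sq {k : ℕ} {a e : ℤ} {f : ι → Fn} (h : Bt π k a e f) :
    Bt π k a (e + e) (fun i => f i ^ 2) := by
  simpa [_root_.sq] using h.mul h

theorem Bt.inv {k : ℕ} {a e : ℤ} {f : ι → Fn} (h : Bt π k a e f) {c : ℝ} (hc : 0 < c)
    (hl : ∀ᶠ i in π.l, ∀ z, c * π.t i ^ e ≤ |f i z|) : Bt π k a (-e) (fun i => (f i)⁻¹) := by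
  have hz : ∀ᶠ i in π.l, NZ (f i) := by
    filter_upwards [hl, π.pos] with i hi h0
    refine ⟨fun z hz => ?_⟩
    have := hi z
    rw [hz, abs_zero] at this
    have := zpow_pos h0 e
    nlinarith
  have hr : ∀ {k : ℕ}, Bt π k a e f → ∀ᶠ i in π.l, Reg k (f i)⁻¹ := fun h => by
    filter_upwards [h.reg, hz] with i h1 h2
    infer_instance
  have h0 : Bt π 0 a (-e) (fun i => (f i)⁻¹) := by
    refine Bt.zero_of (C := c⁻¹) (hr (h.mono (Nat.zero_le _) le_rfl le_rfl)) ?_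
    filter_upwards [hl, π.pos] with i hi h0 z
    have p := zpow_pos h0 e
    rw [Pi.inv_apply, abs_inv, zpow_neg, ← mul_inv]
    exact inv_anti₀ (by positivity) (hi z)
  induction k with
  | zero => exact h0
  | succ k ih =>
    have ih' := ih (h.mono (Nat.le_succ k) le_rfl le_rfl)
    refine Bt.succ (hr h) h0 ?_ ?_
    · refine (((h.dx.mul ih').mul' ih' (by omega)).neg).congr ?_
      filter_upwards [h.reg, hz] with i h1 h2
      have := h1.le (j := 1) (by omega)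
      exact dx_inv _
    · refine (((h.dy.mul ih').mul' ih' (by omega)).neg).congr ?_
      filter_upwards [h.reg, hz] with i h1 h2
      have := h1.le (j := 1) (by omega)
      exact dy_inv _

/-- All derivatives of `g` are bounded. -/
def AllBdd (g : ℝ → ℝ) : Prop := ∀ j : ℕ, ∃ C : ℝ, ∀ x, |deriv^[j] g x| ≤ C

theorem AllBdd.deriv {g : ℝ → ℝ} (h : AllBdd g) : AllBdd (deriv g) := fun j => h (j + 1)

theorem AllBdd.of_compact {g : ℝ → ℝ} [hg : Smo g] (hc : HasCompactSupport g) : AllBdd g := by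
  intro j
  induction j generalizing g with
  | zero =>
    obtain ⟨C, hC⟩ := hc.exists_bound_of_continuous hg.out.continuous
    exact ⟨C, hC⟩
  | succ j ih => exact ih hc.deriv

theorem Bt.cmp {k : ℕ} {a : ℤ} {f : ι → Fn} {g : ℝ → ℝ} [Smo g] (hg : AllBdd g)
    (hr : ∀ᶠ i in π.l, Reg (k + 1) (f i)) (hx : Bt π k a (-a) (fun i => P229.dx (f i)))
    (hy : Bt π k a (-a) (fun i => P229.dy (f i))) :
    Bt π (k + 1) a 0 (fun i => cmp g (f i)) := by
  have h0 : ∀ {g : ℝ → ℝ} [Smo g], AllBdd g → Bt π 0 a 0 (fun i => P229.cmp g (f i)) := by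
    intro g _ hg
    obtain ⟨C, hC⟩ := hg 0
    refine Bt.zero_of (C := C) ?_ (Eventually.of_forall fun i z => by simpa using hC _)
    filter_upwards [hr] with i hi
    have := hi.le (Nat.zero_le _)
    infer_instance
  have hr' : ∀ {g : ℝ → ℝ} [Smo g] (j : ℕ), j ≤ k + 1 →
      ∀ᶠ i in π.l, Reg j (P229.cmp g (f i)) := by
    intro g _ j hj
    filter_upwards [hr] with i hi
    have := hi.le hj
    infer_instance
  have main : ∀ j : ℕ, j ≤ k + 1 → ∀ {g : ℝ → ℝ} [Smo g], AllBdd g →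
      Bt π j a 0 (fun i => P229.cmp g (f i)) := by
    intro j
    induction j with
    | zero => intro _ g _ hg; exact h0 hg
    | succ j ih =>
      intro hj g _ hg
      refine Bt.succ (hr' _ hj) (h0 hg) ?_ ?_
      · refine ((ih (by omega) hg.deriv).mul' (hx.mono (by omega) le_rfl le_rfl)
          (by omega)).congr ?_
        filter_upwards [hr] with i hi
        have := hi.le (j := 1) (by omega)
        exact dx_cmp _ _
      · refine ((ih (by omega) hg.deriv).mul' (hy.mono (by omega) le_rfl le_rfl)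
          (by omega)).congr ?_
        filter_upwards [hr] with i hi
        have := hi.le (j := 1) (by omega)
        exact dy_cmp _ _
  exact main _ le_rfl hg

theorem Bt.taylor {k : ℕ} {e : ℤ} {f : ι → Fn} (hr : ∀ᶠ i in π.l, Reg (k + 1) (f i))
    (h0 : ∀ᶠ i in π.l, f i o = 0) (hx : Bt π k 0 e (fun i => P229.dx (f i)))
    (hy : Bt π k 0 e (fun i => P229.dy (f i))) : Bt π (k + 1) 0 e f := by
  refine Bt.succ hr ?_ (by simpa using hx) (by simpa using hy)
  obtain ⟨C1, hC1, h1⟩ := hx.bound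
  obtain ⟨C2, hC2, h2⟩ := hy.bound
  refine Bt.zero_of (C := 3 * (C1 + C2)) (hr.mono fun i hi => hi.le (Nat.zero_le _)) ?_
  filter_upwards [hr, h0, h1, h2, π.pos] with i hi hi0 hi1 hi2 hp z
  have p := zpow_pos hp e
  have := lip (hi.le (j := 1) (by omega)) (s := (C1 + C2) * π.t i ^ e)
    (fun z => (hi1 z).trans (by gcongr; linarith)) (fun z => (hi2 z).trans (by gcongr; linarith))
    z o
  rw [hi0, sub_zero, o_val, sub_zero] at this
  have hz := norm_le_Om z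
  have : 0 ≤ (C1 + C2) * π.t i ^ e := by positivity
  nlinarith

theorem Bt.cx {k : ℕ} : Bt π k 0 0 (fun _ => cx) := by
  cases k with
  | zero =>
    exact Bt.zero_of (C := 2) (Eventually.of_forall fun _ => inferInstance)
      (Eventually.of_forall fun i z => by
        have := norm_le_Om z
        have h : |(z : P).1| ≤ ‖(z : P)‖ := norm_fst_le (z : P)
        simp; linarith)
  | succ k =>
    refine Bt.taylor (Eventually.of_forall fun _ => inferInstance)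
      (Eventually.of_forall fun _ => by simp) ?_ ?_
    · simpa [dx_cx] using Bt.one
    · simpa [dy_cx] using Bt.zero

theorem Bt.cy {k : ℕ} : Bt π k 0 0 (fun _ => cy) := by
  cases k with
  | zero =>
    exact Bt.zero_of (C := 2) (Eventually.of_forall fun _ => inferInstance)
      (Eventually.of_forall fun i z => by
        have := norm_le_Om z
        have h : |(z : P).2| ≤ ‖(z : P)‖ := norm_snd_le (z : P)
        simp; linarith)
  | succ k =>
    refine Bt.taylor (Eventually.of_forall fun _ => inferInstance)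
      (Eventually.of_forall fun _ => by simp) ?_ ?_
    · simpa [dx_cy] using Bt.zero
    · simpa [dy_cy] using Bt.one

theorem Bt.br {k : ℕ} {a e e' : ℤ} {f g : ι → Fn}
    (fx : Bt π k a e (fun i => P229.dx (f i))) (fy : Bt π k a e (fun i => P229.dy (f i)))
    (gx : Bt π k a e' (fun i => P229.dx (g i))) (gy : Bt π k a e' (fun i => P229.dy (g i))) :
    Bt π k a (e + e') (fun i => br (f i) (g i)) :=
  (fx.mul gy).sub (fy.mul gx)

/-- A pair of coordinate functions with bounded derivatives and bounded inverse Jacobian. -/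
structure Crd (π : Par ι) (k : ℕ) (a : ℤ) (α β : ι → Fn) : Prop where
  ax : Bt π k a 0 (fun i => dx (α i))
  ay : Bt π k a 0 (fun i => dy (α i))
  bx : Bt π k a 0 (fun i => dx (β i))
  by' : Bt π k a 0 (fun i => dy (β i))
  inv : Bt π k a 0 (fun i => (br (α i) (β i))⁻¹)

theorem Crd.mono {k k' : ℕ} {a a' : ℤ} {α β : ι → Fn} (h : Crd π k a α β) (hk : k' ≤ k)
    (ha : a ≤ a') : Crd π k' a' α β :=
  ⟨h.ax.mono hk ha le_rfl, h.ay.mono hk ha le_rfl, h.bx.mono hk ha le_rfl,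
    h.by'.mono hk ha le_rfl, h.inv.mono hk ha le_rfl⟩

theorem Crd.d1' {k : ℕ} {a e : ℤ} {α β f : ι → Fn} (h : Crd π k a α β)
    (fx : Bt π k a e (fun i => dx (f i))) (fy : Bt π k a e (fun i => dy (f i))) :
    Bt π k a e (fun i => d1 (α i) (β i) (f i)) :=
  (Bt.br fx fy h.bx h.by').mul' h.inv (by omega)

theorem Crd.d2' {k : ℕ} {a e : ℤ} {α β f : ι → Fn} (h : Crd π k a α β)
    (fx : Bt π k a e (fun i => dx (f i))) (fy : Bt π k a e (fun i => dy (f i))) :
    Bt π k a e (fun i => d2 (α i) (β i) (f i)) :=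
  (Bt.br h.ax h.ay fx fy).mul' h.inv (by omega)

theorem Crd.d1 {k j : ℕ} {a e : ℤ} {α β f : ι → Fn} (h : Crd π k a α β)
    (hf : Bt π (j + 1) a e f) (hj : j ≤ k) : Bt π j a (e - a) (fun i => d1 (α i) (β i) (f i)) :=
  (h.mono hj le_rfl).d1' hf.dx hf.dy

theorem Crd.d2 {k j : ℕ} {a e : ℤ} {α β f : ι → Fn} (h : Crd π k a α β)
    (hf : Bt π (j + 1) a e f) (hj : j ≤ k) : Bt π j a (e - a) (fun i => d2 (α i) (β i) (f i)) :=
  (h.mono hj le_rfl).d2' hf.dx hf.dy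

end Vale.Agent.P229
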