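import Vale.Agent.P229.Defs

/-! Calculus on the fixed open square `Om`: functions on the subtype, directional derivatives,
a regularity class and the Leibniz rules. -/

namespace Vale.Agent.P229

open scoped ContDiff Topology
open Set Filter

/-- The fixed domain: the open sup-norm ball of radius `7/5`. -/
def Om : Set P := Metric.ball 0 (7 / 5)

theorem isOpen_Om : IsOpen Om := Metric.isOpen_ball

theorem mem_Om {z : P} : z ∈ Om ↔ ‖z‖ < 7 / 5 := by simp [Om]

/-- Real functions on `Om`. -/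
abbrev Fn : Type := Om → ℝ

/-- The origin as a point of `Om`. -/
def o : Om := ⟨0, by rw [mem_Om]; norm_num⟩

open Classical in
/-- Extension by zero. -/
noncomputable def ext (f : Fn) : P → ℝ := fun z => if h : z ∈ Om then f ⟨z, h⟩ else 0

/-- Restriction of a plain function. -/
def res (g : P → ℝ) : Fn := fun z => g z

@[simp] theorem res_apply (g : P → ℝ) (z : Om) : res g z = g z := rfl

@[simp] theorem ext_apply (f : Fn) (z : Om) : ext f z = f z := by
  simp [ext, z.2]

theorem ext_of_mem (f : Fn) {z : P} (hz : z ∈ Om) : ext f z = f ⟨z, hz⟩ := by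
  simp [ext, hz]

theorem ext_of_not_mem (f : Fn) {z : P} (hz : z ∉ Om) : ext f z = 0 := by
  simp [ext, hz]

theorem ext_ev {f : Fn} {g : P → ℝ} (h : ∀ w : Om, f w = g w) (z : Om) :
    ext f =ᶠ[𝓝 (z : P)] g := by
  filter_upwards [isOpen_Om.mem_nhds z.2] with w hw
  rw [ext_of_mem f hw, h]

theorem ext_eqOn {f : Fn} {g : P → ℝ} (h : ∀ w : Om, f w = g w) : EqOn (ext f) g Om := by
  intro w hw
  rw [ext_of_mem f hw, h]

/-- Directional derivative. -/
noncomputable def dd (v : P) (f : Fn) : Fn := fun z => fderiv ℝ (ext f) z v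

/-- Partial derivative in the first variable. -/
noncomputable def dx (f : Fn) : Fn := dd (1, 0) f

/-- Partial derivative in the second variable. -/
noncomputable def dy (f : Fn) : Fn := dd (0, 1) f

/-- Constant function. -/
def cst (c : ℝ) : Fn := fun _ => c

@[simp] theorem cst_apply (c : ℝ) (z : Om) : cst c z = c := rfl

/-- First coordinate. -/
def cx : Fn := fun z => (z : P).1

/-- Second coordinate. -/
def cy : Fn := fun z => (z : P).2

@[simp] theorem cx_apply (z : Om) : cx z = (z : P).1 := rfl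
@[simp] theorem cy_apply (z : Om) : cy z = (z : P).2 := rfl

/-- Composition with a function of one real variable. -/
def cmp (g : ℝ → ℝ) (f : Fn) : Fn := fun z => g (f z)

@[simp] theorem cmp_apply (g : ℝ → ℝ) (f : Fn) (z : Om) : cmp g f z = g (f z) := rfl

/-- `f` is of class `C^k` on `Om`. -/
class Reg (k : ℕ) (f : Fn) : Prop where
  out : ContDiffOn ℝ k (ext f) Om

/-- `f` vanishes nowhere. -/
class NZ (f : Fn) : Prop where
  out : ∀ z, f z ≠ 0

/-- A smooth function of one variable. -/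
class Smo (g : ℝ → ℝ) : Prop where
  out : ContDiff ℝ ∞ g

theorem Reg.of_plain {k : ℕ} {f : Fn} {g : P → ℝ} (hg : ContDiffOn ℝ k g Om)
    (h : ∀ w : Om, f w = g w) : Reg k f :=
  ⟨hg.congr (ext_eqOn h)⟩

theorem Reg.le {j k : ℕ} {f : Fn} (h : Reg k f) (hjk : j ≤ k) : Reg j f :=
  ⟨h.out.of_le (by exact_mod_cast hjk)⟩

theorem Reg.contDiffAt {k : ℕ} {f : Fn} (h : Reg k f) (z : Om) : ContDiffAt ℝ k (ext f) z :=
  h.out.contDiffAt (isOpen_Om.mem_nhds z.2)

theorem Reg.diffAt {f : Fn} (h : Reg 1 f) (z : Om) : DifferentiableAt ℝ (ext f) z :=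
  (h.contDiffAt z).differentiableAt (by simp)

theorem Reg.res {k : ℕ} {g : P → ℝ} (hg : ContDiff ℝ k g) : Reg k (res g) :=
  Reg.of_plain hg.contDiffOn (fun _ => rfl)

instance Reg.add {k : ℕ} {f g : Fn} [hf : Reg k f] [hg : Reg k g] : Reg k (f + g) :=
  Reg.of_plain (hf.out.add hg.out) (fun w => by simp)

instance Reg.sub {k : ℕ} {f g : Fn} [hf : Reg k f] [hg : Reg k g] : Reg k (f - g) :=
  Reg.of_plain (hf.out.sub hg.out) (fun w => by simp)

instance Reg.neg {k : ℕ} {f : Fn} [hf : Reg k f] : Reg k (-f) :=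
  Reg.of_plain hf.out.neg (fun w => by simp)

instance Reg.mul {k : ℕ} {f g : Fn} [hf : Reg k f] [hg : Reg k g] : Reg k (f * g) :=
  Reg.of_plain (hf.out.mul hg.out) (fun w => by simp)

instance Reg.pow {k n : ℕ} {f : Fn} [hf : Reg k f] : Reg k (f ^ n) :=
  Reg.of_plain (hf.out.pow n) (fun w => by simp)

instance Reg.cst {k : ℕ} {c : ℝ} : Reg k (cst c) :=
  Reg.of_plain (g := fun _ => c) contDiffOn_const (fun w => by simp)

instance Reg.zero {k : ℕ} : Reg k (0 : Fn) := Reg.cst (c := 0)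

instance Reg.one {k : ℕ} : Reg k (1 : Fn) := Reg.cst (c := 1)

instance Reg.ofNat {k n : ℕ} [n.AtLeastTwo] : Reg k (no_index (OfNat.ofNat n : Fn)) :=
  Reg.cst (c := OfNat.ofNat n)

instance Reg.cx {k : ℕ} : Reg k cx :=
  Reg.of_plain (g := fun z => z.1) contDiff_fst.contDiffOn (fun w => by simp)

instance Reg.cy {k : ℕ} : Reg k cy :=
  Reg.of_plain (g := fun z => z.2) contDiff_snd.contDiffOn (fun w => by simp)

instance Reg.inv {k : ℕ} {f : Fn} [hf : Reg k f] [hz : NZ f] : Reg k f⁻¹ :=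
  Reg.of_plain (hf.out.inv (fun w hw => by rw [ext_of_mem f hw]; exact hz.out _))
    (fun w => by simp)

instance Reg.cmp {k : ℕ} {g : ℝ → ℝ} {f : Fn} [hg : Smo g] [hf : Reg k f] : Reg k (cmp g f) :=
  Reg.of_plain ((hg.out.of_le (by exact_mod_cast le_top)).comp_contDiffOn hf.out)
    (fun w => by simp)

theorem Reg.sum {k : ℕ} {ι : Type*} (s : Finset ι) (f : ι → Fn) (h : ∀ i ∈ s, Reg k (f i)) :
    Reg k (∑ i ∈ s, f i) := by
  classical
  induction s using Finset.induction_on with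
  | empty => simpa using Reg.zero
  | insert a s ha ih =>
    rw [Finset.sum_insert ha]
    have := h a (Finset.mem_insert_self a s)
    have := ih (fun i hi => h i (Finset.mem_insert_of_mem hi))
    infer_instance

theorem Reg.dd {k : ℕ} {f : Fn} (v : P) (hf : Reg (k + 1) f) : Reg k (dd v f) := by
  have h1 : ContDiffOn ℝ k (fderiv ℝ (ext f)) Om :=
    hf.out.fderiv_of_isOpen isOpen_Om (by simp)
  exact Reg.of_plain (g := fun z => fderiv ℝ (ext f) z v) (h1.clm_apply contDiffOn_const)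
    (fun w => rfl)

theorem Reg.dx {k : ℕ} {f : Fn} (hf : Reg (k + 1) f) : Reg k (dx f) := hf.dd _
theorem Reg.dy {k : ℕ} {f : Fn} (hf : Reg (k + 1) f) : Reg k (dy f) := hf.dd _

instance Reg.dx0 {f : Fn} [hf : Reg 1 f] : Reg 0 (P229.dx f) := hf.dx
instance Reg.dx1 {f : Fn} [hf : Reg 2 f] : Reg 1 (P229.dx f) := hf.dx
instance Reg.dx2 {f : Fn} [hf : Reg 3 f] : Reg 2 (P229.dx f) := hf.dx
instance Reg.dx3 {f : Fn} [hf : Reg 4 f] : Reg 3 (P229.dx f) := hf.dx
instance Reg.dy0 {f : Fn} [hf : Reg 1 f] : Reg 0 (P229.dy f) := hf.dy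
instance Reg.dy1 {f : Fn} [hf : Reg 2 f] : Reg 1 (P229.dy f) := hf.dy
instance Reg.dy2 {f : Fn} [hf : Reg 3 f] : Reg 2 (P229.dy f) := hf.dy
instance Reg.dy3 {f : Fn} [hf : Reg 4 f] : Reg 3 (P229.dy f) := hf.dy

instance (priority := 50) Reg.down0 {f : Fn} [hf : Reg 1 f] : Reg 0 f := hf.le (by norm_num)
instance (priority := 50) Reg.down1 {f : Fn} [hf : Reg 2 f] : Reg 1 f := hf.le (by norm_num)
instance (priority := 50) Reg.down2 {f : Fn} [hf : Reg 3 f] : Reg 2 f := hf.le (by norm_num)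
instance (priority := 50) Reg.down3 {f : Fn} [hf : Reg 4 f] : Reg 3 f := hf.le (by norm_num)

theorem dd_of_plain {f : Fn} {g : P → ℝ} (h : ∀ w : Om, f w = g w) (v : P) (z : Om) :
    dd v f z = fderiv ℝ g z v := by
  unfold dd
  rw [(ext_ev h z).fderiv_eq]

theorem dd_res (g : P → ℝ) (v : P) (z : Om) : dd v (res g) z = fderiv ℝ g z v :=
  dd_of_plain (fun _ => rfl) v z

theorem dd_add (v : P) (f g : Fn) [hf : Reg 1 f] [hg : Reg 1 g] :
    dd v (f + g) = dd v f + dd v g := by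
  funext z
  rw [dd_of_plain (g := fun w => ext f w + ext g w) (fun w => by simp),
    fderiv_fun_add (hf.diffAt z) (hg.diffAt z)]
  rfl

theorem dd_sub (v : P) (f g : Fn) [hf : Reg 1 f] [hg : Reg 1 g] :
    dd v (f - g) = dd v f - dd v g := by
  funext z
  rw [dd_of_plain (g := fun w => ext f w - ext g w) (fun w => by simp),
    fderiv_fun_sub (hf.diffAt z) (hg.diffAt z)]
  rfl

theorem dd_neg (v : P) (f : Fn) : dd v (-f) = -dd v f := by
  funext z
  rw [dd_of_plain (g := fun w => -ext f w) (fun w => by simp), fderiv_fun_neg]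
  rfl

theorem dd_mul (v : P) (f g : Fn) [hf : Reg 1 f] [hg : Reg 1 g] :
    dd v (f * g) = f * dd v g + dd v f * g := by
  funext z
  rw [dd_of_plain (g := fun w => ext f w * ext g w) (fun w => by simp),
    fderiv_fun_mul (hf.diffAt z) (hg.diffAt z)]
  simp [dd, mul_comm]

theorem dd_cst (v : P) (c : ℝ) : dd v (cst c) = 0 := by
  funext z
  rw [dd_of_plain (g := fun _ => c) (fun w => by simp)]
  simp

theorem dd_cmp (v : P) (g : ℝ → ℝ) (f : Fn) [hg : Smo g] [hf : Reg 1 f] :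
    dd v (cmp g f) = cmp (deriv g) f * dd v f := by
  funext z
  have h1 : HasDerivAt g (deriv g (f z)) (ext f z) := by
    rw [ext_apply]
    exact (hg.out.differentiable (by simp) _).hasDerivAt
  have h2 := h1.comp_hasFDerivAt (z : P) (hf.diffAt z).hasFDerivAt
  rw [dd_of_plain (g := g ∘ ext f) (fun w => by simp), h2.fderiv]
  simp [dd]

theorem dd_inv (v : P) (f : Fn) [hf : Reg 1 f] [hz : NZ f] :
    dd v f⁻¹ = -(dd v f * f⁻¹ * f⁻¹) := by
  have h1 : f * f⁻¹ = cst 1 := by
    funext z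
    simp [hz.out z]
  have h2 := dd_mul v f f⁻¹
  rw [h1, dd_cst] at h2
  funext z
  have h3 := congrFun h2 z
  have h4 := hz.out z
  simp only [Pi.zero_apply, Pi.add_apply, Pi.mul_apply, Pi.inv_apply, Pi.neg_apply] at h3 ⊢
  field_simp
  field_simp at h3
  linarith

theorem dd_comm (v w : P) (f : Fn) [hf : Reg 2 f] : dd v (dd w f) = dd w (dd v f) := by
  funext z
  have hs : IsSymmSndFDerivAt ℝ (ext f) z :=
    (hf.contDiffAt z).isSymmSndFDerivAt (by simp)
  have hd : DifferentiableAt ℝ (fderiv ℝ (ext f)) z :=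
    ((hf.contDiffAt z).fderiv_right (m := 1) (by norm_num)).differentiableAt (by simp)
  rw [dd_of_plain (f := dd w f) (g := fun y => fderiv ℝ (ext f) y w) (fun _ => rfl),
    dd_of_plain (f := dd v f) (g := fun y => fderiv ℝ (ext f) y v) (fun _ => rfl),
    fderiv_clm_apply hd (differentiableAt_const _), fderiv_clm_apply hd (differentiableAt_const _)]
  simp [hs.eq v w]

/-- Locality of derivatives. -/
theorem dd_congr {f g : Fn} {z : Om} (h : f =ᶠ[𝓝 z] g) (v : P) : dd v f =ᶠ[𝓝 z] dd v g := by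
  have h1 : ext f =ᶠ[𝓝 (z : P)] ext g := by
    have h2 := (isOpen_Om.isOpenEmbedding_subtypeVal.map_nhds_eq z)
    rw [← h2]
    simpa [EventuallyEq, eventually_map] using h
  have h3 := h1.fderiv (𝕜 := ℝ)
  have h4 := continuous_subtype_val.continuousAt.tendsto.eventually h3
  filter_upwards [h4] with w hw
  simp [dd, hw]

theorem Reg.continuous {f : Fn} (hf : Reg 0 f) : Continuous f := by
  have h1 : ContinuousOn (ext f) Om := hf.out.continuousOn
  have h2 := continuousOn_iff_continuous_domRestrict.1 h1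
  convert h2 using 1
  funext z
  simp

section xy

variable (f g : Fn)

theorem dx_add [Reg 1 f] [Reg 1 g] : dx (f + g) = dx f + dx g := dd_add _ f g
theorem dy_add [Reg 1 f] [Reg 1 g] : dy (f + g) = dy f + dy g := dd_add _ f g
theorem dx_sub [Reg 1 f] [Reg 1 g] : dx (f - g) = dx f - dx g := dd_sub _ f g
theorem dy_sub [Reg 1 f] [Reg 1 g] : dy (f - g) = dy f - dy g := dd_sub _ f g
theorem dx_neg : dx (-f) = -dx f := dd_neg _ f
theorem dy_neg : dy (-f) = -dy f := dd_neg _ f
theorem dx_mul [Reg 1 f] [Reg 1 g] : dx (f * g) = f * dx g + dx f * g := dd_mul _ f g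
theorem dy_mul [Reg 1 f] [Reg 1 g] : dy (f * g) = f * dy g + dy f * g := dd_mul _ f g
theorem dx_cst (c : ℝ) : dx (cst c) = 0 := dd_cst _ c
theorem dy_cst (c : ℝ) : dy (cst c) = 0 := dd_cst _ c
theorem dx_zero : dx 0 = 0 := dd_cst _ 0
theorem dy_zero : dy 0 = 0 := dd_cst _ 0
theorem dx_one : dx 1 = 0 := dd_cst _ 1
theorem dy_one : dy 1 = 0 := dd_cst _ 1
theorem dx_ofNat (n : ℕ) [n.AtLeastTwo] : dx (no_index (OfNat.ofNat n : Fn)) = 0 :=
  dd_cst _ (OfNat.ofNat n)
theorem dy_ofNat (n : ℕ) [n.AtLeastTwo] : dy (no_index (OfNat.ofNat n : Fn)) = 0 :=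
  dd_cst _ (OfNat.ofNat n)
theorem dx_inv [Reg 1 f] [NZ f] : dx f⁻¹ = -(dx f * f⁻¹ * f⁻¹) := dd_inv _ f
theorem dy_inv [Reg 1 f] [NZ f] : dy f⁻¹ = -(dy f * f⁻¹ * f⁻¹) := dd_inv _ f
theorem dx_cmp (h : ℝ → ℝ) [Smo h] [Reg 1 f] : dx (cmp h f) = cmp (deriv h) f * dx f :=
  dd_cmp _ h f
theorem dy_cmp (h : ℝ → ℝ) [Smo h] [Reg 1 f] : dy (cmp h f) = cmp (deriv h) f * dy f :=
  dd_cmp _ h f
theorem dx_sq [Reg 1 f] : dx (f ^ 2) = 2 * f * dx f := by
  rw [sq, dx_mul]; ring
theorem dy_sq [Reg 1 f] : dy (f ^ 2) = 2 * f * dy f := by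
  rw [sq, dy_mul]; ring
theorem dx_dy [Reg 2 f] : dx (dy f) = dy (dx f) := dd_comm _ _ f

theorem dx_cx : dx cx = 1 := by
  funext z
  rw [dx, dd_of_plain (g := fun z => z.1) (fun w => by simp)]
  simp [fderiv_fst]

theorem dy_cx : dy cx = 0 := by
  funext z
  rw [dy, dd_of_plain (g := fun z => z.1) (fun w => by simp)]
  simp [fderiv_fst]

theorem dx_cy : dx cy = 0 := by
  funext z
  rw [dx, dd_of_plain (g := fun z => z.2) (fun w => by simp)]
  simp [fderiv_snd]

theorem dy_cy : dy cy = 1 := by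
  funext z
  rw [dy, dd_of_plain (g := fun z => z.2) (fun w => by simp)]
  simp [fderiv_snd]

theorem dx_congr {f g : Fn} {z : Om} (h : f =ᶠ[𝓝 z] g) : dx f =ᶠ[𝓝 z] dx g := dd_congr h _
theorem dy_congr {f g : Fn} {z : Om} (h : f =ᶠ[𝓝 z] g) : dy f =ᶠ[𝓝 z] dy g := dd_congr h _

theorem dx_sum {ι : Type*} (s : Finset ι) (f : ι → Fn) (h : ∀ i ∈ s, Reg 1 (f i)) :
    dx (∑ i ∈ s, f i) = ∑ i ∈ s, dx (f i) := by
  classical
  induction s using Finset.induction_on with
  | empty => simpa using dx_zero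
  | insert a s ha ih =>
    have h1 := h a (Finset.mem_insert_self a s)
    have h2 := Reg.sum s f (fun i hi => h i (Finset.mem_insert_of_mem hi))
    rw [Finset.sum_insert ha, Finset.sum_insert ha, dx_add,
      ih (fun i hi => h i (Finset.mem_insert_of_mem hi))]

theorem dy_sum {ι : Type*} (s : Finset ι) (f : ι → Fn) (h : ∀ i ∈ s, Reg 1 (f i)) :
    dy (∑ i ∈ s, f i) = ∑ i ∈ s, dy (f i) := by
  classical
  induction s using Finset.induction_on with
  | empty => simpa using dy_zero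
  | insert a s ha ih =>
    have h1 := h a (Finset.mem_insert_self a s)
    have h2 := Reg.sum s f (fun i hi => h i (Finset.mem_insert_of_mem hi))
    rw [Finset.sum_insert ha, Finset.sum_insert ha, dy_add,
      ih (fun i hi => h i (Finset.mem_insert_of_mem hi))]

end xy

instance Smo.deriv {g : ℝ → ℝ} [hg : Smo g] : Smo (deriv g) :=
  ⟨(contDiff_infty_iff_deriv.1 hg.out).2⟩

/-- The full derivative in terms of the two partial derivatives. -/
theorem fderiv_ext_apply (f : Fn) (z : Om) (v : P) :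
    fderiv ℝ (ext f) z v = v.1 * dx f z + v.2 * dy f z := by
  have : v = v.1 • ((1, 0) : P) + v.2 • ((0, 1) : P) := by
    ext <;> simp
  conv_lhs => rw [this]
  rw [map_add, map_smul, map_smul]
  simp [dx, dy, dd]

end Vale.Agent.P229
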