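import Vale.Agent.P229.Defs

namespace Vale.Agent.P229

open MeasureTheory

lemma sq_integral_le {μ : Measure ℝ} [IsFiniteMeasure μ] {l : ℝ} (hl : 0 < l)
    (hμ : μ.real Set.univ = l) {f : ℝ → ℝ} (h1 : Integrable f μ)
    (h2 : Integrable (fun x => f x ^ 2) μ) : (∫ x, f x ∂μ) ^ 2 ≤ l * ∫ x, f x ^ 2 ∂μ := by
  set S := ∫ x, f x ∂μ with hS
  have h0 : 0 ≤ ∫ x, (f x - S / l) ^ 2 ∂μ := integral_nonneg fun x => sq_nonneg _
  have h3 : (fun x => (f x - S / l) ^ 2) = fun x => f x ^ 2 - 2 * (S / l) * f x + (S / l) ^ 2 := by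
    funext x; ring
  have h6 : Integrable (fun x => f x ^ 2 - 2 * (S / l) * f x) μ := h2.sub (h1.const_mul _)
  rw [h3, integral_add h6 (integrable_const _),
    integral_sub h2 (h1.const_mul _), integral_const_mul, integral_const, hμ, ← hS,
    smul_eq_mul] at h0
  have h4 : 0 ≤ l * (∫ x, f x ^ 2 ∂μ - 2 * (S / l) * S + l * (S / l) ^ 2) := mul_nonneg hl.le h0
  have h5 : l * (∫ x, f x ^ 2 ∂μ - 2 * (S / l) * S + l * (S / l) ^ 2) =
      l * ∫ x, f x ^ 2 ∂μ - S ^ 2 := by field_simp; ring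
  linarith

lemma integrableOn_Ico_of_continuous {f : ℝ → ℝ} (hf : Continuous f) (a b : ℝ) :
    IntegrableOn f (Set.Ico a b) :=
  (hf.continuousOn.integrableOn_Icc).mono_set Set.Ico_subset_Icc_self

lemma sq_sub_le {h h' : ℝ → ℝ} (hd : ∀ x, HasDerivAt h (h' x) x) (hc : Continuous h')
    {a b l : ℝ} (hl : 0 < l) (hab : b - a = l) {x y : ℝ} (hx : x ∈ Set.Ico a b)
    (hy : y ∈ Set.Ico a b) : (h x - h y) ^ 2 ≤ l * ∫ s in Set.Ico a b, h' s ^ 2 := by
  have h1 : |h x - h y| ≤ ∫ s in Set.Ico a b, |h' s| := by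
    rw [← intervalIntegral.integral_eq_sub_of_hasDerivAt (fun s _ => hd s)
      (hc.intervalIntegrable _ _)]
    refine (intervalIntegral.norm_integral_le_integral_norm_uIoc (f := h') (a := y) (b := x)
      (μ := volume)).trans ?_
    refine setIntegral_mono_set (integrableOn_Ico_of_continuous hc.abs a b)
      (Filter.Eventually.of_forall fun s => abs_nonneg _) (HasSubset.Subset.eventuallyLE ?_)
    intro s hs
    rw [Set.mem_uIoc] at hs
    rcases hs with hs | hs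
    · exact ⟨hy.1.trans hs.1.le, hs.2.trans_lt hx.2⟩
    · exact ⟨hx.1.trans hs.1.le, hs.2.trans_lt hy.2⟩
  have h2 := sq_integral_le (μ := volume.restrict (Set.Ico a b)) hl
    (by simp [Measure.real, hab, hl.le]) (f := fun s => |h' s|)
    (integrableOn_Ico_of_continuous hc.abs a b)
    (integrableOn_Ico_of_continuous (hc.abs.pow 2) a b)
  simp only [sq_abs] at h2
  calc (h x - h y) ^ 2 = |h x - h y| ^ 2 := (sq_abs _).symm
    _ ≤ (∫ s in Set.Ico a b, |h' s|) ^ 2 := pow_le_pow_left₀ (abs_nonneg _) h1 2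
    _ ≤ _ := h2

lemma integrableOn_rect {f : P → ℝ} (hf : Continuous f) (a b c d : ℝ) :
    IntegrableOn f (Set.Ico a b ×ˢ Set.Ico c d) :=
  (hf.continuousOn.integrableOn_compact (isCompact_Icc.prod isCompact_Icc)).mono_set
    (Set.prod_mono Set.Ico_subset_Icc_self Set.Ico_subset_Icc_self)

lemma rect_poincare (g : P → ℝ) (hg : ContDiff ℝ 1 g) {a b c d l : ℝ} (hl : 0 < l)
    (hab : b - a = l) (hcd : d - c = l) :
    l ^ 2 * ∫ z in Set.Ico a b ×ˢ Set.Ico c d, g z ^ 2 ≤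
      (∫ z in Set.Ico a b ×ˢ Set.Ico c d, g z) ^ 2 + l ^ 4 * ∫ z in Set.Ico a b ×ˢ Set.Ico c d,
        (fderiv ℝ g z (1, 0) ^ 2 + fderiv ℝ g z (0, 1) ^ 2) := by
  have hgc : Continuous g := hg.continuous
  have hgd : Differentiable ℝ g := hg.differentiable one_ne_zero
  have hfc : Continuous (fderiv ℝ g) := hg.continuous_fderiv one_ne_zero
  have hxc : Continuous fun z => fderiv ℝ g z (1, 0) := by fun_prop
  have hyc : Continuous fun z => fderiv ℝ g z (0, 1) := by fun_prop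
  have i1 := integrableOn_rect hgc a b c d
  have i2 := integrableOn_rect (hgc.fun_pow 2) a b c d
  have ix := integrableOn_rect (hxc.fun_pow 2) a b c d
  have iy := integrableOn_rect (hyc.fun_pow 2) a b c d
  rw [integral_add ix iy]
  set μ := volume.restrict (Set.Ico a b) with hμ
  set ν := volume.restrict (Set.Ico c d) with hν
  have hprod : volume.restrict (Set.Ico a b ×ˢ Set.Ico c d) = μ.prod ν := by
    rw [hμ, hν, Measure.prod_restrict, ← Measure.volume_eq_prod]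
  unfold IntegrableOn at i1 i2 ix iy
  rw [hprod] at i1 i2 ix iy ⊢
  have mμ : μ.real Set.univ = l := by simp [hμ, Measure.real, hab, hl.le]
  have mν : ν.real Set.univ = l := by simp [hν, Measure.real, hcd, hl.le]
  have mp : (μ.prod ν).real Set.univ = l ^ 2 := by
    rw [← Set.univ_prod_univ, measureReal_prod_prod, mμ, mν, sq]
  have hae : ∀ᵐ z ∂(μ.prod ν), z ∈ Set.Ico a b ×ˢ Set.Ico c d := by
    rw [← hprod]
    exact ae_restrict_mem (measurableSet_Ico.prod measurableSet_Ico)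
  let A : ℝ → ℝ := fun y => ∫ x, fderiv ℝ g (x, y) (1, 0) ^ 2 ∂μ
  let B : ℝ → ℝ := fun x => ∫ y, fderiv ℝ g (x, y) (0, 1) ^ 2 ∂ν
  have iA : Integrable A ν := ix.integral_prod_right
  have iB : Integrable B μ := iy.integral_prod_left
  have eA : ∫ z, fderiv ℝ g z (1, 0) ^ 2 ∂(μ.prod ν) = ∫ y, A y ∂ν := integral_prod_symm _ ix
  have eB : ∫ z, fderiv ℝ g z (0, 1) ^ 2 ∂(μ.prod ν) = ∫ x, B x ∂μ := integral_prod _ iy
  have hpt : ∀ z ∈ Set.Ico a b ×ˢ Set.Ico c d, ∀ w ∈ Set.Ico a b ×ˢ Set.Ico c d,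
      (g z - g w) ^ 2 ≤ 2 * l * A z.2 + 2 * l * B w.1 := by
    intro z hz w hw
    have h1 : (g (z.1, z.2) - g (w.1, z.2)) ^ 2 ≤ l * A z.2 := by
      refine sq_sub_le (h := fun x => g (x, z.2)) (h' := fun x => fderiv ℝ g (x, z.2) (1, 0))
        (fun x => ?_) (by fun_prop) hl hab hz.1 hw.1
      exact (hgd (x, z.2)).hasFDerivAt.comp_hasDerivAt x
        ((hasDerivAt_id' x).prodMk (hasDerivAt_const x z.2))
    have h2 : (g (w.1, z.2) - g (w.1, w.2)) ^ 2 ≤ l * B w.1 := by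
      refine sq_sub_le (h := fun y => g (w.1, y)) (h' := fun y => fderiv ℝ g (w.1, y) (0, 1))
        (fun y => ?_) (by fun_prop) hl hcd hz.2 hw.2
      exact (hgd (w.1, y)).hasFDerivAt.comp_hasDerivAt y
        ((hasDerivAt_const y w.1).prodMk (hasDerivAt_id' y))
    have h3 : (g z - g w) ^ 2 ≤
        2 * (g (z.1, z.2) - g (w.1, z.2)) ^ 2 + 2 * (g (w.1, z.2) - g (w.1, w.2)) ^ 2 := by
      nlinarith [sq_nonneg (g (z.1, z.2) - 2 * g (w.1, z.2) + g (w.1, w.2))]
    linarith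
  set G := ∫ z, g z ∂(μ.prod ν) with hG
  set S := ∫ z, g z ^ 2 ∂(μ.prod ν) with hS
  set SA := ∫ y, A y ∂ν
  set SB := ∫ x, B x ∂μ with hSB
  have step1 : ∀ z ∈ Set.Ico a b ×ˢ Set.Ico c d,
      l ^ 2 * g z ^ 2 - 2 * G * g z + S ≤ 2 * l ^ 3 * A z.2 + 2 * l ^ 2 * SB := by
    intro z hz
    have j1 : Integrable (fun w => g z ^ 2 - 2 * g z * g w) (μ.prod ν) :=
      (integrable_const _).sub (i1.const_mul _)
    have j2 : Integrable (fun w : P => 2 * l * B w.1) (μ.prod ν) := (iB.comp_fst ν).const_mul _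
    have := integral_mono_ae (j1.add i2) ((integrable_const (2 * l * A z.2)).add j2) (by
      filter_upwards [hae] with w hw
      have := hpt z hz w hw
      simp only [Pi.add_apply]
      nlinarith)
    simp only [Pi.add_apply] at this
    rw [integral_add j1 i2, integral_sub (integrable_const _) (i1.const_mul _), integral_const,
      integral_const_mul, integral_add (integrable_const _) j2, integral_const,
      integral_const_mul, integral_fun_fst B, mp, mν, ← hG, ← hS, ← hSB] at this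
    simp only [smul_eq_mul] at this
    nlinarith
  have j1 : Integrable (fun z => l ^ 2 * g z ^ 2 - 2 * G * g z) (μ.prod ν) :=
    (i2.const_mul _).sub (i1.const_mul _)
  have j2 : Integrable (fun z : P => 2 * l ^ 3 * A z.2) (μ.prod ν) := (iA.comp_snd μ).const_mul _
  have := integral_mono_ae (j1.add (integrable_const S))
    (j2.add (integrable_const (2 * l ^ 2 * SB))) (by
      filter_upwards [hae] with z hz using step1 z hz)
  simp only [Pi.add_apply] at this
  rw [integral_add j1 (integrable_const _), integral_sub (i2.const_mul _) (i1.const_mul _),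
    integral_const, integral_const_mul, integral_const_mul, integral_add j2 (integrable_const _),
    integral_const, integral_const_mul, integral_fun_snd A, mp, mμ, ← hG, ← hS] at this
  simp only [smul_eq_mul] at this
  rw [eA, eB]
  nlinarith

/-- TASK C: Poincaré inequality summed over grid cells of side `1/T`. -/
theorem cell_poincare (g : P → ℝ) (hg : ContDiff ℝ 1 g)
    (hsupp : ∀ z : P, 3 / 2 ≤ ‖z‖ → g z = 0) (T : ℕ) (hT : 0 < T) (ε : ℝ)
    (hcell : ∀ i j : ℤ, -2 * (T : ℤ) ≤ i → i < 2 * (T : ℤ) → -2 * (T : ℤ) ≤ j → j < 2 * (T : ℤ) →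
      |∫ z in cell (1 / (T : ℝ)) i j, g z| ≤ ε) :
    ∫ z, g z ^ 2 ≤ 32 * (T : ℝ) ^ 4 * ε ^ 2 +
      16 * (1 / (T : ℝ)) ^ 2 * ∫ z, (fderiv ℝ g z (1, 0) ^ 2 + fderiv ℝ g z (0, 1) ^ 2) := by
  have hT' : (0 : ℝ) < T := by exact_mod_cast hT
  set l : ℝ := 1 / (T : ℝ) with hl
  have hl0 : 0 < l := by positivity
  have hlT : l * T = 1 := by rw [hl]; field_simp
  have hgc : Continuous g := hg.continuous
  have hfc : Continuous (fderiv ℝ g) := hg.continuous_fderiv one_ne_zero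
  set D : P → ℝ := fun z => fderiv ℝ g z (1, 0) ^ 2 + fderiv ℝ g z (0, 1) ^ 2 with hD
  have hDc : Continuous D := by fun_prop
  have hgs : HasCompactSupport g := by
    refine HasCompactSupport.intro (isCompact_closedBall (0 : P) (3 / 2)) fun z hz => hsupp z ?_
    simpa using le_of_lt (by simpa using hz : 3 / 2 < ‖z‖)
  have hDs : HasCompactSupport D := by
    refine (hgs.fderiv (𝕜 := ℝ)).mono fun z hz => ?_
    intro h0
    apply hz
    simp [hD, h0]
  have hDi : Integrable D := hDc.integrable_of_hasCompactSupport hDs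
  let s : Finset (ℤ × ℤ) := Finset.Ico (-2 * (T : ℤ)) (2 * T) ×ˢ Finset.Ico (-2 * (T : ℤ)) (2 * T)
  have hmeas : ∀ p ∈ s, MeasurableSet (cell l p.1 p.2) := fun p _ =>
    measurableSet_Ico.prod measurableSet_Ico
  have hfl : ∀ (i : ℤ) (x : ℝ), x ∈ Set.Ico (i * l) ((i + 1) * l) ↔ ⌊x * T⌋ = i := by
    intro i x
    rw [Int.floor_eq_iff, Set.mem_Ico, hl, mul_one_div, mul_one_div, div_le_iff₀ hT',
      lt_div_iff₀ hT']
  have hdisj : Set.Pairwise (s : Set (ℤ × ℤ))
      (Function.onFun Disjoint fun p : ℤ × ℤ => cell l p.1 p.2) := by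
    intro p _ q _ hpq
    rw [Function.onFun, Set.disjoint_left]
    intro z h1 h2
    apply hpq
    exact Prod.ext (((hfl _ _).mp h1.1).symm.trans ((hfl _ _).mp h2.1))
      (((hfl _ _).mp h1.2).symm.trans ((hfl _ _).mp h2.2))
  have hmem : ∀ x : ℝ, |x| < 3 / 2 → ⌊x * T⌋ ∈ Finset.Ico (-2 * (T : ℤ)) (2 * T) := by
    intro x hx
    rw [abs_lt] at hx
    rw [Finset.mem_Ico, Int.le_floor, Int.floor_lt]
    push_cast
    constructor <;> nlinarith
  have e1 : ∫ z, g z ^ 2 = ∑ p ∈ s, ∫ z in cell l p.1 p.2, g z ^ 2 := by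
    rw [← integral_biUnion_finset s hmeas hdisj
      (fun p _ => integrableOn_rect (hgc.fun_pow 2) _ _ _ _)]
    symm
    apply setIntegral_eq_integral_of_forall_compl_eq_zero
    intro z hz
    rw [hsupp z, zero_pow two_ne_zero]
    by_contra hlt
    apply hz
    have hlt' : ‖z‖ < 3 / 2 := not_le.mp hlt
    have h1 : |z.1| < 3 / 2 := (norm_fst_le z).trans_lt hlt'
    have h2 : |z.2| < 3 / 2 := (norm_snd_le z).trans_lt hlt'
    exact Set.mem_biUnion (x := (⌊z.1 * T⌋, ⌊z.2 * T⌋))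
      (Finset.mem_coe.mpr (Finset.mem_product.mpr ⟨hmem _ h1, hmem _ h2⟩))
      ⟨(hfl _ _).mpr rfl, (hfl _ _).mpr rfl⟩
  have e2 : ∑ p ∈ s, ∫ z in cell l p.1 p.2, D z ≤ ∫ z, D z := by
    rw [← integral_biUnion_finset s hmeas hdisj (fun p _ => hDi.integrableOn)]
    exact setIntegral_le_integral hDi (Filter.Eventually.of_forall fun z => by positivity)
  have e3 : ∀ p ∈ s, ∫ z in cell l p.1 p.2, g z ^ 2 ≤
      (T : ℝ) ^ 2 * ε ^ 2 + l ^ 2 * ∫ z in cell l p.1 p.2, D z := by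
    intro p hp
    obtain ⟨h1, h2⟩ := Finset.mem_product.mp hp
    rw [Finset.mem_Ico] at h1 h2
    have h3 := hcell p.1 p.2 h1.1 h1.2 h2.1 h2.2
    have h4 := rect_poincare g hg hl0 (a := p.1 * l) (b := (p.1 + 1) * l) (c := p.2 * l)
      (d := (p.2 + 1) * l) (by ring) (by ring)
    have h5 : (∫ z in cell l p.1 p.2, g z) ^ 2 ≤ ε ^ 2 := by
      rw [← sq_abs]; exact pow_le_pow_left₀ (abs_nonneg _) h3 2
    change l ^ 2 * ∫ z in cell l p.1 p.2, g z ^ 2 ≤ (∫ z in cell l p.1 p.2, g z) ^ 2 +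
      l ^ 4 * ∫ z in cell l p.1 p.2, D z at h4
    have h6 := mul_le_mul_of_nonneg_left (h4.trans (add_le_add_left h5 _)) (sq_nonneg (T : ℝ))
    have h7 : (T : ℝ) ^ 2 * l ^ 2 = 1 := by rw [← mul_pow, mul_comm, hlT, one_pow]
    calc _ = (T : ℝ) ^ 2 * (l ^ 2 * ∫ z in cell l p.1 p.2, g z ^ 2) := by
          rw [← mul_assoc, h7, one_mul]
      _ ≤ _ := h6
      _ = (T : ℝ) ^ 2 * ε ^ 2 + ((T : ℝ) ^ 2 * l ^ 2) * (l ^ 2 * ∫ z in cell l p.1 p.2, D z) := by
          ring
      _ = _ := by rw [h7, one_mul]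
  have hcard : (s.card : ℝ) = 16 * (T : ℝ) ^ 2 := by
    have : (2 * (T : ℤ) - -2 * T).toNat = 4 * T := by omega
    simp only [s, Finset.card_product, Int.card_Ico, this]
    push_cast
    ring
  have hDn : 0 ≤ ∫ z, D z := integral_nonneg fun z => by positivity
  have e4 := Finset.sum_le_sum e3
  rw [Finset.sum_add_distrib, Finset.sum_const, nsmul_eq_mul, hcard, ← Finset.mul_sum] at e4
  rw [e1]
  have h8 := mul_le_mul_of_nonneg_left e2 (sq_nonneg l)
  have h9 : 0 ≤ (T : ℝ) ^ 4 * ε ^ 2 := by positivity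
  have h10 : 0 ≤ l ^ 2 * ∫ z, D z := by positivity
  nlinarith

end Vale.Agent.P229
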