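import Vale.Agent.P229.Cut
import Vale.Agent.P229.TaskPoincare

/-! The analytic data, and the decay estimate in the elliptic collar. -/

namespace Vale.Agent.P229

open scoped ContDiff Topology
open Set Filter MeasureTheory

variable {ι : Type} {π : Par ι}

/-- The analytic situation: a mixed-type equation in coordinates `p, Y`. -/
structure Ana (π : Par ι) (p Y K w S : ι → Fn) (c : ℝ) (b : ℕ) : Prop where
  cpos : 0 < c
  hp : Bt π 2 0 0 p
  hY : Bt π 2 0 0 Y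
  hK : Bt π 1 0 0 K
  hw : Bt π 0 0 0 w
  rw : ∀ᶠ i in π.l, Reg 2 (w i)
  H : ∀ᶠ i in π.l, ∀ z, c ≤ br (p i) (Y i) z
  p0 : ∀ᶠ i in π.l, p i o = 0
  Y0 : ∀ᶠ i in π.l, Y i o = 0
  low : ∀ᶠ i in π.l, ∀ z : Om, c * ‖(z : P)‖ ≤ |p i z| + |Y i z|
  pos1 : ∀ᶠ i in π.l, ∀ z, c ≤ 2 * p i z * d1 (p i) (Y i) (K i) z +
    9 / 10 * Y i z * d2 (p i) (Y i) (K i) z - 1 / 10 * K i z
  pos2 : ∀ᶠ i in π.l, ∀ z, c ≤ 2 * p i z * d1 (p i) (Y i) (K i) z +
    9 / 10 * Y i z * d2 (p i) (Y i) (K i) z - 2 * K i z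
  ell : ∀ᶠ i in π.l, ∀ z : Om, 11 / 10 ≤ ‖(z : P)‖ → c ≤ K i z
  hyp : ∀ᶠ i in π.l, K i o ≤ -c
  eqn : ∀ᶠ i in π.l, br (p i) (Y i) * PP (p i) (Y i) (K i) (w i) = S i
  hS : Bt π 0 0 (b - 89) S
  supp : ∀ᶠ i in π.l, ∀ z : Om, π.t i ^ (37 : ℤ) < ‖(z : P)‖ → S i z = 0
  cells : ∀ k : ℕ, k ≤ b + 3 → ∀ᶠ i in π.l, ∃ T : ℕ, 0 < T ∧ π.t i = 1 / (T : ℝ) ∧
    ∀ m n : ℤ, -2 * (T : ℤ) ≤ m → m < 2 * (T : ℤ) → -2 * (T : ℤ) ≤ n → n < 2 * (T : ℤ) →
      |∫ z in cell (1 / (T : ℝ)) m n, ext (th k * w i) z| ≤ π.t i ^ ((b : ℤ) + 5)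

theorem sq_comb {a b x y C : ℝ} (ha : |a| ≤ C) (hb : |b| ≤ C) :
    (x * a + y * b) ^ 2 ≤ 2 * C ^ 2 * (x ^ 2 + y ^ 2) := by
  have h1 : a ^ 2 ≤ C ^ 2 := sq_le_sq' (abs_le.1 ha).1 (abs_le.1 ha).2
  have h2 : b ^ 2 ≤ C ^ 2 := sq_le_sq' (abs_le.1 hb).1 (abs_le.1 hb).2
  nlinarith [sq_nonneg (x * b - y * a), sq_nonneg x, sq_nonneg y,
    mul_le_mul_of_nonneg_left (add_le_add h1 h2) (add_nonneg (sq_nonneg x) (sq_nonneg y))]

variable {p Y K w S : ι → Fn} {c : ℝ} {b : ℕ}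

theorem Ana.nz (h : Ana π p Y K w S c b) : ∀ᶠ i in π.l, NZ (br (p i) (Y i)) := by
  filter_upwards [h.H] with i hi
  exact ⟨fun z => (h.cpos.trans_le (hi z)).ne'⟩

theorem Ana.hH (h : Ana π p Y K w S c b) : Bt π 1 0 0 (fun i => br (p i) (Y i)) :=
  Bt.br h.hp.dx h.hp.dy h.hY.dx h.hY.dy

theorem Ana.crd (h : Ana π p Y K w S c b) : Crd π 1 0 p Y :=
  ⟨h.hp.dx, h.hp.dy, h.hY.dx, h.hY.dy, h.hH.inv h.cpos (by
    filter_upwards [h.H] with i hi z
    simpa using (hi z).trans (le_abs_self _))⟩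

theorem Ana.regs (h : Ana π p Y K w S c b) : ∀ᶠ i in π.l, Reg 2 (p i) ∧ Reg 2 (Y i) ∧
    Reg 1 (K i) ∧ Reg 2 (w i) ∧ Reg 0 (S i) ∧ NZ (br (p i) (Y i)) := by
  filter_upwards [h.hp.reg, h.hY.reg, h.hK.reg, h.rw, h.hS.reg, h.nz] with i h1 h2 h3 h4 h5 h6
  exact ⟨h1, h2, h3, h4, h5, h6⟩

theorem Ana.grad_le (h : Ana π p Y K w S c b) : ∃ C : ℝ, 0 ≤ C ∧ ∀ᶠ i in π.l, ∀ (f : Fn) (z : Om),
    dx f z ^ 2 + dy f z ^ 2 ≤ C * (d1 (p i) (Y i) f z ^ 2 + d2 (p i) (Y i) f z ^ 2) := by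
  obtain ⟨C1, hC1, h1⟩ := h.hp.dx.bound0
  obtain ⟨C2, hC2, h2⟩ := h.hp.dy.bound0
  obtain ⟨C3, hC3, h3⟩ := h.hY.dx.bound0
  obtain ⟨C4, hC4, h4⟩ := h.hY.dy.bound0
  refine ⟨4 * (C1 + C2 + C3 + C4) ^ 2, by positivity, ?_⟩
  filter_upwards [h1, h2, h3, h4, h.nz] with i h1 h2 h3 h4 hn f z
  have e1 := congrFun (dx_chain (p i) (Y i) f) z
  have e2 := congrFun (dy_chain (p i) (Y i) f) z
  simp only [Pi.add_apply, Pi.mul_apply] at e1 e2
  rw [e1, e2]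
  have a1 := sq_comb (x := d1 (p i) (Y i) f z) (y := d2 (p i) (Y i) f z) (C := C1 + C2 + C3 + C4)
    ((h1 z).trans (by linarith)) ((h3 z).trans (by linarith))
  have a2 := sq_comb (x := d1 (p i) (Y i) f z) (y := d2 (p i) (Y i) f z) (C := C1 + C2 + C3 + C4)
    ((h2 z).trans (by linarith)) ((h4 z).trans (by linarith))
  linarith

theorem Ana.d_le (h : Ana π p Y K w S c b) : ∃ C : ℝ, 0 ≤ C ∧ ∀ᶠ i in π.l, ∀ (f : Fn) (z : Om),
    d1 (p i) (Y i) f z ^ 2 + d2 (p i) (Y i) f z ^ 2 ≤ C * (dx f z ^ 2 + dy f z ^ 2) := by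
  obtain ⟨C1, hC1, h1⟩ := (h.crd.d1 (Bt.cx (k := 1)) zero_le_one).bound0
  obtain ⟨C2, hC2, h2⟩ := (h.crd.d1 (Bt.cy (k := 1)) zero_le_one).bound0
  obtain ⟨C3, hC3, h3⟩ := (h.crd.d2 (Bt.cx (k := 1)) zero_le_one).bound0
  obtain ⟨C4, hC4, h4⟩ := (h.crd.d2 (Bt.cy (k := 1)) zero_le_one).bound0
  refine ⟨4 * (C1 + C2 + C3 + C4) ^ 2, by positivity, ?_⟩
  filter_upwards [h1, h2, h3, h4] with i h1 h2 h3 h4 f z
  have e1 := congrFun (d1_xy (p i) (Y i) f) z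
  have e2 := congrFun (d2_xy (p i) (Y i) f) z
  simp only [Pi.add_apply, Pi.mul_apply] at e1 e2
  rw [e1, e2]
  have a1 := sq_comb (x := dx f z) (y := dy f z) (C := C1 + C2 + C3 + C4)
    ((h1 z).trans (by linarith)) ((h2 z).trans (by linarith))
  have a2 := sq_comb (x := dx f z) (y := dy f z) (C := C1 + C2 + C3 + C4)
    ((h3 z).trans (by linarith)) ((h4 z).trans (by linarith))
  nlinarith

theorem d_zero_of_ev {α β f : Fn} {a : ℝ} {z : Om} (h : f =ᶠ[𝓝 z] cst a) :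
    d1 α β f z = 0 ∧ d2 α β f z = 0 := by
  have h1 := (d1_congr α β h).eq_of_nhds
  have h2 := (d2_congr α β h).eq_of_nhds
  rw [d1_cst] at h1
  rw [d2_cst] at h2
  exact ⟨h1, h2⟩

theorem Ana.cacc (h : Ana π p Y K w S c b) (k : ℕ) {e : ℤ}
    (he : Ot π e (fun i => I ((th k * w i) ^ 2))) :
    Ot π e (fun i => I (dx (th (k + 1) * w i) ^ 2 + dy (th (k + 1) * w i) ^ 2)) := by
  obtain ⟨C1, hC1, h1⟩ := h.grad_le
  have hd1 := h.crd.d1 (Bt.th (j := 1) (k + 1)) zero_le_one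
  have hd2 := h.crd.d2 (Bt.th (j := 1) (k + 1)) zero_le_one
  obtain ⟨C2, hC2, h2⟩ := ((hd2.sq.add ((h.hK.mono zero_le_one le_rfl le_rfl).mul hd1.sq)).mul
    (h.hH.mono zero_le_one le_rfl le_rfl)).bound0
  have hc := h.cpos
  set c' := min c 1 with hc'
  have hc0 : 0 < c' := lt_min hc one_pos
  have hc1 : c' ≤ c := min_le_left _ _
  have hc2 : c' ≤ 1 := min_le_right _ _
  refine (he.cmul (C1 / (c * c') * C2)).of_le ?_
  filter_upwards [h1, h2, h.regs, h.H, h.ell, h.eqn, h.supp,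
    π.tpow_le (e := 37) (by norm_num) 1 one_pos] with i h1 h2 ⟨_, _, _, _, _, _⟩ hH hell heq hsupp ht
  set θ := th (k + 1) with hθ
  have hv : Van (θ ^ 2 * w i) := by
    rw [sq]; exact ((th_van _).mul_right _).mul_right _
  have e1 : (d2 (p i) (Y i) (θ * w i) ^ 2 + K i * d1 (p i) (Y i) (θ * w i) ^ 2) * br (p i) (Y i) =
      w i ^ 2 * ((d2 (p i) (Y i) θ ^ 2 + K i * d1 (p i) (Y i) θ ^ 2) * br (p i) (Y i)) +
      d1 (p i) (Y i) (θ ^ 2 * w i * (K i * d1 (p i) (Y i) (w i))) * br (p i) (Y i) +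
      d2 (p i) (Y i) (θ ^ 2 * w i * d2 (p i) (Y i) (w i)) * br (p i) (Y i) := by
    have e0 : θ ^ 2 * w i * S i = 0 := by
      funext z
      by_cases hz : ‖(z : P)‖ ≤ 1
      · have := th_zero_in (k := k + 1) (z := z) (by linarith [ra_ge (k + 1)])
        simp [hθ, this]
      · simp [hsupp z (by linarith [not_le.1 hz])]
    rw [caccio]
    linear_combination (-(θ ^ 2 * w i)) * heq - e0
  have e2 := congrArg I e1
  rw [I_add, I_add, I_d1 _ _ (hv.mul_right _), I_d2 _ _ (hv.mul_right _), add_zero, add_zero] at e2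
  have i1 : I (dx (θ * w i) ^ 2 + dy (θ * w i) ^ 2) ≤ I (cst (C1 / (c * c')) *
      ((d2 (p i) (Y i) (θ * w i) ^ 2 + K i * d1 (p i) (Y i) (θ * w i) ^ 2) * br (p i) (Y i))) := by
    refine I_mono (fun z => ?_)
    have g1 := h1 (θ * w i) z
    simp only [Pi.add_apply, Pi.mul_apply, Pi.pow_apply, cst_apply]
    by_cases hz : 11 / 10 ≤ ‖(z : P)‖
    · have k1 := hell z hz
      have k2 := hH z
      set A := d1 (p i) (Y i) (θ * w i) z
      set B' := d2 (p i) (Y i) (θ * w i) z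
      have k3 : c * c' * (A ^ 2 + B' ^ 2) ≤ (B' ^ 2 + K i z * A ^ 2) * br (p i) (Y i) z := by
        have k4 : c' * (A ^ 2 + B' ^ 2) ≤ B' ^ 2 + K i z * A ^ 2 := by
          nlinarith [sq_nonneg A, sq_nonneg B']
        have k5 : 0 ≤ c' * (A ^ 2 + B' ^ 2) := by positivity
        calc c * c' * (A ^ 2 + B' ^ 2) = c' * (A ^ 2 + B' ^ 2) * c := by ring
          _ ≤ _ := mul_le_mul k4 k2 hc.le (k5.trans k4)
      calc _ ≤ C1 * (A ^ 2 + B' ^ 2) := g1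
        _ = C1 / (c * c') * (c * c' * (A ^ 2 + B' ^ 2)) := by field_simp
        _ ≤ _ := mul_le_mul_of_nonneg_left k3 (by positivity)
    · have hev : θ * w i =ᶠ[𝓝 z] cst 0 := by
        filter_upwards [ev_norm_lt (not_le.1 hz)] with y hy
        have := th_zero_in (k := k + 1) (z := y) (by linarith [ra_ge (k + 1)])
        simp [hθ, this]
      obtain ⟨z1, z2⟩ := d_zero_of_ev (α := p i) (β := Y i) hev
      rw [z1, z2] at g1 ⊢
      simpa using g1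
  have i2 : I (w i ^ 2 * ((d2 (p i) (Y i) θ ^ 2 + K i * d1 (p i) (Y i) θ ^ 2) * br (p i) (Y i))) ≤
      I (cst C2 * (th k * w i) ^ 2) := by
    refine I_mono (fun z => ?_)
    have g1 := (le_abs_self _).trans (h2 z)
    simp only [Pi.add_apply, Pi.mul_apply, Pi.pow_apply, cst_apply] at g1 ⊢
    by_cases hz : ra (k + 1) ≤ ‖(z : P)‖ ∧ ‖(z : P)‖ ≤ rb (k + 1)
    · rw [th_one hz.1 hz.2, one_mul, mul_comm C2]
      exact mul_le_mul_of_nonneg_left g1 (sq_nonneg _)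
    · have hev : θ =ᶠ[𝓝 z] cst 0 := by
        rcases not_and_or.1 hz with hz | hz
        · filter_upwards [ev_norm_lt (not_le.1 hz)] with y hy
          exact th_zero_in hy.le
        · filter_upwards [ev_norm_gt (not_le.1 hz)] with y hy
          exact th_zero_out hy.le
      obtain ⟨z1, z2⟩ := d_zero_of_ev (α := p i) (β := Y i) hev
      rw [z1, z2]
      simp only [ne_eq, OfNat.ofNat_ne_zero, not_false_eq_true, zero_pow, mul_zero, add_zero,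
        zero_mul]
      positivity
  rw [I_cmul, e2] at i1
  rw [I_cmul] at i2
  rw [abs_of_nonneg (I_nonneg (fun z => by simp only [Pi.add_apply, Pi.pow_apply]; positivity))]
  calc _ ≤ _ := i1
    _ ≤ C1 / (c * c') * (C2 * I ((th k * w i) ^ 2)) :=
        mul_le_mul_of_nonneg_left i2 (by positivity)
    _ = _ := by ring

theorem Ana.poinc (h : Ana π p Y K w S c b) {k : ℕ} (hk : k ≤ b + 3) {e : ℤ} (he2 : e ≤ 2 * b + 4)
    (he : Ot π e (fun i => I (dx (th k * w i) ^ 2 + dy (th k * w i) ^ 2))) :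
    Ot π (e + 2) (fun i => I ((th k * w i) ^ 2)) := by
  have h1 : Ot π (e + 2) (fun i => 32 * π.t i ^ (2 * (b : ℤ) + 6)) :=
    ((Ot.tpow π _).cmul 32).mono (by omega)
  have h2 := (((Ot.tpow π 2).cmul 16).mul he).mono (e' := e + 2) (by omega)
  refine (h1.add h2).of_le ?_
  filter_upwards [h.cells k hk, h.rw, π.pos] with i ⟨T, hT, ht, hcell⟩ hw hpos
  have hv : Van (th k * w i) := (th_van k).mul_right _
  have hr : Reg 1 (th k * w i) := inferInstance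
  have := cell_poincare (ext (th k * w i)) (by simpa using hv.contDiff hr)
    (fun z hz => hv.ext_zero (by linarith)) T hT _ hcell
  rw [← hv.I_grad, ← hv.I_eq (fun x => x ^ 2) (by simp), ← ht] at this
  rw [abs_of_nonneg (I_nonneg (fun z => by simp only [Pi.pow_apply]; positivity))]
  have hT4 : (T : ℝ) ^ 4 = π.t i ^ (-4 : ℤ) := by
    rw [ht]; simp
  have e1 : 32 * (T : ℝ) ^ 4 * (π.t i ^ ((b : ℤ) + 5)) ^ 2 = 32 * π.t i ^ (2 * (b : ℤ) + 6) := by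
    rw [hT4, sq, mul_assoc, ← zpow_add₀ hpos.ne', ← zpow_add₀ hpos.ne']
    congr 2; ring
  rw [e1] at this
  exact this

theorem Ana.collar (h : Ana π p Y K w S c b) :
    Ot π (2 * b + 6) (fun i => I (dx (th (b + 4) * w i) ^ 2 + dy (th (b + 4) * w i) ^ 2)) := by
  have main : ∀ k : ℕ, k ≤ b + 3 → Ot π (2 * k) (fun i => I ((th k * w i) ^ 2)) := by
    intro k
    induction k with
    | zero =>
      intro _
      obtain ⟨C, hC, h1⟩ := (((Bt.th (j := 0) 0).mul h.hw).sq).bound0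
      refine (Ot.const π (8 * C)).of_le ?_
      filter_upwards [h1, h.rw] with i hi hw
      rw [abs_of_nonneg (I_nonneg (fun z => by simp only [Pi.pow_apply]; positivity))]
      exact I_le_const (fun z => (le_abs_self _).trans (hi z)) hC
    | succ k ih =>
      intro hk
      have := h.poinc hk (by omega) (h.cacc k (ih (by omega)))
      exact this.mono (by push_cast; omega)
  exact (h.cacc (b + 3) (main (b + 3) le_rfl)).mono (by push_cast; omega)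

end Vale.Agent.P229
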