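import Vale.Agent.P229.Calc

/-! Derivatives with respect to a pair of functions `α, β` used as coordinates. -/

namespace Vale.Agent.P229

open scoped ContDiff Topology
open Set Filter

/-- Jacobian bracket. -/
noncomputable def br (f g : Fn) : Fn := dx f * dy g - dy f * dx g

/-- Derivative in the direction of the first coordinate `α` (with `β` fixed). -/
noncomputable def d1 (α β f : Fn) : Fn := br f β * (br α β)⁻¹

/-- Derivative in the direction of the second coordinate `β` (with `α` fixed). -/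
noncomputable def d2 (α β f : Fn) : Fn := br α f * (br α β)⁻¹

theorem Reg.br {k : ℕ} {f g : Fn} (hf : Reg (k + 1) f) (hg : Reg (k + 1) g) : Reg k (br f g) := by
  have := hf.dx; have := hf.dy; have := hg.dx; have := hg.dy
  unfold P229.br; infer_instance

theorem Reg.d1 {k : ℕ} {α β f : Fn} (ha : Reg (k + 1) α) (hb : Reg (k + 1) β) [NZ (P229.br α β)]
    (hf : Reg (k + 1) f) : Reg k (d1 α β f) := by
  have := ha.br hb; have := hf.br hb
  unfold P229.d1; infer_instance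

theorem Reg.d2 {k : ℕ} {α β f : Fn} (ha : Reg (k + 1) α) (hb : Reg (k + 1) β) [NZ (P229.br α β)]
    (hf : Reg (k + 1) f) : Reg k (d2 α β f) := by
  have := ha.br hb; have := ha.br hf
  unfold P229.d2; infer_instance

section inst
variable {α β f : Fn}
instance Reg.br0 [ha : Reg 1 α] [hb : Reg 1 β] : Reg 0 (P229.br α β) := ha.br hb
instance Reg.br1 [ha : Reg 2 α] [hb : Reg 2 β] : Reg 1 (P229.br α β) := ha.br hb
instance Reg.br2 [ha : Reg 3 α] [hb : Reg 3 β] : Reg 2 (P229.br α β) := ha.br hb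
instance Reg.br3 [ha : Reg 4 α] [hb : Reg 4 β] : Reg 3 (P229.br α β) := ha.br hb
variable [NZ (P229.br α β)]
instance Reg.d10 [ha : Reg 1 α] [hb : Reg 1 β] [hf : Reg 1 f] : Reg 0 (P229.d1 α β f) := ha.d1 hb hf
instance Reg.d11 [ha : Reg 2 α] [hb : Reg 2 β] [hf : Reg 2 f] : Reg 1 (P229.d1 α β f) := ha.d1 hb hf
instance Reg.d12 [ha : Reg 3 α] [hb : Reg 3 β] [hf : Reg 3 f] : Reg 2 (P229.d1 α β f) := ha.d1 hb hf
instance Reg.d13 [ha : Reg 4 α] [hb : Reg 4 β] [hf : Reg 4 f] : Reg 3 (P229.d1 α β f) := ha.d1 hb hf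
instance Reg.d20 [ha : Reg 1 α] [hb : Reg 1 β] [hf : Reg 1 f] : Reg 0 (P229.d2 α β f) := ha.d2 hb hf
instance Reg.d21 [ha : Reg 2 α] [hb : Reg 2 β] [hf : Reg 2 f] : Reg 1 (P229.d2 α β f) := ha.d2 hb hf
instance Reg.d22 [ha : Reg 3 α] [hb : Reg 3 β] [hf : Reg 3 f] : Reg 2 (P229.d2 α β f) := ha.d2 hb hf
instance Reg.d23 [ha : Reg 4 α] [hb : Reg 4 β] [hf : Reg 4 f] : Reg 3 (P229.d2 α β f) := ha.d2 hb hf
end inst

section rules
variable (α β f g : Fn)

theorem d1_add [Reg 1 f] [Reg 1 g] : d1 α β (f + g) = d1 α β f + d1 α β g := by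
  simp only [d1, br, dx_add, dy_add]; ring
theorem d2_add [Reg 1 f] [Reg 1 g] : d2 α β (f + g) = d2 α β f + d2 α β g := by
  simp only [d2, br, dx_add, dy_add]; ring
theorem d1_sub [Reg 1 f] [Reg 1 g] : d1 α β (f - g) = d1 α β f - d1 α β g := by
  simp only [d1, br, dx_sub, dy_sub]; ring
theorem d2_sub [Reg 1 f] [Reg 1 g] : d2 α β (f - g) = d2 α β f - d2 α β g := by
  simp only [d2, br, dx_sub, dy_sub]; ring
theorem d1_neg : d1 α β (-f) = -d1 α β f := by
  simp only [d1, br, dx_neg, dy_neg]; ring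
theorem d2_neg : d2 α β (-f) = -d2 α β f := by
  simp only [d2, br, dx_neg, dy_neg]; ring
theorem d1_mul [Reg 1 f] [Reg 1 g] : d1 α β (f * g) = f * d1 α β g + d1 α β f * g := by
  simp only [d1, br, dx_mul, dy_mul]; ring
theorem d2_mul [Reg 1 f] [Reg 1 g] : d2 α β (f * g) = f * d2 α β g + d2 α β f * g := by
  simp only [d2, br, dx_mul, dy_mul]; ring
theorem d1_sq [Reg 1 f] : d1 α β (f ^ 2) = 2 * f * d1 α β f := by
  rw [sq, d1_mul]; ring
theorem d2_sq [Reg 1 f] : d2 α β (f ^ 2) = 2 * f * d2 α β f := by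
  rw [sq, d2_mul]; ring
theorem d1_cst (c : ℝ) : d1 α β (cst c) = 0 := by
  simp only [d1, br, dx_cst, dy_cst]; ring
theorem d2_cst (c : ℝ) : d2 α β (cst c) = 0 := by
  simp only [d2, br, dx_cst, dy_cst]; ring
theorem d1_zero : d1 α β 0 = 0 := d1_cst α β 0
theorem d2_zero : d2 α β 0 = 0 := d2_cst α β 0
theorem d1_one : d1 α β 1 = 0 := d1_cst α β 1
theorem d2_one : d2 α β 1 = 0 := d2_cst α β 1
theorem d1_ofNat (n : ℕ) [n.AtLeastTwo] : d1 α β (no_index (OfNat.ofNat n : Fn)) = 0 :=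
  d1_cst α β (OfNat.ofNat n)
theorem d2_ofNat (n : ℕ) [n.AtLeastTwo] : d2 α β (no_index (OfNat.ofNat n : Fn)) = 0 :=
  d2_cst α β (OfNat.ofNat n)
theorem d1_cmp (h : ℝ → ℝ) [Smo h] [Reg 1 f] :
    d1 α β (cmp h f) = cmp (deriv h) f * d1 α β f := by
  simp only [d1, br, dx_cmp, dy_cmp]; ring
theorem d2_cmp (h : ℝ → ℝ) [Smo h] [Reg 1 f] :
    d2 α β (cmp h f) = cmp (deriv h) f * d2 α β f := by
  simp only [d2, br, dx_cmp, dy_cmp]; ring

theorem d1_snd : d1 α β β = 0 := by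
  simp only [d1, br]; ring
theorem d2_fst : d2 α β α = 0 := by
  simp only [d2, br]; ring
theorem d1_fst [h : NZ (br α β)] : d1 α β α = 1 := by
  funext z
  simp [d1, h.out z]
theorem d2_snd [h : NZ (br α β)] : d2 α β β = 1 := by
  funext z
  simp [d2, h.out z]

theorem mul_inv_NZ [h : NZ f] : f * f⁻¹ = 1 := by
  funext z
  simp [h.out z]

theorem dx_chain [h : NZ (br α β)] : dx f = d1 α β f * dx α + d2 α β f * dx β := by
  have hi := mul_inv_NZ (br α β)
  simp only [d1, d2]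
  generalize (br α β)⁻¹ = j at *
  simp only [br] at *
  linear_combination (-dx f) * hi

theorem dy_chain [h : NZ (br α β)] : dy f = d1 α β f * dy α + d2 α β f * dy β := by
  have hi := mul_inv_NZ (br α β)
  simp only [d1, d2]
  generalize (br α β)⁻¹ = j at *
  simp only [br] at *
  linear_combination (-dy f) * hi

theorem d1_mul_br [h : NZ (br α β)] : d1 α β f * br α β = br f β := by
  funext z
  simp [d1, h.out z]

theorem d2_mul_br [h : NZ (br α β)] : d2 α β f * br α β = br α f := by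
  funext z
  simp [d2, h.out z]

theorem d1_d2 [Reg 2 α] [Reg 2 β] [Reg 2 f] [h : NZ (br α β)] :
    d1 α β (d2 α β f) = d2 α β (d1 α β f) := by
  have h1 := congrArg dy (dx_chain α β f)
  have h2 := congrArg dx (dy_chain α β f)
  rw [dx_dy, h1] at h2
  simp only [dx_add, dy_add, dx_mul, dy_mul, dx_dy] at h2
  have h3 : br (d2 α β f) β = br α (d1 α β f) := by
    simp only [br]
    linear_combination -h2
  rw [d1, h3, d2]

theorem br_left_div [Reg 1 f] [Reg 2 β] : br f β = dx (f * dy β) - dy (f * dx β) := by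
  simp only [br, dx_mul, dy_mul, dx_dy]; ring

theorem br_right_div [Reg 1 f] [Reg 2 α] : br α f = dy (f * dx α) - dx (f * dy α) := by
  simp only [br, dx_mul, dy_mul, dx_dy]; ring

theorem d1_congr {f g : Fn} {z : Om} (h : f =ᶠ[𝓝 z] g) : d1 α β f =ᶠ[𝓝 z] d1 α β g := by
  filter_upwards [dx_congr h, dy_congr h] with w h1 h2
  simp [d1, br, h1, h2]

theorem d2_congr {f g : Fn} {z : Om} (h : f =ᶠ[𝓝 z] g) : d2 α β f =ᶠ[𝓝 z] d2 α β g := by
  filter_upwards [dx_congr h, dy_congr h] with w h1 h2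
  simp [d2, br, h1, h2]

end rules

end Vale.Agent.P229
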