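import Vale.Agent.P229.Collar

/-! The multiplier estimates and the test-function estimate. -/

namespace Vale.Agent.P229

open scoped ContDiff Topology
open Set Filter MeasureTheory

set_option synthInstance.maxSize 2000

variable {ι : Type} {π : Par ι} {p Y K w S : ι → Fn} {c : ℝ} {b : ℕ}

/-- The main cutoff. -/
noncomputable def θ0 : Fn := cut (6 / 5) (5 / 4) 1

instance (k : ℕ) : Reg k θ0 := by unfold θ0; infer_instance

theorem θ0_nonneg (z : Om) : 0 ≤ θ0 z := cut_nonneg _ _ _ z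
theorem θ0_le_one (z : Om) : θ0 z ≤ 1 := cut_le_one _ _ _ z
theorem θ0_one {z : Om} (h : ‖(z : P)‖ ≤ 6 / 5) : θ0 z = 1 :=
  cut_one (by norm_num) (by norm_num) one_pos (by linarith)
theorem θ0_zero {z : Om} (h : 5 / 4 ≤ ‖(z : P)‖) : θ0 z = 0 := cut_zero one_pos (by linarith)
theorem θ0_van : Van θ0 := fun _ hz => θ0_zero (by linarith)

/-- The quadratic form produced by the multiplier `b D₁ + c D₂`. -/
noncomputable def QQ (α β K w b c : Fn) : Fn :=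
  (d1 α β b - d2 α β c) * d2 α β w ^ 2 +
    (b * d1 α β K + c * d2 α β K - (d1 α β b - d2 α β c) * K) * d1 α β w ^ 2 -
    2 * (d2 α β b + d1 α β c * K) * (d1 α β w * d2 α β w)

/-- The energy density. -/
noncomputable def EE (α β w : Fn) : Fn := d1 α β w ^ 2 + d2 α β w ^ 2

instance {α β w : Fn} [Reg 1 α] [Reg 1 β] [Reg 1 w] [NZ (br α β)] : Reg 0 (EE α β w) := by
  unfold EE; infer_instance

instance {α β K w b c : Fn} [Reg 1 α] [Reg 1 β] [Reg 1 K] [Reg 1 w] [Reg 1 b] [Reg 1 c]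
    [NZ (br α β)] : Reg 0 (QQ α β K w b c) := by
  unfold QQ; infer_instance

theorem EE_nonneg (α β w : Fn) (z : Om) : 0 ≤ EE α β w z := by
  simp only [EE, Pi.add_apply, Pi.pow_apply]; positivity

theorem quad_le {a b c x y C1 C2 C3 : ℝ} (ha : |a| ≤ C1) (hb : |b| ≤ C2) (hc : |c| ≤ C3) :
    a * x ^ 2 + b * y ^ 2 + c * (x * y) ≤ (C1 + C2 + C3) * (x ^ 2 + y ^ 2) := by
  have h1 := (abs_le.1 ha).2
  have h2 := (abs_le.1 hb).2
  have h3 := abs_le.1 hc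
  have := (abs_nonneg _).trans ha
  have := (abs_nonneg _).trans hb
  have := (abs_nonneg _).trans hc
  have h4 : c * (x * y) ≤ C3 * (x ^ 2 + y ^ 2) := by
    nlinarith [mul_nonneg (sub_nonneg.2 h3.2) (sq_nonneg (x + y)),
      mul_nonneg (sub_nonneg.2 h3.1) (sq_nonneg (x - y)), sq_nonneg x, sq_nonneg y]
  nlinarith [sq_nonneg x, sq_nonneg y]

theorem Ana.energy (h : Ana π p Y K w S c b) {bb cc : ι → Fn} (hb : Bt π 0 0 0 bb)
    (hc : Bt π 0 0 0 cc) (hr : ∀ᶠ i in π.l, Reg 1 (bb i) ∧ Reg 1 (cc i)) :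
    ∃ err : ι → ℝ, Ot π (2 * b + 6) err ∧ ∀ᶠ i in π.l,
      I (θ0 * QQ (p i) (Y i) (K i) (w i) (bb i) (cc i) * br (p i) (Y i)) ≤
        I (θ0 * (2 * (bb i * d1 (p i) (Y i) (w i) + cc i * d2 (p i) (Y i) (w i))) * S i) + err i := by
  have t1 : Bt π 0 0 0 (fun i => d1 (p i) (Y i) θ0) := h.crd.d1 (Bt.cut1 (k := 1) _ _) zero_le_one
  have t2 : Bt π 0 0 0 (fun i => d2 (p i) (Y i) θ0) := h.crd.d2 (Bt.cut1 (k := 1) _ _) zero_le_one
  have hK := h.hK.mono zero_le_one le_rfl le_rfl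
  have hH := h.hH.mono zero_le_one le_rfl le_rfl
  obtain ⟨C1, hC1, h1⟩ := ((((t1.mul hb).sub (t2.mul hc)).mul hK).mul hH).bound0
  obtain ⟨C2, hC2, h2⟩ := (((t2.mul hc).sub (t1.mul hb)).mul hH).bound0
  obtain ⟨C3, hC3, h3⟩ := ((Bt.two.mul (((t1.mul hc).mul hK).add (t2.mul hb))).mul hH).bound0
  obtain ⟨C4, hC4, h4⟩ := h.d_le
  refine ⟨_, h.collar.cmul ((C1 + C2 + C3) * C4), ?_⟩
  filter_upwards [h1, h2, h3, h4, hr, h.regs, h.eqn] with i h1 h2 h3 h4 ⟨_, _⟩ ⟨_, _, _, _, _, _⟩ heq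
  have hm := multiplier (p i) (Y i) (K i) (w i) (bb i) (cc i)
  set U1 := bb i * (K i * d1 (p i) (Y i) (w i) ^ 2 - d2 (p i) (Y i) (w i) ^ 2) +
    2 * cc i * K i * d1 (p i) (Y i) (w i) * d2 (p i) (Y i) (w i) with hU1
  set U2 := 2 * bb i * d1 (p i) (Y i) (w i) * d2 (p i) (Y i) (w i) +
    cc i * (d2 (p i) (Y i) (w i) ^ 2 - K i * d1 (p i) (Y i) (w i) ^ 2) with hU2
  have r1 : Reg 1 U1 := by rw [hU1]; infer_instance
  have r2 : Reg 1 U2 := by rw [hU2]; infer_instance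
  have e1 : θ0 * QQ (p i) (Y i) (K i) (w i) (bb i) (cc i) * br (p i) (Y i) =
      θ0 * (2 * (bb i * d1 (p i) (Y i) (w i) + cc i * d2 (p i) (Y i) (w i))) * S i +
      (d1 (p i) (Y i) θ0 * U1 + d2 (p i) (Y i) θ0 * U2) * br (p i) (Y i) -
      d1 (p i) (Y i) (θ0 * U1) * br (p i) (Y i) - d2 (p i) (Y i) (θ0 * U2) * br (p i) (Y i) := by
    rw [d1_mul, d2_mul, ← heq, QQ]
    linear_combination (-(θ0 * br (p i) (Y i))) * hm
  rw [e1, I_sub, I_sub, I_add, I_d1 _ _ (θ0_van.mul_right _), I_d2 _ _ (θ0_van.mul_right _),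
    sub_zero, sub_zero, ← I_cmul]
  gcongr
  refine I_mono (fun z => ?_)
  have g4 := h4 (th (b + 4) * w i) z
  by_cases hz : 6 / 5 ≤ ‖(z : P)‖ ∧ ‖(z : P)‖ ≤ 5 / 4
  · have hev : th (b + 4) * w i =ᶠ[𝓝 z] w i := by
      filter_upwards [ev_norm_gt ((ra_lt (b + 4 + 1)).trans_le hz.1),
        ev_norm_lt (hz.2.trans_lt (rb_gt (b + 4 + 1)))] with y hy1 hy2
      simp [th_one hy1.le hy2.le]
    rw [(d1_congr _ _ hev).eq_of_nhds, (d2_congr _ _ hev).eq_of_nhds] at g4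
    have := quad_le (x := d1 (p i) (Y i) (w i) z) (y := d2 (p i) (Y i) (w i) z) (h1 z) (h2 z) (h3 z)
    have g5 := mul_le_mul_of_nonneg_left g4 (show 0 ≤ C1 + C2 + C3 by positivity)
    simp only [hU1, hU2, Pi.add_apply, Pi.mul_apply, Pi.pow_apply, Pi.sub_apply, cst_apply,
      Pi.ofNat_apply] at this g5 ⊢
    linarith
  · have hev : ∃ a, θ0 =ᶠ[𝓝 z] cst a := by
      rcases not_and_or.1 hz with hz | hz
      · refine ⟨1, ?_⟩
        filter_upwards [ev_norm_lt (not_le.1 hz)] with y hy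
        exact θ0_one hy.le
      · refine ⟨0, ?_⟩
        filter_upwards [ev_norm_gt (not_le.1 hz)] with y hy
        exact θ0_zero hy.le
    obtain ⟨a, hev⟩ := hev
    obtain ⟨z1, z2⟩ := d_zero_of_ev (α := p i) (β := Y i) hev
    simp only [Pi.add_apply, Pi.mul_apply, Pi.pow_apply, cst_apply, z1, z2, zero_mul, add_zero]
    positivity

theorem Bt.lip0 {f : ι → Fn} {k : ℕ} (h : Bt π (k + 1) 0 0 f) :
    ∃ C : ℝ, 0 ≤ C ∧ ∀ᶠ i in π.l, ∀ z y : Om, |f i z - f i y| ≤ C * ‖(z : P) - y‖ := by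
  obtain ⟨C, hC, h⟩ := h
  refine ⟨2 * C, by positivity, ?_⟩
  filter_upwards [h] with i hi z y
  simpa using hi.2.lip (hi.1.le (by omega)) z y

theorem Ana.lipp (h : Ana π p Y K w S c b) : ∃ C : ℝ, 0 ≤ C ∧ ∀ᶠ i in π.l, ∀ z : Om,
    |p i z| ≤ C * ‖(z : P)‖ ∧ |Y i z| ≤ C * ‖(z : P)‖ ∧ |K i z - K i o| ≤ C * ‖(z : P)‖ := by
  obtain ⟨C1, hC1, h1⟩ := h.hp.lip0
  obtain ⟨C2, hC2, h2⟩ := h.hY.lip0
  obtain ⟨C3, hC3, h3⟩ := h.hK.lip0
  refine ⟨C1 + C2 + C3, by positivity, ?_⟩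
  filter_upwards [h1, h2, h3, h.p0, h.Y0] with i h1 h2 h3 p0 Y0 z
  have a1 := h1 z o
  have a2 := h2 z o
  have a3 := h3 z o
  simp only [p0, Y0, sub_zero, o_val] at a1 a2 a3
  have := norm_nonneg (z : P)
  refine ⟨a1.trans ?_, a2.trans ?_, a3.trans ?_⟩ <;> gcongr <;> linarith

theorem src_le {b' c' A B' s r ε : ℝ} (hε : 0 < ε) (hb : |b'| ≤ r) (hc : |c'| ≤ r) :
    2 * (b' * A + c' * B') * s ≤ ε * (A ^ 2 + B' ^ 2) + 2 * r ^ 2 / ε * s ^ 2 := by
  have h1 := sq_comb (x := A) (y := B') hb hc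
  have h2 : 0 ≤ (ε * (A ^ 2 + B' ^ 2) + 2 * r ^ 2 / ε * s ^ 2) := by positivity
  refine (le_abs_self _).trans (abs_le_of_sq_le_sq ?_ h2)
  have h3 : (ε * (A ^ 2 + B' ^ 2) + 2 * r ^ 2 / ε * s ^ 2) ^ 2 =
      (ε * (A ^ 2 + B' ^ 2) - 2 * r ^ 2 / ε * s ^ 2) ^ 2 +
        4 * (2 * r ^ 2 * (A ^ 2 + B' ^ 2)) * s ^ 2 := by
    field_simp; ring
  rw [h3]
  nlinarith [sq_nonneg (ε * (A ^ 2 + B' ^ 2) - 2 * r ^ 2 / ε * s ^ 2),
    mul_le_mul_of_nonneg_right h1 (sq_nonneg s)]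

theorem Ana.inner (h : Ana π p Y K w S c b) :
    Ot π (2 * b - 30) (fun i => I (θ0 * EE (p i) (Y i) (w i))) := by
  obtain ⟨err, herr, hen⟩ := h.energy (bb := fun i => 2 * p i) (cc := fun i => cst (9 / 10) * Y i)
    (Bt.two.mul (h.hp.mono (by omega) le_rfl le_rfl))
    ((Bt.const _).mul (h.hY.mono (by omega) le_rfl le_rfl))
    (by filter_upwards [h.regs] with i ⟨_, _, _⟩; exact ⟨inferInstance, inferInstance⟩)
  obtain ⟨C1, hC1, h1⟩ := h.lipp
  obtain ⟨C2, hC2, h2⟩ := h.hS.bound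
  have hc := h.cpos
  set c' := min c 1 with hc'
  have hc0 : 0 < c' := lt_min hc one_pos
  have hc1 : c' ≤ c := min_le_left _ _
  have hc2 : c' ≤ 1 := min_le_right _ _
  set ε := c * c' / 2 with hε
  have hε0 : 0 < ε := by positivity
  have hO : Ot π (2 * b - 30) (fun i => ε⁻¹ * (4 * (π.t i ^ (37 : ℤ)) ^ 2 *
      (2 * (2 * C1 * π.t i ^ (37 : ℤ)) ^ 2 / ε * (C2 * π.t i ^ ((b : ℤ) - 89)) ^ 2) + err i)) := by
    refine (Ot.add ?_ (herr.mono (by omega))).cmul _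
    have a1 := Ot.tpow π 37
    have a2 := Ot.tpow π ((b : ℤ) - 89)
    refine (((((a1.mul a1).mul (a1.mul a1)).mul (a2.mul a2)).cmul
      (32 * C1 ^ 2 * C2 ^ 2 / ε)).mono (by omega)).congr (Eventually.of_forall fun i => by ring)
  refine hO.of_le ?_
  filter_upwards [hen, h1, h2, h.regs, h.H, h.pos1, h.pos2, h.supp, π.pos]
    with i hen h1 h2 ⟨_, _, _, _, _, _⟩ hH p1 p2 hsupp hpos
  have hE := EE_nonneg (p i) (Y i) (w i)
  rw [abs_of_nonneg (I_nonneg (f := θ0 * EE (p i) (Y i) (w i))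
    (fun z => mul_nonneg (θ0_nonneg z) (hE z)))]
  have tp := zpow_pos hpos 37
  have i1 : I (cst (2 * ε) * (θ0 * EE (p i) (Y i) (w i))) ≤
      I (θ0 * QQ (p i) (Y i) (K i) (w i) (2 * p i) (cst (9 / 10) * Y i) * br (p i) (Y i)) := by
    refine I_mono (fun z => ?_)
    have q1 := p1 z
    have q2 := p2 z
    have q3 := hH z
    have q4 := θ0_nonneg z
    simp only [QQ, EE, d1_mul, d2_mul, d1_fst, d2_fst, d1_snd, d2_snd, d1_cst, d2_cst, d1_ofNat,
      d2_ofNat, Pi.add_apply, Pi.mul_apply, Pi.pow_apply, Pi.sub_apply, cst_apply,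
      Pi.ofNat_apply]
    set A := d1 (p i) (Y i) (w i) z
    set B' := d2 (p i) (Y i) (w i) z
    set G := 2 * p i z * d1 (p i) (Y i) (K i) z + 9 / 10 * Y i z * d2 (p i) (Y i) (K i) z
    have k1 : c ≤ G - 11 / 10 * K i z := by linarith
    have k2 : c' * (A ^ 2 + B' ^ 2) ≤ 11 / 10 * B' ^ 2 + (G - 11 / 10 * K i z) * A ^ 2 := by
      nlinarith [sq_nonneg A, sq_nonneg B']
    have k3 : 0 ≤ c' * (A ^ 2 + B' ^ 2) := by positivity
    have k4 := mul_le_mul_of_nonneg_left (mul_le_mul k2 q3 hc.le (k3.trans k2)) q4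
    calc _ = θ0 z * (c' * (A ^ 2 + B' ^ 2) * c) := by rw [hε]; ring
      _ ≤ _ := k4
      _ = _ := by ring
  have i2 := I_le_ball
    (f := θ0 * (2 * (2 * p i * d1 (p i) (Y i) (w i) + cst (9 / 10) * Y i * d2 (p i) (Y i) (w i))) *
      S i) (g := cst ε * (θ0 * EE (p i) (Y i) (w i))) (ρ := π.t i ^ (37 : ℤ))
    (s := 2 * (2 * C1 * π.t i ^ (37 : ℤ)) ^ 2 / ε * (C2 * π.t i ^ ((b : ℤ) - 89)) ^ 2) tp.le
    (by positivity)
    (fun z hz => by
      obtain ⟨q1, q2, -⟩ := h1 z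
      have q3 : C1 * ‖(z : P)‖ ≤ C1 * π.t i ^ (37 : ℤ) := by gcongr
      have q0 : 0 ≤ C1 * π.t i ^ (37 : ℤ) := by positivity
      have := src_le (b' := 2 * p i z) (c' := 9 / 10 * Y i z) (A := d1 (p i) (Y i) (w i) z)
        (B' := d2 (p i) (Y i) (w i) z) (s := S i z) (r := 2 * C1 * π.t i ^ (37 : ℤ)) hε0
        (by rw [abs_mul, abs_two]; linarith)
        (by rw [abs_mul, abs_of_pos (by norm_num : (0 : ℝ) < 9 / 10)]; linarith)
      have q5 : S i z ^ 2 ≤ (C2 * π.t i ^ ((b : ℤ) - 89)) ^ 2 :=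
        sq_le_sq' (abs_le.1 (h2 z)).1 (abs_le.1 (h2 z)).2
      have q6 : θ0 z * (2 * (2 * C1 * π.t i ^ (37 : ℤ)) ^ 2 / ε * S i z ^ 2) ≤
          2 * (2 * C1 * π.t i ^ (37 : ℤ)) ^ 2 / ε * (C2 * π.t i ^ ((b : ℤ) - 89)) ^ 2 := by
        calc _ ≤ 1 * (2 * (2 * C1 * π.t i ^ (37 : ℤ)) ^ 2 / ε * S i z ^ 2) :=
              mul_le_mul_of_nonneg_right (θ0_le_one z) (by positivity)
          _ ≤ _ := by rw [one_mul]; gcongr
      have q7 := mul_le_mul_of_nonneg_left this (θ0_nonneg z)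
      simp only [EE, Pi.add_apply, Pi.mul_apply, Pi.pow_apply, cst_apply, Pi.ofNat_apply]
      nlinarith)
    (fun z hz => by
      have := mul_nonneg (θ0_nonneg z) (hE z)
      simp only [Pi.mul_apply, hsupp z hz, mul_zero, cst_apply]
      positivity)
  rw [I_cmul] at i1 i2
  rw [le_inv_mul_iff₀ hε0]
  linarith

/-- The first component of the modified multiplier. -/
noncomputable def bmul (p Y : Fn) (l s : ℝ) : Fn :=
  cst s * (cmp GG (cst s⁻¹ * (p + cst l * Y)) + cmp GG (cst s⁻¹ * (p - cst l * Y)))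

/-- The second component of the modified multiplier. -/
noncomputable def cmul (Y : Fn) (s : ℝ) : Fn := cst (9 / 10) * cst s * cmp GG (cst s⁻¹ * Y)

instance {p Y : Fn} [Reg 1 p] [Reg 1 Y] (l s : ℝ) : Reg 1 (bmul p Y l s) := by
  unfold bmul; infer_instance

instance {Y : Fn} [Reg 1 Y] (s : ℝ) : Reg 1 (cmul Y s) := by
  unfold cmul; infer_instance

theorem GG_scaled {s : ℝ} (hs : 0 < s) (x : ℝ) : |s * GG (s⁻¹ * x) - x| ≤ 4 * s := by
  have := GG_sub (s⁻¹ * x)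
  have e : s * GG (s⁻¹ * x) - x = s * (GG (s⁻¹ * x) - s⁻¹ * x) := by field_simp
  rw [e, abs_mul, abs_of_pos hs, mul_comm]
  gcongr

theorem bmul_sub {p Y : Fn} {l s : ℝ} (hs : 0 < s) (z : Om) :
    |bmul p Y l s z - 2 * p z| ≤ 8 * s := by
  have h1 := abs_le.1 (GG_scaled hs (p z + l * Y z))
  have h2 := abs_le.1 (GG_scaled hs (p z - l * Y z))
  simp only [bmul, Pi.add_apply, Pi.mul_apply, Pi.sub_apply, cst_apply, cmp_apply]
  rw [abs_le]; constructor <;> linarith [h1.1, h1.2, h2.1, h2.2]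

theorem cmul_sub {Y : Fn} {s : ℝ} (hs : 0 < s) (z : Om) :
    |cmul Y s z - 9 / 10 * Y z| ≤ 4 * s := by
  have h1 := abs_le.1 (GG_scaled hs (Y z))
  simp only [cmul, Pi.mul_apply, cst_apply, cmp_apply]
  rw [abs_le]; constructor <;> linarith [h1.1, h1.2]

theorem abs_inv_mul_le {s x a : ℝ} (hs : 0 < s) (h : |x| ≤ a * s) : |s⁻¹ * x| ≤ a := by
  rw [abs_mul, abs_of_pos (inv_pos.2 hs), inv_mul_le_iff₀ hs]; linarith

theorem le_abs_inv_mul {s x a : ℝ} (hs : 0 < s) (h : a * s ≤ |x|) : a ≤ |s⁻¹ * x| := by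
  rw [abs_mul, abs_of_pos (inv_pos.2 hs), le_inv_mul_iff₀ hs]; linarith

theorem QQ_mod (p Y K w : Fn) [Reg 1 p] [Reg 1 Y] [NZ (br p Y)] {l s s' : ℝ} (hs : 0 < s)
    (hs' : 0 < s') (z : Om) :
    QQ p Y K w (bmul p Y l s) (cmul Y s') z =
      ((1 - bf 1 2 (s⁻¹ * (p z + l * Y z))) + (1 - bf 1 2 (s⁻¹ * (p z - l * Y z))) -
          9 / 10 * (1 - bf 1 2 (s'⁻¹ * Y z))) * d2 p Y w z ^ 2 +
        (bmul p Y l s z * d1 p Y K z + cmul Y s' z * d2 p Y K z -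
          ((1 - bf 1 2 (s⁻¹ * (p z + l * Y z))) + (1 - bf 1 2 (s⁻¹ * (p z - l * Y z))) -
            9 / 10 * (1 - bf 1 2 (s'⁻¹ * Y z))) * K z) * d1 p Y w z ^ 2 -
        2 * (l * ((1 - bf 1 2 (s⁻¹ * (p z + l * Y z))) - (1 - bf 1 2 (s⁻¹ * (p z - l * Y z))))) *
          (d1 p Y w z * d2 p Y w z) := by
  have e1 : d1 p Y (bmul p Y l s) z =
      (1 - bf 1 2 (s⁻¹ * (p z + l * Y z))) + (1 - bf 1 2 (s⁻¹ * (p z - l * Y z))) := by
    simp only [bmul, d1_mul, d1_add, d1_sub, d1_cmp, d1_cst, d1_fst, d1_snd, deriv_GG,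
      Pi.add_apply, Pi.mul_apply, Pi.sub_apply, cst_apply, cmp_apply, Pi.zero_apply, Pi.one_apply]
    field_simp; ring
  have e2 : d2 p Y (bmul p Y l s) z =
      l * ((1 - bf 1 2 (s⁻¹ * (p z + l * Y z))) - (1 - bf 1 2 (s⁻¹ * (p z - l * Y z)))) := by
    simp only [bmul, d2_mul, d2_add, d2_sub, d2_cmp, d2_cst, d2_fst, d2_snd, deriv_GG,
      Pi.add_apply, Pi.mul_apply, Pi.sub_apply, cst_apply, cmp_apply, Pi.zero_apply, Pi.one_apply]
    field_simp; ring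
  have e3 : d1 p Y (cmul Y s') z = 0 := by
    simp only [cmul, d1_mul, d1_cmp, d1_cst, d1_snd,
      Pi.add_apply, Pi.mul_apply, cst_apply, cmp_apply, Pi.zero_apply]
    ring
  have e4 : d2 p Y (cmul Y s') z = 9 / 10 * (1 - bf 1 2 (s'⁻¹ * Y z)) := by
    simp only [cmul, d2_mul, d2_cmp, d2_cst, d2_snd, deriv_GG,
      Pi.add_apply, Pi.mul_apply, cst_apply, cmp_apply, Pi.zero_apply, Pi.one_apply]
    field_simp; ring
  simp only [QQ, Pi.add_apply, Pi.mul_apply, Pi.sub_apply, Pi.pow_apply, Pi.ofNat_apply, e1, e2,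
    e3, e4]
  ring

theorem form_out {g1 g2 g3 G K A B' c c' l : ℝ} (a1 : 0 ≤ g1) (a2 : g1 ≤ 1) (b1 : 0 ≤ g2)
    (b2 : g2 ≤ 1) (c1 : 0 ≤ g3) (c2 : g3 ≤ 1) (hg : g1 = 1 ∨ g2 = 1)
    (p1 : c / 2 ≤ G - 1 / 10 * K) (p2 : c / 2 ≤ G - 2 * K) (h0 : 0 < c') (h1 : c' ≤ c) (h2 : c' ≤ 1)
    (hl : l = c' / 10) :
    c' / 20 * (A ^ 2 + B' ^ 2) ≤ (g1 + g2 - 9 / 10 * g3) * B' ^ 2 +
      (G - (g1 + g2 - 9 / 10 * g3) * K) * A ^ 2 - 2 * (l * (g1 - g2)) * (A * B') := by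
  set D := g1 + g2 - 9 / 10 * g3 with hD
  have D1 : 1 / 10 ≤ D := by rcases hg with h | h <;> linarith
  have D2 : D ≤ 2 := by linarith
  have k1 : c / 2 ≤ G - D * K := by
    rcases le_total 0 K with hK | hK
    · nlinarith
    · nlinarith
  have k2 : 2 * (l * (g1 - g2)) * (A * B') ≤ c' / 5 * A ^ 2 + c' / 20 * B' ^ 2 := by
    have e : |g1 - g2| ≤ 1 := by rw [abs_le]; constructor <;> linarith
    have e' := abs_le.1 e
    rw [hl]
    nlinarith [mul_nonneg (sub_nonneg.2 e'.2) (sq_nonneg (2 * A + B')),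
      mul_nonneg (sub_nonneg.2 e'.1) (sq_nonneg (2 * A - B'))]
  nlinarith [sq_nonneg A, sq_nonneg B', mul_le_mul_of_nonneg_right k1 (sq_nonneg A),
    mul_le_mul_of_nonneg_right D1 (sq_nonneg B'), mul_le_mul_of_nonneg_right h1 (sq_nonneg A),
    mul_le_mul_of_nonneg_right h2 (sq_nonneg B')]

theorem form_in {g1 g2 G K A B' l r : ℝ} (a1 : 0 ≤ g1) (b1 : 0 ≤ g2)
    (hK : l ^ 2 ≤ -K) (hG : |G| ≤ r) :
    0 ≤ (g1 + g2) * B' ^ 2 + (G - (g1 + g2) * K) * A ^ 2 - 2 * (l * (g1 - g2)) * (A * B') +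
      r * (A ^ 2 + B' ^ 2) := by
  have h1 := (abs_le.1 hG).1
  have h0 := (abs_nonneg _).trans hG
  nlinarith [mul_nonneg a1 (sq_nonneg (B' - l * A)), mul_nonneg b1 (sq_nonneg (B' + l * A)),
    mul_nonneg (add_nonneg a1 b1) (mul_nonneg (sub_nonneg.2 hK) (sq_nonneg A)),
    mul_nonneg (sub_nonneg.2 h1) (sq_nonneg A), mul_nonneg h0 (sq_nonneg B')]

theorem Ana.Qlow (h : Ana π p Y K w S c b) : ∃ C : ℝ, 0 ≤ C ∧ ∀ᶠ i in π.l, ∀ z : Om,
    0 ≤ QQ (p i) (Y i) (K i) (w i) (bmul (p i) (Y i) (min c 1 / 10) (π.t i ^ (36 : ℤ)))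
      (cmul (Y i) (π.t i ^ (35 : ℤ))) z + C * π.t i ^ (36 : ℤ) * EE (p i) (Y i) (w i) z ∧
    (π.t i ^ (35 : ℤ) ≤ ‖(z : P)‖ → min c 1 / 20 * EE (p i) (Y i) (w i) z ≤
      QQ (p i) (Y i) (K i) (w i) (bmul (p i) (Y i) (min c 1 / 10) (π.t i ^ (36 : ℤ)))
        (cmul (Y i) (π.t i ^ (35 : ℤ))) z) := by
  obtain ⟨C1, hC1, h1⟩ := h.lipp
  obtain ⟨C2, hC2, h2⟩ := (h.crd.d1 h.hK zero_le_one).bound0
  obtain ⟨C3, hC3, h3⟩ := (h.crd.d2 h.hK zero_le_one).bound0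
  have hc := h.cpos
  set c' := min c 1 with hc'
  have hc0 : 0 < c' := lt_min hc one_pos
  have hc1 : c' ≤ c := min_le_left _ _
  have hc2 : c' ≤ 1 := min_le_right _ _
  set l := c' / 10 with hl
  have hl0 : 0 < l := by positivity
  refine ⟨12 * C2, by positivity, ?_⟩
  filter_upwards [h1, h2, h3, h.regs, h.low, h.pos1, h.pos2, h.hyp, π.pos,
    π.tpow_le (e := 36) (by norm_num) (8 * C2) (show 0 < c / 4 by positivity),
    π.tpow_le (e := 35) (by norm_num) (4 * C3) (show 0 < c / 4 by positivity),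
    π.tpow_le (e := 35) (by norm_num) C1 (show 0 < c / 2 by positivity),
    π.tpow_le' (e := 36) (e' := 35) (by norm_num) 2 hl0,
    π.tpow_le' (e := 36) (e' := 35) (by norm_num) 4 (show 0 < c * l by positivity)]
    with i h1 h2 h3 ⟨_, _, _, _, _, _⟩ hlow p1 p2 hyp hpos s1 s2 s3 s4 s5 z
  set s := π.t i ^ (36 : ℤ)
  set s' := π.t i ^ (35 : ℤ)
  have hs : 0 < s := zpow_pos hpos _
  have hs' : 0 < s' := zpow_pos hpos _
  have hE := EE_nonneg (p i) (Y i) (w i) z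
  rw [QQ_mod _ _ _ _ hs hs']
  simp only [EE, Pi.add_apply, Pi.pow_apply] at hE ⊢
  have n1 := bf_nonneg 1 2 (s⁻¹ * (p i z + l * Y i z))
  have n2 := bf_nonneg 1 2 (s⁻¹ * (p i z - l * Y i z))
  have n3 := bf_nonneg 1 2 (s'⁻¹ * Y i z)
  have m1 := bf_le_one 1 2 (s⁻¹ * (p i z + l * Y i z))
  have m2 := bf_le_one 1 2 (s⁻¹ * (p i z - l * Y i z))
  have m3 := bf_le_one 1 2 (s'⁻¹ * Y i z)
  have hb := bmul_sub (p := p i) (Y := Y i) (l := l) hs z
  have hcm := cmul_sub (Y := Y i) hs' z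
  by_cases hcase : 2 * s ≤ |p i z + l * Y i z| ∨ 2 * s ≤ |p i z - l * Y i z|
  · have k1 : |(bmul (p i) (Y i) l s z - 2 * p i z) * d1 (p i) (Y i) (K i) z| ≤ c / 4 := by
      rw [abs_mul]
      calc _ ≤ 8 * s * C2 := mul_le_mul hb (h2 z) (abs_nonneg _) (by positivity)
        _ ≤ _ := by linarith
    have k2 : |(cmul (Y i) s' z - 9 / 10 * Y i z) * d2 (p i) (Y i) (K i) z| ≤ c / 4 := by
      rw [abs_mul]
      calc _ ≤ 4 * s' * C3 := mul_le_mul hcm (h3 z) (abs_nonneg _) (by positivity)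
        _ ≤ _ := by linarith
    have k3 := form_out (A := d1 (p i) (Y i) (w i) z) (B' := d2 (p i) (Y i) (w i) z)
      (g1 := 1 - bf 1 2 (s⁻¹ * (p i z + l * Y i z))) (g2 := 1 - bf 1 2 (s⁻¹ * (p i z - l * Y i z)))
      (g3 := 1 - bf 1 2 (s'⁻¹ * Y i z))
      (G := bmul (p i) (Y i) l s z * d1 (p i) (Y i) (K i) z +
        cmul (Y i) s' z * d2 (p i) (Y i) (K i) z) (K := K i z) (c := c)
      (by linarith) (by linarith) (by linarith) (by linarith) (by linarith) (by linarith)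
      (by
        rcases hcase with hh | hh
        · left; rw [bf_zero (le_abs_inv_mul hs hh), sub_zero]
        · right; rw [bf_zero (le_abs_inv_mul hs hh), sub_zero])
      (by linarith [p1 z, (abs_le.1 k1).1, (abs_le.1 k2).1])
      (by linarith [p2 z, (abs_le.1 k1).1, (abs_le.1 k2).1]) hc0 hc1 hc2 hl
    refine ⟨?_, fun _ => k3⟩
    have : 0 ≤ c' / 20 * (d1 (p i) (Y i) (w i) z ^ 2 + d2 (p i) (Y i) (w i) z ^ 2) := by positivity
    have : 0 ≤ 12 * C2 * s * (d1 (p i) (Y i) (w i) z ^ 2 + d2 (p i) (Y i) (w i) z ^ 2) := by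
      positivity
    linarith
  · rw [not_or, not_le, not_le, abs_lt, abs_lt] at hcase
    obtain ⟨⟨u1, u2⟩, u3, u4⟩ := hcase
    have v1 : |p i z| ≤ 2 * s := by rw [abs_le]; constructor <;> linarith
    have v2 : l * |Y i z| ≤ 2 * s := by
      rw [← abs_of_pos hl0, ← abs_mul, abs_le]; constructor <;> linarith
    have v3 : |Y i z| ≤ 1 * s' := by
      rw [one_mul]; exact le_of_mul_le_mul_left (v2.trans s4) hl0
    have v4 : ‖(z : P)‖ < s' := by
      have := hlow z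
      have hl1 : l ≤ 1 / 10 := by linarith
      have : c * l * ‖(z : P)‖ < c * l * s' := by
        nlinarith [abs_nonneg (p i z)]
      exact lt_of_mul_lt_mul_left this (by positivity)
    refine ⟨?_, fun hz => absurd hz (not_le.2 v4)⟩
    have v5 : cmul (Y i) s' z = 0 := by
      simp only [cmul, Pi.mul_apply, cst_apply, cmp_apply, GG_zero (abs_inv_mul_le hs' v3),
        mul_zero]
    have v6 : l ^ 2 ≤ -K i z := by
      have := (abs_le.1 (h1 z).2.2).2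
      have : C1 * ‖(z : P)‖ ≤ C1 * s' := by gcongr
      nlinarith
    have v7 : |bmul (p i) (Y i) l s z * d1 (p i) (Y i) (K i) z| ≤ 12 * C2 * s := by
      rw [abs_mul]
      have : |bmul (p i) (Y i) l s z| ≤ 12 * s := by
        have := abs_le.1 hb; have := abs_le.1 v1
        rw [abs_le]; constructor <;> linarith
      calc _ ≤ 12 * s * C2 := mul_le_mul this (h2 z) (abs_nonneg _) (by positivity)
        _ = _ := by ring
    have k3 := form_in (A := d1 (p i) (Y i) (w i) z) (B' := d2 (p i) (Y i) (w i) z)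
      (g1 := 1 - bf 1 2 (s⁻¹ * (p i z + l * Y i z))) (g2 := 1 - bf 1 2 (s⁻¹ * (p i z - l * Y i z)))
      (by linarith) (by linarith) v6 v7
    rw [v5, bf_one one_pos one_lt_two (abs_inv_mul_le hs' v3)]
    linarith

/-- The small cutoff. -/
noncomputable def chi (t : ℝ) : Fn := cut 1 2 (t ^ (35 : ℤ))

instance (k : ℕ) (t : ℝ) : Reg k (chi t) := by unfold chi; infer_instance

theorem chi_d_zero {t : ℝ} (ht : 0 < t) (α β : Fn) {z : Om}
    (hz : ‖(z : P)‖ < t ^ (35 : ℤ) ∨ 2 * t ^ (35 : ℤ) < ‖(z : P)‖) :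
    d1 α β (chi t) z = 0 ∧ d2 α β (chi t) z = 0 := by
  rcases hz with hz | hz
  · refine d_zero_of_ev (a := 1) ?_
    filter_upwards [ev_norm_lt hz] with y hy
    exact cut_one one_pos one_lt_two (zpow_pos ht _) (by linarith)
  · refine d_zero_of_ev (a := 0) ?_
    filter_upwards [ev_norm_gt hz] with y hy
    exact cut_zero (zpow_pos ht _) hy.le

theorem Ana.outer (h : Ana π p Y K w S c b) {l : ι → ℝ} (hl : Ot π 0 l) :
    Ot π (2 * b + 6) (fun i => I ((cst (π.t i ^ (35 : ℤ)) * (d2 (p i) (Y i) (chi (π.t i)) -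
      cst (l i) * d1 (p i) (Y i) (chi (π.t i)))) ^ 2 * EE (p i) (Y i) (w i))) := by
  have hc := h.cpos
  set c' := min c 1 with hc'
  have hc0 : 0 < c' := lt_min hc one_pos
  have hc2 : c' ≤ 1 := min_le_right _ _
  obtain ⟨C0, hC0, h0⟩ := h.hp.bound0
  obtain ⟨C0', hC0', h0'⟩ := h.hY.bound0
  obtain ⟨err, herr, hen⟩ := h.energy
    (bb := fun i => bmul (p i) (Y i) (c' / 10) (π.t i ^ (36 : ℤ)))
    (cc := fun i => cmul (Y i) (π.t i ^ (35 : ℤ)))
    (Bt.zero_of (C := 2 * C0 + 8)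
      (by filter_upwards [h.regs] with i ⟨_, _, _⟩; infer_instance)
      (by
        filter_upwards [h0, π.pos, π.tpow_le (e := 36) (by norm_num) 1 one_pos] with i h0 hp h1 z
        have := abs_le.1 (bmul_sub (p := p i) (Y := Y i) (l := c' / 10) (zpow_pos hp 36) z)
        have := abs_le.1 (h0 z)
        rw [zpow_zero, abs_le]; constructor <;> linarith))
    (Bt.zero_of (C := C0' + 4)
      (by filter_upwards [h.regs] with i ⟨_, _, _⟩; infer_instance)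
      (by
        filter_upwards [h0', π.pos, π.tpow_le (e := 35) (by norm_num) 1 one_pos] with i h0 hp h1 z
        have := abs_le.1 (cmul_sub (Y := Y i) (zpow_pos hp 35) z)
        have := abs_le.1 (h0 z)
        rw [zpow_zero, abs_le]; constructor <;> linarith))
    (by filter_upwards [h.regs] with i ⟨_, _, _⟩; exact ⟨inferInstance, inferInstance⟩)
  obtain ⟨C1, hC1, h1⟩ := h.lipp
  obtain ⟨C2, hC2, h2⟩ := h.Qlow
  obtain ⟨C3, hC3, h3⟩ := h.hH.bound0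
  have hcrd := h.crd.mono le_rfl (show (0 : ℤ) ≤ 35 by norm_num)
  have hchi : Bt π 1 35 0 (fun i => chi (π.t i)) := Bt.cut 1 2 35
  obtain ⟨C4, hC4, h4⟩ := ((Bt.cst (Ot.tpow π 35)).mul ((hcrd.d2 hchi zero_le_one).sub
    ((Bt.cst hl).mul' (hcrd.d1 hchi zero_le_one) (by omega)))).sq.bound0
  have hO := ((herr.add (((Ot.tpow π 36).mul h.inner).cmul (C2 * C3) |>.mono (by omega))).cmul
    (C4 / (c' / 20 * c)))
  refine hO.of_le ?_
  filter_upwards [hen, h1, h2, h3, h4, h.regs, h.H, h.supp, π.pos,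
    π.tpow_le (e := 35) (by norm_num) 2 one_pos,
    π.tpow_le' (e := 37) (e' := 36) (by norm_num) (2 * C1) one_pos,
    π.tpow_le' (e := 37) (e' := 35) (by norm_num) C1 one_pos]
    with i hen h1 h2 h3 h4 ⟨_, _, _, _, _, _⟩ hH hsupp hpos s1 s2 s3
  have hE := EE_nonneg (p i) (Y i) (w i)
  rw [abs_of_nonneg (I_nonneg (f := _ ^ 2 * EE (p i) (Y i) (w i))
    (fun z => mul_nonneg (sq_nonneg _) (hE z)))]
  have t35 := zpow_pos hpos 35
  have t36 := zpow_pos hpos 36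
  have e0 : θ0 * (2 * (bmul (p i) (Y i) (c' / 10) (π.t i ^ (36 : ℤ)) * d1 (p i) (Y i) (w i) +
      cmul (Y i) (π.t i ^ (35 : ℤ)) * d2 (p i) (Y i) (w i))) * S i = 0 := by
    funext z
    by_cases hz : ‖(z : P)‖ ≤ π.t i ^ (37 : ℤ)
    · obtain ⟨q1, q2, -⟩ := h1 z
      have q3 : C1 * ‖(z : P)‖ ≤ C1 * π.t i ^ (37 : ℤ) := by gcongr
      have q4 : |c' / 10 * Y i z| ≤ |Y i z| := by
        rw [abs_mul, abs_of_pos (by positivity : 0 < c' / 10)]
        exact mul_le_of_le_one_left (abs_nonneg _) (by linarith)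
      have r1 : |p i z + c' / 10 * Y i z| ≤ 1 * π.t i ^ (36 : ℤ) :=
        (abs_add_le _ _).trans (by linarith)
      have r2 : |p i z - c' / 10 * Y i z| ≤ 1 * π.t i ^ (36 : ℤ) :=
        (abs_sub _ _).trans (by linarith)
      have r3 : |Y i z| ≤ 1 * π.t i ^ (35 : ℤ) := by linarith
      simp only [bmul, cmul, Pi.mul_apply, Pi.add_apply, Pi.sub_apply, cst_apply, cmp_apply,
        GG_zero (abs_inv_mul_le t36 r1), GG_zero (abs_inv_mul_le t36 r2),
        GG_zero (abs_inv_mul_le t35 r3), Pi.zero_apply]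
      ring
    · simp [hsupp z (not_le.1 hz)]
  rw [e0, I_zero, zero_add] at hen
  set Q := QQ (p i) (Y i) (K i) (w i) (bmul (p i) (Y i) (c' / 10) (π.t i ^ (36 : ℤ)))
    (cmul (Y i) (π.t i ^ (35 : ℤ)))
  have i1 : I ((cst (π.t i ^ (35 : ℤ)) * (d2 (p i) (Y i) (chi (π.t i)) -
      cst (l i) * d1 (p i) (Y i) (chi (π.t i)))) ^ 2 * EE (p i) (Y i) (w i)) ≤
      I (cst (C4 / (c' / 20 * c)) * (θ0 * Q * br (p i) (Y i) +
        cst (C2 * C3 * π.t i ^ (36 : ℤ)) * (θ0 * EE (p i) (Y i) (w i)))) := by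
    refine I_mono (fun z => ?_)
    obtain ⟨q1, q2⟩ := h2 z
    have q3 := hH z
    have q4 := (le_abs_self _).trans (h3 z)
    have q5 := (le_abs_self _).trans (h4 z)
    have q6 := hE z
    have q7 := θ0_nonneg z
    simp only [Pi.add_apply, Pi.mul_apply, Pi.pow_apply, Pi.sub_apply, cst_apply] at q5 ⊢
    by_cases hz : ‖(z : P)‖ < π.t i ^ (35 : ℤ) ∨ 2 * π.t i ^ (35 : ℤ) < ‖(z : P)‖
    · obtain ⟨z1, z2⟩ := chi_d_zero hpos (p i) (Y i) hz
      rw [z1, z2]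
      have a1 : 0 ≤ (Q z + C2 * π.t i ^ (36 : ℤ) * EE (p i) (Y i) (w i) z) * br (p i) (Y i) z :=
        mul_nonneg q1 (hc.le.trans q3)
      have a2 : C2 * π.t i ^ (36 : ℤ) * EE (p i) (Y i) (w i) z * br (p i) (Y i) z ≤
          C2 * π.t i ^ (36 : ℤ) * EE (p i) (Y i) (w i) z * C3 :=
        mul_le_mul_of_nonneg_left q4 (by positivity)
      have a3 : 0 ≤ θ0 z * Q z * br (p i) (Y i) z +
          C2 * C3 * π.t i ^ (36 : ℤ) * (θ0 z * EE (p i) (Y i) (w i) z) := by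
        nlinarith [mul_nonneg q7 (show 0 ≤ Q z * br (p i) (Y i) z +
          C2 * π.t i ^ (36 : ℤ) * EE (p i) (Y i) (w i) z * C3 by linarith)]
      simp only [mul_zero, sub_zero, ne_eq, OfNat.ofNat_ne_zero, not_false_eq_true, zero_pow,
        zero_mul]
      positivity
    · rw [not_or, not_lt, not_lt] at hz
      rw [θ0_one (by linarith [hz.2])]
      have a1 := mul_le_mul (q2 hz.1) q3 hc.le ((by positivity :
        0 ≤ c' / 20 * EE (p i) (Y i) (w i) z).trans (q2 hz.1))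
      have a2 : 0 ≤ C2 * C3 * π.t i ^ (36 : ℤ) * (1 * EE (p i) (Y i) (w i) z) := by positivity
      calc _ ≤ C4 * EE (p i) (Y i) (w i) z := mul_le_mul_of_nonneg_right q5 q6
        _ = C4 / (c' / 20 * c) * (c' / 20 * EE (p i) (Y i) (w i) z * c) := by field_simp
        _ ≤ _ := mul_le_mul_of_nonneg_left (by linarith) (by positivity)
  rw [I_cmul, I_add, I_cmul] at i1
  refine i1.trans (mul_le_mul_of_nonneg_left ?_ (by positivity))
  linarith

theorem Ot.amgm {f g : ι → Fn} {ea e er : ℤ} {C : ℝ}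
    (hr : ∀ᶠ i in π.l, Reg 0 (f i) ∧ Reg 0 (g i)) (hg : ∀ᶠ i in π.l, ∀ z, 0 ≤ g i z)
    (h1 : ∀ᶠ i in π.l, ∀ z, f i z ^ 2 ≤ (C * π.t i ^ ea) ^ 2 * g i z)
    (h2 : ∀ᶠ i in π.l, ∀ z : Om, 2 * π.t i ^ er < ‖(z : P)‖ → f i z = 0)
    (h3 : Ot π (2 * e) (fun i => I (g i))) : Ot π (ea + e + er) (fun i => I (f i)) := by
  have a1 := (((Ot.tpow π (ea - e + er)).mul h3).cmul |C|).mono (e' := ea + e + er) (by omega)
  have a2 := (Ot.tpow π (ea + e + er)).cmul (16 * |C|)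
  refine (a1.add a2).of_le ?_
  filter_upwards [hr, hg, h1, h2, π.pos] with i ⟨_, _⟩ hg h1 h2 hp
  have := I_abs_le (f := f i) (g := g i) (ρ := 2 * π.t i ^ er) (a := |C| * π.t i ^ ea)
    (w := π.t i ^ (e - er)) (by have := zpow_pos hp er; positivity)
    (by have := zpow_pos hp ea; positivity) (zpow_pos hp _) hg
    (fun z => by simpa [mul_pow] using h1 z) h2
  refine this.trans (le_of_eq ?_)
  simp only [zpow_add₀ hp.ne', zpow_sub₀ hp.ne']
  have := zpow_pos hp er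
  have := zpow_pos hp e
  field_simp
  ring

/-- The profile of the test function composed with the characteristic coordinate. -/
noncomputable def Phi (t l s : ℝ) (p Y : Fn) : Fn :=
  cst (t ^ (84 : ℤ)) * cmp prof (cst (t ^ (42 : ℤ))⁻¹ * (p + cst l * Y - cst s))

instance {k : ℕ} (t l s : ℝ) {p Y : Fn} [Reg k p] [Reg k Y] : Reg k (Phi t l s p Y) := by
  unfold Phi; infer_instance

theorem Ana.test (h : Ana π p Y K w S c b) {l : ι → ℝ} (hl : ∀ᶠ i in π.l, l i ^ 2 = -K i o)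
    (s : ι → ℝ) :
    Ot π (b + 87) (fun i => I (chi (π.t i) * Phi (π.t i) (l i) (s i) (p i) (Y i) * S i)) := by
  obtain ⟨C0, hC0, h0⟩ := h.hK.bound0
  have hlO : Ot π 0 l := by
    refine ⟨C0 + 1, by positivity, ?_⟩
    filter_upwards [hl, h0] with i hi h0
    have := (abs_le.1 (h0 o)).1
    rw [zpow_zero, mul_one]
    refine abs_le_of_sq_le_sq ?_ (by positivity)
    nlinarith
  obtain ⟨C1, hC1, h1⟩ := hlO
  have hlO : Ot π 0 l := ⟨C1, hC1, h1⟩
  have hPhi : Bt π 1 42 84 (fun i => Phi (π.t i) (l i) (s i) (p i) (Y i)) := by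
    refine (Bt.cst (Ot.tpow π 84)).mul' (Bt.cmp (k := 0) prof_allBdd ?_ ?_ ?_) (by omega)
    · filter_upwards [h.regs] with i ⟨_, _, _⟩
      show Reg 1 _
      infer_instance
    · refine (((Bt.cst (Ot.tpow π (-42))).mul' (((h.hp.dx.mono zero_le_one le_rfl le_rfl).add
        ((Bt.cst hlO).mul (h.hY.dx.mono zero_le_one le_rfl le_rfl))).mono le_rfl (by omega) le_rfl)
        (by omega))).congr ?_
      filter_upwards [h.regs] with i ⟨_, _, _⟩
      simp only [dx_mul, dx_add, dx_sub, dx_cst, zpow_neg]; ring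
    · refine (((Bt.cst (Ot.tpow π (-42))).mul' (((h.hp.dy.mono zero_le_one le_rfl le_rfl).add
        ((Bt.cst hlO).mul (h.hY.dy.mono zero_le_one le_rfl le_rfl))).mono le_rfl (by omega) le_rfl)
        (by omega))).congr ?_
      filter_upwards [h.regs] with i ⟨_, _, _⟩
      simp only [dy_mul, dy_add, dy_sub, dy_cst, zpow_neg]; ring
  have hH : Bt π 0 42 0 (fun i => br (p i) (Y i)) := h.hH.mono zero_le_one (by omega) le_rfl
  have hchi : Bt π 1 42 0 (fun i => chi (π.t i)) := (Bt.cut 1 2 35).mono le_rfl (by omega) le_rfl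
  have hcrd := h.crd.mono le_rfl (show (0 : ℤ) ≤ 42 by norm_num)
  obtain ⟨C2, hC2, h2⟩ := ((hPhi.mono zero_le_one le_rfl le_rfl).mul hH).bound
  obtain ⟨C3, hC3, h3⟩ := ((hcrd.d1 (hchi.mul hPhi) zero_le_one).mul hH).bound
  obtain ⟨C4, hC4, h4⟩ := h.lipp
  have T1 := Ot.amgm (π := π)
    (f := fun i => Phi (π.t i) (l i) (s i) (p i) (Y i) * (d2 (p i) (Y i) (chi (π.t i)) -
      cst (l i) * d1 (p i) (Y i) (chi (π.t i))) *
      (d2 (p i) (Y i) (w i) + cst (l i) * d1 (p i) (Y i) (w i)) * br (p i) (Y i))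
    (g := fun i => (cst (π.t i ^ (35 : ℤ)) * (d2 (p i) (Y i) (chi (π.t i)) -
      cst (l i) * d1 (p i) (Y i) (chi (π.t i)))) ^ 2 * EE (p i) (Y i) (w i))
    (ea := 49) (e := b + 3) (er := 35) (C := 2 * (C1 + 1) * C2)
    (by filter_upwards [h.regs] with i ⟨_, _, _, _, _, _⟩; exact ⟨inferInstance, inferInstance⟩)
    (Eventually.of_forall fun i z => mul_nonneg (sq_nonneg _) (EE_nonneg _ _ _ z))
    (by
      filter_upwards [h1, h2, π.pos] with i h1 h2 hp z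
      rw [zpow_zero, mul_one] at h1
      have a1 := sq_comb (x := d1 (p i) (Y i) (w i) z) (y := d2 (p i) (Y i) (w i) z)
        (a := l i) (b := 1) (C := C1 + 1) (by linarith) (by rw [abs_one]; linarith)
      have a2 := sq_le_sq' (abs_le.1 (h2 z)).1 (abs_le.1 (h2 z)).2
      have a3 : π.t i ^ (84 + 0 : ℤ) = π.t i ^ (49 : ℤ) * π.t i ^ (35 : ℤ) := by
        rw [← zpow_add₀ hp.ne']; norm_num
      rw [a3] at a2
      simp only [EE, Pi.add_apply, Pi.mul_apply, Pi.pow_apply, Pi.sub_apply, cst_apply] at a2 ⊢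
      have a4 := mul_le_mul a1 a2 (sq_nonneg _) (by positivity)
      have a5 := mul_le_mul_of_nonneg_right a4 (sq_nonneg (d2 (p i) (Y i) (chi (π.t i)) z -
        l i * d1 (p i) (Y i) (chi (π.t i)) z))
      have a6 : 0 ≤ 2 * (C1 + 1) ^ 2 * (d1 (p i) (Y i) (w i) z ^ 2 + d2 (p i) (Y i) (w i) z ^ 2) *
          (C2 * (π.t i ^ (49 : ℤ) * π.t i ^ (35 : ℤ))) ^ 2 * (d2 (p i) (Y i) (chi (π.t i)) z -
            l i * d1 (p i) (Y i) (chi (π.t i)) z) ^ 2 := by positivity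
      nlinarith)
    (by
      filter_upwards [π.pos] with i hp z hz
      obtain ⟨z1, z2⟩ := chi_d_zero hp (p i) (Y i) (Or.inr hz)
      simp [z1, z2])
    ((h.outer hlO).mono (by omega))
  have T2 := Ot.amgm (π := π)
    (f := fun i => d1 (p i) (Y i) (chi (π.t i) * Phi (π.t i) (l i) (s i) (p i) (Y i)) *
      (K i + cst (l i) ^ 2) * d1 (p i) (Y i) (w i) * br (p i) (Y i))
    (g := fun i => θ0 * EE (p i) (Y i) (w i))
    (ea := 77) (e := b - 15) (er := 35) (C := 2 * C4 * C3)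
    (by filter_upwards [h.regs] with i ⟨_, _, _, _, _, _⟩; exact ⟨inferInstance, inferInstance⟩)
    (Eventually.of_forall fun i z => mul_nonneg (θ0_nonneg z) (EE_nonneg _ _ _ z))
    (by
      filter_upwards [hl, h3, h4, π.pos, π.tpow_le (e := 35) (by norm_num) 2 one_pos]
        with i hl h3 h4 hp s1 z
      have t35 := zpow_pos hp 35
      by_cases hz : 2 * π.t i ^ (35 : ℤ) < ‖(z : P)‖
      · have hev : chi (π.t i) * Phi (π.t i) (l i) (s i) (p i) (Y i) =ᶠ[𝓝 z] cst 0 := by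
          filter_upwards [ev_norm_gt hz] with y hy
          have : chi (π.t i) y = 0 := cut_zero t35 hy.le
          simp [this]
        have := mul_nonneg (θ0_nonneg z) (EE_nonneg (p i) (Y i) (w i) z)
        simp only [Pi.mul_apply, (d_zero_of_ev hev).1, zero_mul, ne_eq, OfNat.ofNat_ne_zero,
          not_false_eq_true, zero_pow]
        positivity
      · rw [not_lt] at hz
        have a1 : |K i z + l i ^ 2| ≤ 2 * C4 * π.t i ^ (35 : ℤ) := by
          rw [hl, ← sub_eq_add_neg]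
          refine (h4 z).2.2.trans ?_
          calc _ ≤ C4 * (2 * π.t i ^ (35 : ℤ)) := by gcongr
            _ = _ := by ring
        have a2 := sq_le_sq' (abs_le.1 (h3 z)).1 (abs_le.1 (h3 z)).2
        have a1' := sq_le_sq' (abs_le.1 a1).1 (abs_le.1 a1).2
        have a3 : π.t i ^ (77 : ℤ) = π.t i ^ (0 + 84 - 42 + 0 : ℤ) * π.t i ^ (35 : ℤ) := by
          rw [← zpow_add₀ hp.ne']; norm_num
        rw [a3]
        simp only [EE, Pi.add_apply, Pi.mul_apply, Pi.pow_apply, cst_apply] at a2 ⊢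
        rw [θ0_one (by linarith), one_mul]
        have a4 := mul_le_mul a1' a2 (sq_nonneg _) (by positivity)
        have a5 := mul_le_mul_of_nonneg_right a4 (sq_nonneg (d1 (p i) (Y i) (w i) z))
        have a6 : 0 ≤ (2 * C4 * π.t i ^ (35 : ℤ)) ^ 2 * (C3 * π.t i ^ (0 + 84 - 42 + 0 : ℤ)) ^ 2 *
          d2 (p i) (Y i) (w i) z ^ 2 := by positivity
        nlinarith)
    (by
      filter_upwards [π.pos] with i hp z hz
      have hev : chi (π.t i) * Phi (π.t i) (l i) (s i) (p i) (Y i) =ᶠ[𝓝 z] cst 0 := by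
        filter_upwards [ev_norm_gt hz] with y hy
        have : chi (π.t i) y = 0 := cut_zero (zpow_pos hp 35) hy.le
        simp [this]
      simp [(d_zero_of_ev hev).1])
    (h.inner.mono (by omega))
  refine (((T1.mono (by omega)).neg).sub (T2.mono (by omega))).congr ?_
  filter_upwards [h.regs, h.eqn, π.pos, π.tpow_le (e := 35) (by norm_num) 2 one_pos]
    with i ⟨_, _, _, _, _, _⟩ heq hp s1
  have hv : Van (chi (π.t i)) := fun z hz => cut_zero (zpow_pos hp 35) (by linarith)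
  have hΦ : d2 (p i) (Y i) (Phi (π.t i) (l i) (s i) (p i) (Y i)) =
      cst (l i) * d1 (p i) (Y i) (Phi (π.t i) (l i) (s i) (p i) (Y i)) := by
    simp only [Phi, d1_mul, d2_mul, d1_cmp, d2_cmp, d1_add, d2_add, d1_sub, d2_sub, d1_cst, d2_cst,
      d1_fst, d2_fst, d1_snd, d2_snd]
    ring
  have ht := testid (p i) (Y i) (K i) (w i) (chi (π.t i)) _ (l i) hΦ
  rw [← heq, mul_comm (br (p i) (Y i)), ← mul_assoc, ht, sub_mul, sub_mul, add_mul, I_sub, I_sub,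
    I_add, I_d1 _ _ ((hv.mul_right _).mul_right _), I_d2 _ _ ((hv.mul_right _).mul_right _)]
  ring

end Vale.Agent.P229
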