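import Vale.Agent.P229.Pert
import Vale.Agent.P229.Energy

/-! Two close isometric immersions of two different perturbed metrics cannot exist. -/

namespace Vale.Agent.P229

open scoped ContDiff Topology
open Set Filter MeasureTheory

set_option synthInstance.maxSize 2000

variable {ι : Type} {π : Par ι}

/-- A family of pairs of close immersions. -/
structure PairData (π : Par ι) (M κ a r : ℝ) (b : ℕ) (F F' : ι → Surf) (n j0 : ι → ℕ)
    (ε ε' : ι → ℕ → ℝ) : Prop where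
  hκ : 0 < κ
  ha : 0 < a
  hr : 0 < r
  hr1 : r ≤ 1
  geo : ∀ G, Cls M r G → Good a r G → Geo a r G
  cls : ∀ᶠ i in π.l, Cls M r (F i) ∧ Cls M r (F' i)
  good : ∀ᶠ i in π.l, Good a r (F i) ∧ Good a r (F' i)
  iso : ∀ᶠ i in π.l,
    Iso (F i).X (F i).Y (F i).u (EF (κ * r ^ 4) (pertF (π.t i) (n i) b (ε i))) ∧
    Iso (F' i).X (F' i).Y (F' i).u (EF (κ * r ^ 4) (pertF (π.t i) (n i) b (ε' i)))
  Kc : ∀ᶠ i in π.l, B 1 1 (κ * r ^ 4 / 2000) (KK (F i).X (F i).Y (F i).u - cst (κ * r ^ 4) * k0)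
  hn : ∀ᶠ i in π.l, (n i : ℝ) ≤ π.t i ^ (-3 : ℤ)
  hε : ∀ᶠ i in π.l, ∀ j, |ε' i j - ε i j| ≤ 2
  hj : ∀ᶠ i in π.l, j0 i < n i ∧ |ε' i (j0 i) - ε i (j0 i)| = 1
  cXx : Bt π 2 0 1 (fun i => dx (F' i).X - dx (F i).X)
  cXy : Bt π 2 0 1 (fun i => dy (F' i).X - dy (F i).X)
  cYx : Bt π 2 0 1 (fun i => dx (F' i).Y - dx (F i).Y)
  cYy : Bt π 2 0 1 (fun i => dy (F' i).Y - dy (F i).Y)
  cux : Bt π 2 0 1 (fun i => dx (F' i).u - dx (F i).u)
  cuy : Bt π 2 0 1 (fun i => dy (F' i).u - dy (F i).u)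
  cells : ∀ k : ℕ, k ≤ b + 3 → ∀ᶠ i in π.l, ∃ T : ℕ, 0 < T ∧ π.t i = 1 / (T : ℝ) ∧
    ∀ m n : ℤ, -2 * (T : ℤ) ≤ m → m < 2 * (T : ℤ) → -2 * (T : ℤ) ≤ n → n < 2 * (T : ℤ) →
      |∫ z in cell (1 / (T : ℝ)) m n, ext (th k * ((F' i).u - (F i).u)) z| ≤ π.t i ^ ((b : ℤ) + 5)

theorem pos_real {x y μ Wx Wy kx ky k D : ℝ} (hx : |x| ≤ 7 / 5) (hy : |y| ≤ 7 / 5)
    (hμ : |μ| ≤ 21 / 20) (h1 : |Wx - (2 * x + 11 / 10 * μ * y)| ≤ 1 / 1000)
    (h2 : |Wy - 9 / 10 * y| ≤ 1 / 1000) (h3 : |kx - 2 * x| ≤ 1 / 1000)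
    (h4 : |ky - 2 * y| ≤ 1 / 1000) (h5 : |k - (x ^ 2 + y ^ 2 - 1)| ≤ 1 / 1000)
    (hD : D = 1 / 10 ∨ D = 2) : 1 / 20 ≤ Wx * kx + Wy * ky - D * k := by
  have my : |μ * y| ≤ 21 / 20 * (7 / 5) := by
    rw [abs_mul]; exact mul_le_mul hμ hy (abs_nonneg _) (by norm_num)
  have my2 : (μ * y) ^ 2 ≤ (21 / 20) ^ 2 * y ^ 2 := by
    rw [mul_pow]
    exact mul_le_mul_of_nonneg_right (sq_le_sq' (abs_le.1 hμ).1 (abs_le.1 hμ).2) (sq_nonneg y)
  have y2 : y ^ 2 ≤ (7 / 5) ^ 2 := sq_le_sq' (abs_le.1 hy).1 (abs_le.1 hy).2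
  have key : ∀ u v A B : ℝ, |u| ≤ A → |v| ≤ B → -(A * B) ≤ u * v := fun u v A B hu hv => by
    have : |u * v| ≤ A * B := by
      rw [abs_mul]; exact mul_le_mul hu hv (abs_nonneg _) ((abs_nonneg _).trans hu)
    exact (abs_le.1 this).1
  have wx : |2 * x + 11 / 10 * μ * y| ≤ 5 := by
    have := abs_le.1 hx; have := abs_le.1 my
    rw [abs_le]; constructor <;> linarith
  have kx' : |kx| ≤ 3 := by
    have := abs_le.1 hx; have := abs_le.1 h3
    rw [abs_le]; constructor <;> linarith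
  have ky' : |ky| ≤ 3 := by
    have := abs_le.1 hy; have := abs_le.1 h4
    rw [abs_le]; constructor <;> linarith
  have e1 := key _ _ _ _ h1 kx'
  have e2 := key _ _ _ _ wx h3
  have e3 := key _ _ _ _ h2 ky'
  have e4 := key _ _ _ _ hy h4
  have e5 := abs_le.1 h5
  rcases hD with rfl | rfl
  · nlinarith [sq_nonneg (x + μ * y), sq_nonneg x, sq_nonneg y]
  · nlinarith [sq_nonneg (20 * x + 11 * (μ * y))]

variable {M κ a r : ℝ} {b : ℕ} {F F' : ι → Surf} {n j0 : ι → ℕ} {ε ε' : ι → ℕ → ℝ}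

theorem PairData.famF (h : PairData π M κ a r b F F' n j0 ε ε') : Fam π 0 F :=
  Fam.of_cls (M := M) (r := fun _ => r) (h.cls.mono fun _ hi => ⟨hi.1, h.hr.le, by simpa using h.hr1⟩)

theorem PairData.famF' (h : PairData π M κ a r b F F' n j0 ε ε') : Fam π 0 F' :=
  Fam.of_cls (M := M) (r := fun _ => r) (h.cls.mono fun _ hi => ⟨hi.2, h.hr.le, by simpa using h.hr1⟩)

theorem PairData.famG (h : PairData π M κ a r b F F' n j0 ε ε') :
    Fam π 0 (fun i => mean (F i) (F' i)) :=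
  Fam.of_cls (M := M) (r := fun _ => r)
    (h.cls.mono fun _ hi => ⟨hi.1.mean hi.2, h.hr.le, by simpa using h.hr1⟩)

theorem PairData.geoG (h : PairData π M κ a r b F F' n j0 ε ε') :
    ∀ᶠ i in π.l, Geo a r (mean (F i) (F' i)) := by
  filter_upwards [h.cls, h.good] with i h1 h2
  exact h.geo _ (h1.1.mean h1.2) (Good.mean h1.1.nrm h1.2.nrm h2.1 h2.2)

theorem PairData.Kbar (h : PairData π M κ a r b F F' n j0 ε ε') :
    Cl π 1 (fun i => KK (mean (F i) (F' i)).X (mean (F i) (F' i)).Y (mean (F i) (F' i)).u)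
      (fun i => KK (F i).X (F i).Y (F i).u) := by
  have hc : (2 : Fn) * cst (1 / 2) = 1 := by funext z; simp
  have key : ∀ {f g g' : ι → Fn}, Bt π 3 0 0 f → Bt π 3 0 0 g →
      Bt π 2 0 1 (fun i => g' i - g i) → (∀ᶠ i in π.l, f i = cst (1 / 2) * (g i + g' i)) →
      Cl π 2 f g := fun h1 h2 h3 h4 =>
    ⟨h1.mono (by omega) le_rfl le_rfl, h2.mono (by omega) le_rfl le_rfl,
      ((Bt.const (1 / 2)).mul h3).congr (by
        filter_upwards [h4] with i hi
        rw [hi]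
        funext z
        simp only [Pi.sub_apply, Pi.mul_apply, Pi.add_apply, cst_apply]
        ring)⟩
  refine Cl.KK (h.geoG.mono fun _ hi => hi.J)
    (by filter_upwards [h.cls, h.good] with i h1 h2; exact (h.geo _ h1.1 h2.1).J)
    (key h.famG.bXx h.famF.bXx h.cXx ?_) (key h.famG.bXy h.famF.bXy h.cXy ?_)
    (key h.famG.bYx h.famF.bYx h.cYx ?_) (key h.famG.bYy h.famF.bYy h.cYy ?_)
    (key h.famG.bux h.famF.bux h.cux ?_) (key h.famG.buy h.famF.buy h.cuy ?_) <;>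
  · filter_upwards [h.cls] with i hi
    have := hi.1.nrm.rX; have := hi.1.nrm.rY; have := hi.1.nrm.ru
    have := hi.2.nrm.rX; have := hi.2.nrm.rY; have := hi.2.nrm.ru
    simp only [mean, dx_mean, dy_mean]

theorem PairData.Kmodel (h : PairData π M κ a r b F F' n j0 ε ε') : ∀ᶠ i in π.l, ∀ z : Om,
    |KK (mean (F i) (F' i)).X (mean (F i) (F' i)).Y (mean (F i) (F' i)).u z / (κ * r ^ 4) -
      ((z : P).1 ^ 2 + (z : P).2 ^ 2 - 1)| ≤ 1 / 1000 ∧
    |dx (KK (mean (F i) (F' i)).X (mean (F i) (F' i)).Y (mean (F i) (F' i)).u) z / (κ * r ^ 4) -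
      2 * (z : P).1| ≤ 1 / 1000 ∧
    |dy (KK (mean (F i) (F' i)).X (mean (F i) (F' i)).Y (mean (F i) (F' i)).u) z / (κ * r ^ 4) -
      2 * (z : P).2| ≤ 1 / 1000 := by
  have hκ := h.hκ
  have hr := h.hr
  have hs : 0 < κ * r ^ 4 := by positivity
  have hs' : 0 < κ * r ^ 4 / 2000 := by positivity
  have key : ∀ x y m : ℝ, |x - y| ≤ κ * r ^ 4 / 2000 * 1 → |y - κ * r ^ 4 * m| ≤ κ * r ^ 4 / 2000 →
      |x / (κ * r ^ 4) - m| ≤ 1 / 1000 := by
    intro x y m h1 h2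
    have e : x / (κ * r ^ 4) - m = (x - κ * r ^ 4 * m) / (κ * r ^ 4) := by field_simp
    rw [e, abs_div, abs_of_pos hs, div_le_iff₀ hs]
    have := abs_le.1 h1; have := abs_le.1 h2
    rw [abs_le]; constructor <;> linarith
  filter_upwards [h.Kbar.d.small (e' := 0) (by omega) hs', h.Kbar.dx.d.small (e' := 0) (by omega) hs',
    h.Kbar.dy.d.small (e' := 0) (by omega) hs', h.Kc, h.Kbar.r.reg] with i h1 h2 h3 h4 h5 z
  have q1 := h4.1 z
  have q2 := h4.2.1 z
  have q3 := h4.2.2 z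
  simp only [k0, dx_sub, dy_sub, dx_mul, dy_mul, dx_add, dy_add, dx_sq, dy_sq, dx_cst, dy_cst, dx_cx,
    dy_cx, dx_cy, dy_cy, dx_one, dy_one, Pi.sub_apply, Pi.mul_apply, Pi.add_apply, cst_apply,
    Pi.pow_apply, cx_apply, cy_apply, Pi.ofNat_apply, mul_one, mul_zero, zero_mul, add_zero,
    zero_add, sub_zero] at q1 q2 q3
  exact ⟨key _ _ _ (h1 z) q1, key _ _ _ (h2 z) q2, key _ _ _ (h3 z) q3⟩

/-- The source term. -/
noncomputable def Src (G : Surf) (W : Fn) : Fn := cst (-1 / 2) * (br G.X G.Y * CC G.X G.Y W)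

theorem PairData.hW (h : PairData π M κ a r b F F' n j0 ε ε') : Bt π 2 43 (b - 3)
    (fun i => 2 * pertF (π.t i) (n i) b (fun j => ε' i j - ε i j)) :=
  Bt.two.mul' (Bt.pertF b h.hn h.hε) (by omega)

theorem Crd.g {k : ℕ} {a : ℤ} {α β : ι → Fn} (c : Crd π k a α β) (ha : 0 ≤ a) :
    Bt π k a 0 (fun i => g11 (α i) (β i)) ∧ Bt π k a 0 (fun i => g12 (α i) (β i)) ∧
      Bt π k a 0 (fun i => g22 (α i) (β i)) := by
  have x1 := c.d1' ((Bt.cx (k := k + 1)).dx.mono le_rfl ha le_rfl)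
    ((Bt.cx (k := k + 1)).dy.mono le_rfl ha le_rfl)
  have y1 := c.d1' ((Bt.cy (k := k + 1)).dx.mono le_rfl ha le_rfl)
    ((Bt.cy (k := k + 1)).dy.mono le_rfl ha le_rfl)
  have x2 := c.d2' ((Bt.cx (k := k + 1)).dx.mono le_rfl ha le_rfl)
    ((Bt.cx (k := k + 1)).dy.mono le_rfl ha le_rfl)
  have y2 := c.d2' ((Bt.cy (k := k + 1)).dx.mono le_rfl ha le_rfl)
    ((Bt.cy (k := k + 1)).dy.mono le_rfl ha le_rfl)
  exact ⟨x1.sq.add y1.sq, (x1.mul x2).add (y1.mul y2), x2.sq.add y2.sq⟩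

theorem PairData.ana (h : PairData π M κ a r b F F' n j0 ε ε') :
    Ana π (fun i => d1 (mean (F i) (F' i)).X (mean (F i) (F' i)).Y (mean (F i) (F' i)).u)
      (fun i => (mean (F i) (F' i)).Y)
      (fun i => KK (mean (F i) (F' i)).X (mean (F i) (F' i)).Y (mean (F i) (F' i)).u)
      (fun i => (F' i).u - (F i).u)
      (fun i => Src (mean (F i) (F' i)) (2 * pertF (π.t i) (n i) b (fun j => ε' i j - ε i j)))
      (min (min (a * r / 2) (a * r / (2 + 3 * (a * r)))) (κ * r ^ 4 / 20)) b := by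
  have hκ := h.hκ
  have hr := h.hr
  have ha := h.ha
  have hs : 0 < κ * r ^ 4 := by positivity
  set c := min (min (a * r / 2) (a * r / (2 + 3 * (a * r)))) (κ * r ^ 4 / 20) with hc
  have c1 : c ≤ a * r / 2 := (min_le_left _ _).trans (min_le_left _ _)
  have c2 : c ≤ a * r / (2 + 3 * (a * r)) := (min_le_left _ _).trans (min_le_right _ _)
  have c3 : c ≤ κ * r ^ 4 / 20 := min_le_right _ _
  have fG := h.famG
  have crd := fG.crd (h.geoG.mono fun _ hi => hi.J)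
  have posD : ∀ D : ℝ, D = 1 / 10 ∨ D = 2 → ∀ᶠ i in π.l, ∀ z,
      c ≤ 2 * d1 (mean (F i) (F' i)).X (mean (F i) (F' i)).Y (mean (F i) (F' i)).u z *
        d1 (d1 (mean (F i) (F' i)).X (mean (F i) (F' i)).Y (mean (F i) (F' i)).u)
          (mean (F i) (F' i)).Y
          (KK (mean (F i) (F' i)).X (mean (F i) (F' i)).Y (mean (F i) (F' i)).u) z +
        9 / 10 * (mean (F i) (F' i)).Y z *
        d2 (d1 (mean (F i) (F' i)).X (mean (F i) (F' i)).Y (mean (F i) (F' i)).u)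
          (mean (F i) (F' i)).Y
          (KK (mean (F i) (F' i)).X (mean (F i) (F' i)).Y (mean (F i) (F' i)).u) z -
        D * KK (mean (F i) (F' i)).X (mean (F i) (F' i)).Y (mean (F i) (F' i)).u z := by
    intro D hD
    filter_upwards [h.geoG, h.Kmodel] with i hg hk z
    obtain ⟨μ, hμ, hWx⟩ := hg.Wx
    obtain ⟨k1, k2, k3⟩ := hk z
    have := pos_real ((norm_fst_le (z : P)).trans (norm_le_Om z))
      ((norm_snd_le (z : P)).trans (norm_le_Om z)) hμ (hWx z) (hg.Wy z) k2 k3 k1 hD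
    rw [d1_xy _ _ (KK _ _ _), d2_xy _ _ (KK _ _ _)]
    simp only [Pi.add_apply, Pi.mul_apply]
    have e := mul_le_mul_of_nonneg_left this hs.le
    refine c3.trans ((le_of_eq ?_).trans (e.trans (le_of_eq ?_)))
    · ring
    · field_simp; ring
  refine ⟨by positivity, (crd.d1' fG.bux fG.buy).mono (by omega) le_rfl le_rfl, ?_,
    h.Kbar.l, ?_, ?_, ?_, ?_, ?_, ?_, posD _ (Or.inl rfl), posD _ (Or.inr rfl), ?_, ?_, ?_, ?_, ?_,
    h.cells⟩
  · exact (Bt.taylor (k := 1) (fG.nrm.mono fun _ hi => hi.rY.le (by omega))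
      (fG.nrm.mono fun _ hi => hi.Y0) (fG.bYx.mono (by omega) le_rfl le_rfl)
      (fG.bYy.mono (by omega) le_rfl le_rfl))
  · have u1 := Bt.taylor (k := 0) (h.famF.nrm.mono fun _ hi => hi.ru.le (by omega))
      (h.famF.nrm.mono fun _ hi => hi.u0) (h.famF.bux.mono (by omega) le_rfl le_rfl)
      (h.famF.buy.mono (by omega) le_rfl le_rfl)
    have u2 := Bt.taylor (k := 0) (h.famF'.nrm.mono fun _ hi => hi.ru.le (by omega))
      (h.famF'.nrm.mono fun _ hi => hi.u0) (h.famF'.bux.mono (by omega) le_rfl le_rfl)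
      (h.famF'.buy.mono (by omega) le_rfl le_rfl)
    exact (u2.sub u1).mono (by omega) le_rfl le_rfl
  · filter_upwards [h.cls] with i hi
    have := hi.1.nrm.ru; have := hi.2.nrm.ru
    infer_instance
  · filter_upwards [h.geoG] with i hi z
    exact c1.trans (hi.H z)
  · filter_upwards [fG.nrm] with i hi
    rw [hi.d1o, hi.ux]
  · exact fG.nrm.mono fun _ hi => hi.Y0
  · filter_upwards [h.geoG] with i hi z
    have := hi.low z
    have n0 := norm_nonneg (z : P)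
    have q : 0 < 2 + 3 * (a * r) := by positivity
    refine (mul_le_mul_of_nonneg_right c2 n0).trans ?_
    rw [div_mul_eq_mul_div, div_le_iff₀ q]
    have := abs_nonneg (d1 (mean (F i) (F' i)).X (mean (F i) (F' i)).Y (mean (F i) (F' i)).u z)
    have := abs_nonneg ((mean (F i) (F' i)).Y z)
    have : 0 < a * r := by positivity
    nlinarith
  · filter_upwards [h.Kmodel] with i hk z hz
    have k1 := (abs_le.1 (hk z).1).1
    have q : (11 / 10 : ℝ) ^ 2 ≤ (z : P).1 ^ 2 + (z : P).2 ^ 2 := by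
      rw [Prod.norm_def, le_max_iff, Real.norm_eq_abs, Real.norm_eq_abs] at hz
      rcases hz with hz | hz
      · have : (11 / 10 : ℝ) ^ 2 ≤ |(z : P).1| ^ 2 := by gcongr
        rw [sq_abs] at this; nlinarith [sq_nonneg (z : P).2]
      · have : (11 / 10 : ℝ) ^ 2 ≤ |(z : P).2| ^ 2 := by gcongr
        rw [sq_abs] at this; nlinarith [sq_nonneg (z : P).1]
    have : 1 / 20 ≤ KK (mean (F i) (F' i)).X (mean (F i) (F' i)).Y (mean (F i) (F' i)).u z /
      (κ * r ^ 4) := by linarith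
    rw [le_div_iff₀ hs] at this
    linarith
  · filter_upwards [h.Kmodel] with i hk
    have k1 := (abs_le.1 (hk o).1).2
    simp only [o_val, Prod.fst_zero, Prod.snd_zero] at k1
    have : KK (mean (F i) (F' i)).X (mean (F i) (F' i)).Y (mean (F i) (F' i)).u o /
      (κ * r ^ 4) ≤ -(1 / 20) := by linarith
    rw [div_le_iff₀ hs] at this
    linarith
  · filter_upwards [h.cls, h.iso, h.geoG, fG.nrm] with i hi ⟨i1, i2⟩ hg hn
    have := hi.1.nrm.rX; have := hi.1.nrm.rY; have := hi.1.nrm.ru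
    have := hi.2.nrm.rX; have := hi.2.nrm.rY; have := hi.2.nrm.ru
    have := hn.rX; have := hn.rY; have := hn.ru
    have := nz_of_le (by norm_num) hg.J
    have := nz_of_le (by positivity) hg.H
    have hl : Lin (mean (F i) (F' i)).X (mean (F i) (F' i)).Y (mean (F i) (F' i)).u _ _ _ _ :=
      i1.lin i2
    have e : EF (κ * r ^ 4) (pertF (π.t i) (n i) b (ε' i)) -
        EF (κ * r ^ 4) (pertF (π.t i) (n i) b (ε i)) =
        2 * pertF (π.t i) (n i) b (fun j => ε' i j - ε i j) := by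
      rw [← pertF_sub, EF, EF]; ring
    rw [legendre, Src, ← e, hl.eq]
    funext z
    simp only [Pi.mul_apply, Pi.neg_apply, cst_apply, Pi.ofNat_apply]
    ring
  · have c43 := (crd.mono (k' := 2) (by omega) (show (0 : ℤ) ≤ 43 by omega))
    obtain ⟨g1, g2, g3⟩ := c43.g (by omega)
    have hW := h.hW
    have t1 := c43.d2 (c43.d2 (hW.mul g1) (by omega)) (by omega)
    have t2 := c43.d1 (c43.d2 (hW.mul g2) (by omega)) (by omega)
    have t3 := c43.d1 (c43.d1 (hW.mul g3) (by omega)) (by omega)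
    have hJ := fG.J.mono (k' := 0) (by omega) (show (0 : ℤ) ≤ 43 by omega) le_rfl
    obtain ⟨C, hC, hb⟩ := ((Bt.const (-1 / 2)).mul' (hJ.mul ((t1.sub (Bt.two.mul' t2 (by omega))).add
      t3)) (e'' := b - 89) (by omega))
    exact Bt.zero_of (C := C) (hb.mono fun _ hi => hi.1) (hb.mono fun _ hi => hi.2)
  · filter_upwards [h.hn, π.pos, π.small one_pos,
      π.tpow_le' (e := 38) (e' := 37) (by omega) 2 one_pos] with i hn hp h1 s1 z hz
    have : 2 * pertF (π.t i) (n i) b (fun j => ε' i j - ε i j) =ᶠ[𝓝 z] 0 := by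
      filter_upwards [ev_norm_gt hz] with y hy
      simp [pertF_zero hp h1 hn _ (show 2 * π.t i ^ (38 : ℤ) ≤ ‖(y : P)‖ by linarith)]
    simp [Src, CC_zero _ _ this]

instance {X Y f : Fn} [Reg 3 X] [Reg 3 Y] [Reg 2 f] [NZ (br X Y)] : Reg 0 (Xi X Y f) := by
  unfold Xi; infer_instance

theorem Xi_cmul (X Y f : Fn) (c : ℝ) [Reg 3 X] [Reg 3 Y] [Reg 2 f] [NZ (br X Y)] :
    Xi X Y (cst c * f) = cst c * Xi X Y f := by
  simp only [Xi, d1_mul, d2_mul, d1_cst, d2_cst, zero_mul, add_zero]; ring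

theorem Xi_sub_cst (X Y f : Fn) (c : ℝ) [Reg 3 X] [Reg 3 Y] [Reg 2 f] [NZ (br X Y)] :
    Xi X Y (f - cst c) = Xi X Y f := by
  simp only [Xi, d1_sub, d2_sub, d1_cst, d2_cst, sub_zero]

theorem Xi_Phi (X Y p : Fn) {t : ℝ} (ht : 0 < t) (l s : ℝ) [Reg 3 X] [Reg 3 Y] [Reg 2 p]
    [NZ (br X Y)] (z : Om) :
    Xi X Y (Phi t l s p Y) z =
      deriv (deriv prof) ((t ^ (42 : ℤ))⁻¹ * ((p + cst l * Y) z - s)) *
        ((dx (p + cst l * Y) z ^ 2 + dy (p + cst l * Y) z ^ 2) * (br X Y z)⁻¹ ^ 2) +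
      t ^ (42 : ℤ) * (deriv prof ((t ^ (42 : ℤ))⁻¹ * ((p + cst l * Y) z - s)) *
        Xi X Y (p + cst l * Y) z) := by
  have e : t ^ (84 : ℤ) = t ^ (42 : ℤ) * t ^ (42 : ℤ) := by rw [← zpow_add₀ ht.ne']; norm_num
  have h42 := (zpow_pos ht 42).ne'
  have r : Reg 2 (p + cst l * Y) := inferInstance
  rw [Phi, e]
  generalize p + cst l * Y = ξ at *
  generalize t ^ (42 : ℤ) = s0 at *
  rw [Xi_cmul, Xi_cmp, Xi_cmul, Xi_sub_cst]
  simp only [dx_mul, dy_mul, dx_sub, dy_sub, dx_cst, dy_cst, zero_mul, add_zero, sub_zero,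
    Pi.add_apply, Pi.mul_apply, Pi.sub_apply, Pi.pow_apply, Pi.inv_apply, cst_apply, cmp_apply]
  field_simp

/-- Separation of the bumps in a function whose derivative along the diagonal is large. -/
theorem separation {ξ : ι → Fn} (hξ : Bt π 2 0 0 ξ) {lam : ℝ} (hlam : 0 < lam)
    (h0 : ∀ᶠ i in π.l, lam ≤ |dx (ξ i) o + dy (ξ i) o|) {n : ι → ℕ}
    (hn : ∀ᶠ i in π.l, (n i : ℝ) ≤ π.t i ^ (-3 : ℤ)) :
    ∀ᶠ i in π.l, ∀ j j' : ℕ, j < n i → j' < n i → ∀ z : Om, bmp (π.t i) j z ≠ 0 →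
      (j = j' → |(π.t i ^ (42 : ℤ))⁻¹ * (ξ i z - ext (ξ i) (ctr (π.t i) j'))| < 1) ∧
      (j ≠ j' → 2 < |(π.t i ^ (42 : ℤ))⁻¹ * (ξ i z - ext (ξ i) (ctr (π.t i) j'))|) := by
  obtain ⟨C1, hC1, h1⟩ := hξ.lip0
  obtain ⟨C2, hC2, h2⟩ := hξ.dx.lip0
  obtain ⟨C3, hC3, h3⟩ := hξ.dy.lip0
  obtain ⟨C4, hC4, h4⟩ := hξ.dx.bound0
  obtain ⟨C5, hC5, h5⟩ := hξ.dy.bound0
  filter_upwards [h0, hn, h1, h2, h3, h4, h5, hξ.reg, π.pos, π.small one_pos,
    π.tpow_le (e := 38) (by omega) 1 one_pos,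
    π.tpow_le' (e := 38) (e' := 37) (by omega) 2 one_pos,
    π.tpow_le' (e := 43) (e' := 42) (by omega) C1 one_half_pos,
    π.tpow_le' (e := 43) (e' := 41) (by omega) (C4 + C5) (show 0 < lam / 4 by positivity),
    π.tpow_le (e := 37) (by omega) (4 * (C2 + C3)) (show 0 < lam / 4 by positivity),
    π.tpow_le' (e := 42) (e' := 41) (by omega) 3 (half_pos hlam)]
    with i h0 hn h1 h2 h3 h4 h5 hr hp hp1 s0 s1 s2 s3 s4 s5 j j' hj hj' z hz
  obtain ⟨z1, z2⟩ := norm_le_of_bmp hp hp1 hj hn hz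
  have c1 := norm_ctr hp hj' hn
  have t37 := zpow_pos hp 37
  have t38 := zpow_pos hp 38
  have t41 := zpow_pos hp 41
  have t42 := zpow_pos hp 42
  have t43 := zpow_pos hp 43
  have hm : ctr (π.t i) j' ∈ Om := by rw [mem_Om]; linarith
  rw [ext_of_mem _ hm, abs_mul, abs_of_pos (inv_pos.2 t42)]
  set y : Om := ⟨ctr (π.t i) j', hm⟩ with hy
  have hyv : (y : P) = ctr (π.t i) j' := rfl
  constructor
  · rintro rfl
    rw [inv_mul_lt_iff₀ t42]
    have := h1 z y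
    rw [hyv] at this
    have : C1 * ‖(z : P) - ctr (π.t i) j‖ ≤ C1 * π.t i ^ (43 : ℤ) := by gcongr
    linarith
  · intro hne
    rw [lt_inv_mul_iff₀ t42]
    set α := dx (ξ i) o
    set γ := dy (ξ i) o
    have hg := lip_ball (f := ξ i - cst α * cx - cst γ * cy) inferInstance
      (s := (C2 + C3) * π.t i ^ (37 : ℤ)) (ρ := π.t i ^ (37 : ℤ))
      (fun w hw => by
        have := h2 w o
        simp only [dx_sub, dx_mul, dx_cst, dx_cx, dx_cy, zero_mul, add_zero, mul_one, mul_zero,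
          sub_zero, Pi.sub_apply, cst_apply, o_val, Pi.zero_apply] at this ⊢
        exact this.trans (mul_le_mul (show C2 ≤ C2 + C3 by linarith) hw (norm_nonneg _)
          (by positivity)))
      (fun w hw => by
        have := h3 w o
        simp only [dy_sub, dy_mul, dy_cst, dy_cx, dy_cy, zero_mul, add_zero, mul_one, mul_zero,
          sub_zero, Pi.sub_apply, cst_apply, o_val, Pi.zero_apply] at this ⊢
        exact this.trans (mul_le_mul (show C3 ≤ C2 + C3 by linarith) hw (norm_nonneg _)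
          (by positivity)))
      z y (by linarith) (by rw [hyv]; linarith)
    set v : P := (z : P) - ctr (π.t i) j with hv
    set D : ℝ := (j : ℝ) - j' with hD
    have D1 : 1 ≤ |D| := by
      have : (1 : ℤ) ≤ |(j : ℤ) - j'| := Int.one_le_abs (by omega)
      rw [hD]; exact_mod_cast this
    have e1 : (z : P).1 - (y : P).1 = D * π.t i ^ (41 : ℤ) + v.1 := by
      simp only [hyv, hv, ctr, Prod.fst_sub, hD]; ring
    have e2 : (z : P).2 - (y : P).2 = D * π.t i ^ (41 : ℤ) + v.2 := by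
      simp only [hyv, hv, ctr, Prod.snd_sub, hD]; ring
    have v1 : |v.1| ≤ π.t i ^ (43 : ℤ) := (norm_fst_le v).trans z1.le
    have v2 : |v.2| ≤ π.t i ^ (43 : ℤ) := (norm_snd_le v).trans z1.le
    have t4 := zpow_anti hp hp1 (show (41 : ℤ) ≤ 43 by norm_num)
    have Dt : π.t i ^ (41 : ℤ) ≤ |D| * π.t i ^ (41 : ℤ) := le_mul_of_one_le_left t41.le D1
    have aD : |D * π.t i ^ (41 : ℤ)| = |D| * π.t i ^ (41 : ℤ) := by rw [abs_mul, abs_of_pos t41]
    have nzy : ‖(z : P) - y‖ ≤ 2 * (|D| * π.t i ^ (41 : ℤ)) := by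
      rw [Prod.norm_def, max_le_iff, Prod.fst_sub, Prod.snd_sub, e1, e2]
      constructor
      · exact (abs_add_le _ _).trans (by linarith)
      · exact (abs_add_le _ _).trans (by linarith)
    have err : |(ξ i - cst α * cx - cst γ * cy) z - (ξ i - cst α * cx - cst γ * cy) y| ≤
        lam / 4 * (|D| * π.t i ^ (41 : ℤ)) := by
      refine hg.trans ?_
      calc _ ≤ 2 * ((C2 + C3) * π.t i ^ (37 : ℤ)) * (2 * (|D| * π.t i ^ (41 : ℤ))) := by gcongr
        _ = 4 * (C2 + C3) * π.t i ^ (37 : ℤ) * (|D| * π.t i ^ (41 : ℤ)) := by ring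
        _ ≤ _ := by gcongr
    have lin : |α * v.1 + γ * v.2| ≤ lam / 4 * (|D| * π.t i ^ (41 : ℤ)) := by
      calc _ ≤ |α| * |v.1| + |γ| * |v.2| := by
            rw [← abs_mul, ← abs_mul]; exact abs_add_le _ _
        _ ≤ C4 * π.t i ^ (43 : ℤ) + C5 * π.t i ^ (43 : ℤ) := by
            gcongr
            · exact h4 o
            · exact h5 o
        _ ≤ lam / 4 * π.t i ^ (41 : ℤ) := by linarith
        _ ≤ _ := by gcongr
    have main : lam * (|D| * π.t i ^ (41 : ℤ)) ≤ |(α + γ) * (D * π.t i ^ (41 : ℤ))| := by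
      rw [abs_mul, aD]; gcongr
    have e3 : (α + γ) * (D * π.t i ^ (41 : ℤ)) = (ξ i z - ξ i y) - (α * v.1 + γ * v.2) -
        ((ξ i - cst α * cx - cst γ * cy) z - (ξ i - cst α * cx - cst γ * cy) y) := by
      simp only [Pi.sub_apply, Pi.mul_apply, cst_apply, cx_apply, cy_apply]
      linear_combination (-α) * e1 - γ * e2
    rw [e3] at main
    have q1 := abs_sub (ξ i z - ξ i y - (α * v.1 + γ * v.2))
      ((ξ i - cst α * cx - cst γ * cy) z - (ξ i - cst α * cx - cst γ * cy) y)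
    have q2 := abs_sub (ξ i z - ξ i y) (α * v.1 + γ * v.2)
    have q3 := mul_le_mul_of_nonneg_left Dt (half_pos hlam).le
    linarith

theorem PairData.false (h : PairData π M κ a r b F F' n j0 ε ε') : ∀ᶠ _i in π.l, False := by
  have hA := h.ana
  set c := min (min (a * r / 2) (a * r / (2 + 3 * (a * r)))) (κ * r ^ 4 / 20) with hc
  set G : ι → Surf := fun i => mean (F i) (F' i) with hG
  set p : ι → Fn := fun i => d1 (G i).X (G i).Y (G i).u with hp
  set K : ι → Fn := fun i => KK (G i).X (G i).Y (G i).u with hK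
  have hc0 := hA.cpos
  have fG : Fam π 0 G := h.famG
  have crd := fG.crd (h.geoG.mono fun _ hi => hi.J)
  set l : ι → ℝ := fun i =>
    if 0 ≤ dx (p i) o + dy (p i) o then √(-K i o) else -√(-K i o) with hl
  have hl2 : ∀ᶠ i in π.l, l i ^ 2 = -K i o := by
    filter_upwards [hA.hyp] with i hi
    have : 0 ≤ -K i o := by linarith
    simp only [hl]
    split_ifs
    · exact Real.sq_sqrt this
    · rw [neg_sq]; exact Real.sq_sqrt this
  obtain ⟨C0, hC0, h0⟩ := hA.hK.bound0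
  have hlO : Ot π 0 l := by
    refine ⟨C0 + 1, by positivity, ?_⟩
    filter_upwards [hl2, h0] with i hi h0
    have := (abs_le.1 (h0 o)).1
    rw [zpow_zero, mul_one]
    refine abs_le_of_sq_le_sq ?_ (by positivity)
    nlinarith
  set ξ : ι → Fn := fun i => p i + cst (l i) * (G i).Y with hξ
  have bξ : Bt π 2 0 0 ξ := hA.hp.add ((Bt.cst hlO).mul hA.hY)
  have sep := separation bξ (lam := √c) (Real.sqrt_pos.2 hc0) (by
    filter_upwards [hA.hyp, fG.nrm, hA.hp.reg] with i hi hn _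
    have := hn.rY
    have q : √c ≤ √(-K i o) := Real.sqrt_le_sqrt (by linarith)
    simp only [hξ, dx_add, dy_add, dx_mul, dy_mul, dx_cst, dy_cst, Pi.add_apply, Pi.mul_apply,
      cst_apply, hn.Yx, hn.Yy, Pi.zero_apply, hl]
    split_ifs with hh
    · exact le_abs.2 (Or.inl (by linarith))
    · exact le_abs.2 (Or.inr (by linarith [not_le.1 hh]))) h.hn
  have T := hA.test hl2 (fun i => ext (ξ i) (ctr (π.t i) (j0 i)))
  obtain ⟨g1, g2, g3⟩ := (crd.mono (k' := 0) (by omega) le_rfl).g le_rfl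
  have bXi : Bt π 0 0 0 (fun i => Xi (G i).X (G i).Y (ξ i)) :=
    (((crd.d2 (crd.d2 bξ (by omega)) (by omega)).mul g1).sub
      ((Bt.two.mul (crd.d2 (crd.d1 bξ (by omega)) (by omega))).mul g2)).add
      ((crd.d1 (crd.d1 bξ (by omega)) (by omega)).mul g3)
  obtain ⟨C1, hC1, h1⟩ := (bXi.mul (fG.J.mono (by omega) le_rfl le_rfl)).bound0
  obtain ⟨C2, hC2⟩ := prof_allBdd 1
  obtain ⟨C3, hC3, h3⟩ := fG.J.bound0
  obtain ⟨C4, hC4, h4⟩ := fG.bYx.bound0
  obtain ⟨C5, hC5, h5⟩ := fG.bYy.bound0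
  set c2 := c ^ 2 / (2 * (C4 + C5 + 1) ^ 2 * (C3 + 1)) with hc2
  have c20 : 0 < c2 := by positivity
  filter_upwards [T.small (e' := b + 86) (by omega) (show 0 < c2 / 4 by positivity), sep, h1, h3, h4,
    h5, h.hn, h.hj, h.geoG, fG.nrm, hA.H, π.pos, π.small one_pos,
    π.tpow_le (e := 42) (by omega) (C2 * C1) (half_pos c20),
    π.tpow_le' (e := 38) (e' := 35) (by omega) 2 one_pos,
    π.tpow_le (e := 35) (by omega) 2 one_pos,
    π.tpow_le (e := 38) (by omega) 2 one_pos]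
    with i T sep h1 h3 h4 h5 hn ⟨hj, hj1⟩ hg hN hH ht ht1 s1 s2 s3 s4
  have := hN.rX; have := hN.rY; have := hN.ru
  have hz : NZ (br (G i).X (G i).Y) := nz_of_le (by norm_num) hg.J
  have rp : Reg 2 (p i) := by simp only [hp]; infer_instance
  set t := π.t i
  set Φ := Phi t (l i) (ext (ξ i) (ctr t (j0 i))) (p i) (G i).Y with hΦ
  set e : ℕ → ℝ := fun j => ε' i j - ε i j with he
  set W := 2 * pertF t (n i) b e with hW
  have rΦ : Reg 2 Φ := by rw [hΦ]; infer_instance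
  have rW : Reg 2 W := by rw [hW]; infer_instance
  have hv : Van (chi t * Φ) := Van.mul_right (fun z hz => cut_zero (zpow_pos ht 35) (by linarith)) _
  have tb := zpow_pos ht b
  have t43 := zpow_pos ht 43
  -- integrate by parts
  have e1 : I (chi t * Φ * Src (G i) W) = -1 / 2 * I (W * Xi (G i).X (G i).Y (chi t * Φ) *
      br (G i).X (G i).Y) := by
    have a1 := adjoint (G i).X (G i).Y W (chi t * Φ)
    have a2 : chi t * Φ * Src (G i) W = cst (-1 / 2) * (chi t * Φ * CC (G i).X (G i).Y W *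
        br (G i).X (G i).Y) := by rw [Src]; ring
    have hd : ∀ z : Om, 27 / 20 ≤ ‖(z : P)‖ → d1 (G i).X (G i).Y (chi t * Φ) z = 0 ∧
        d2 (G i).X (G i).Y (chi t * Φ) z = 0 := fun z hz => by
      refine d_zero_of_ev (a := 0) ?_
      filter_upwards [ev_norm_gt (show 1 < ‖(z : P)‖ by linarith)] with y hy
      have : chi t y = 0 := cut_zero (zpow_pos ht 35) (by linarith)
      simp [this]
    rw [a2, I_cmul, a1, add_mul, add_mul, I_add, I_add, I_d1, I_d2, add_zero, add_zero]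
    · intro z hz
      have := hv z hz
      simp only [Pi.add_apply, Pi.mul_apply, Pi.sub_apply, (hd z hz).1, (hd z hz).2] at this ⊢
      rw [this]; ring
    · intro z hz
      have := hv z hz
      simp only [Pi.mul_apply, Pi.sub_apply, (hd z hz).1] at this ⊢
      linear_combination (d1 (G i).X (G i).Y (W * g22 (G i).X (G i).Y) z -
        (2 : Fn) z * d2 (G i).X (G i).Y (W * g12 (G i).X (G i).Y) z) * this
  -- only one bump contributes
  have e2 : W * Xi (G i).X (G i).Y (chi t * Φ) * br (G i).X (G i).Y =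
      cst (2 * t ^ (b : ℤ) * e (j0 i)) * (bmp t (j0 i) * (Xi (G i).X (G i).Y Φ * br (G i).X (G i).Y)) := by
    funext z
    have loc : ∀ j, j < n i → bmp t j z * Xi (G i).X (G i).Y (chi t * Φ) z =
        bmp t j z * Xi (G i).X (G i).Y Φ z := by
      intro j hj
      by_cases hb : bmp t j z = 0
      · simp [hb]
      · have := (norm_le_of_bmp ht ht1 hj hn hb).2
        rw [Xi_congr (f := chi t * Φ) (g := Φ)]
        filter_upwards [ev_norm_lt (show ‖(z : P)‖ < t ^ (35 : ℤ) by linarith)] with y hy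
        have : chi t y = 1 := cut_one one_pos one_lt_two (zpow_pos ht _) (by linarith)
        simp [this]
    have far : ∀ j, j < n i → j ≠ j0 i → bmp t j z * Xi (G i).X (G i).Y Φ z = 0 := by
      intro j hj' hne
      by_cases hb : bmp t j z = 0
      · simp [hb]
      · obtain ⟨q1, q2⟩ := prof_far ((sep j (j0 i) hj' hj z hb).2 hne)
        rw [hΦ, Xi_Phi _ _ _ ht, q1, q2]; simp
    have sum : ∑ j ∈ Finset.range (n i), e j * bmp t j z * Xi (G i).X (G i).Y (chi t * Φ) z =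
        e (j0 i) * (bmp t (j0 i) z * Xi (G i).X (G i).Y Φ z) := by
      rw [Finset.sum_eq_single (j0 i), mul_assoc, loc _ hj]
      · intro j hj' hne
        rw [mul_assoc, loc _ (Finset.mem_range.1 hj'), far _ (Finset.mem_range.1 hj') hne, mul_zero]
      · intro hj'
        exact absurd (Finset.mem_range.2 hj) hj'
    rw [← Finset.sum_mul] at sum
    simp only [hW, Pi.mul_apply, pertF_apply, cst_apply, Pi.ofNat_apply]
    linear_combination (2 * t ^ (b : ℤ) * br (G i).X (G i).Y z) * sum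
  -- the main term
  have low : ∀ z : Om, bmp t (j0 i) z ≠ 0 →
      c2 / 2 ≤ Xi (G i).X (G i).Y Φ z * br (G i).X (G i).Y z := by
    intro z hb
    rw [hΦ, Xi_Phi _ _ _ ht, prof_dd ((sep _ _ hj hj z hb).1 rfl), one_mul]
    have J1 := hg.J z
    have J2 := (le_abs_self _).trans (h3 z)
    have J0 : 0 < br (G i).X (G i).Y z := lt_of_lt_of_le (by norm_num) J1
    have q1 : br (p i) (G i).Y z = dx (ξ i) z * dy (G i).Y z + dy (ξ i) z * (-dx (G i).Y z) := by
      simp only [hξ, br, dx_add, dy_add, dx_mul, dy_mul, dx_cst, dy_cst, Pi.add_apply,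
        Pi.mul_apply, Pi.sub_apply, cst_apply, Pi.zero_apply]
      ring
    have q2 := sq_comb (x := dx (ξ i) z) (y := dy (ξ i) z) (C := C4 + C5 + 1)
      (a := dy (G i).Y z) (b := -dx (G i).Y z) ((h5 z).trans (by linarith))
      (by rw [abs_neg]; exact (h4 z).trans (by linarith))
    rw [← q1] at q2
    have q3 : c ^ 2 ≤ br (p i) (G i).Y z ^ 2 := by gcongr; exact hH z
    have q4 : c2 ≤ (dx (ξ i) z ^ 2 + dy (ξ i) z ^ 2) * (br (G i).X (G i).Y z)⁻¹ := by
      rw [← div_eq_mul_inv, le_div_iff₀ J0, hc2, div_mul_eq_mul_div, div_le_iff₀ (by positivity)]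
      calc c ^ 2 * br (G i).X (G i).Y z ≤
            (2 * (C4 + C5 + 1) ^ 2 * (dx (ξ i) z ^ 2 + dy (ξ i) z ^ 2)) * (C3 + 1) :=
            mul_le_mul (q3.trans q2) (by linarith) J0.le (by positivity)
        _ = _ := by ring
    have q5 : |deriv prof ((t ^ (42 : ℤ))⁻¹ * (ξ i z - ext (ξ i) (ctr t (j0 i)))) *
        (Xi (G i).X (G i).Y (ξ i) z * br (G i).X (G i).Y z)| ≤ C2 * C1 := by
      rw [abs_mul]
      exact mul_le_mul (hC2 _) (h1 z) (abs_nonneg _) ((abs_nonneg _).trans (hC2 0))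
    have q6 := mul_le_mul_of_nonneg_left (abs_le.1 q5).1 (zpow_pos ht 42).le
    have q7 : (dx (ξ i) z ^ 2 + dy (ξ i) z ^ 2) * (br (G i).X (G i).Y z)⁻¹ ^ 2 *
        br (G i).X (G i).Y z = (dx (ξ i) z ^ 2 + dy (ξ i) z ^ 2) * (br (G i).X (G i).Y z)⁻¹ := by
      field_simp
    show c2 / 2 ≤ ((dx (ξ i) z ^ 2 + dy (ξ i) z ^ 2) * (br (G i).X (G i).Y z)⁻¹ ^ 2 +
      t ^ (42 : ℤ) * (deriv prof ((t ^ (42 : ℤ))⁻¹ * (ξ i z - ext (ξ i) (ctr t (j0 i)))) *
        Xi (G i).X (G i).Y (ξ i) z)) * br (G i).X (G i).Y z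
    rw [add_mul, q7]
    linarith
  have i1 := I_ge_ball (f := bmp t (j0 i) * (Xi (G i).X (G i).Y Φ * br (G i).X (G i).Y))
    (ctr t (j0 i)) (ρ := t ^ (43 : ℤ) / 2) (s := c2 / 2) (by positivity)
    (by
      have := norm_ctr ht hj hn
      have := zpow_anti ht ht1 (show (38 : ℤ) ≤ 43 by norm_num)
      linarith)
    (fun z => by
      by_cases hb : bmp t (j0 i) z = 0
      · simp [hb]
      · exact mul_nonneg (bmp_nonneg _ _ _) ((half_pos c20).le.trans (low z hb)))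
    (fun z hz => by
      have q := bmp_one ht hz
      have := low z (by rw [q]; exact one_ne_zero)
      simpa [q] using this)
  have T' : |I (chi t * Φ * Src (G i) W)| ≤ c2 / 4 * t ^ ((b : ℤ) + 86) := T
  rw [e1, e2, I_cmul, abs_mul, abs_mul, abs_mul, hj1, abs_of_pos (by positivity : 0 < 2 * t ^ (b : ℤ)),
    abs_of_nonneg (le_trans (by positivity) i1)] at T'
  have e3 : t ^ ((b : ℤ) + 86) = t ^ (b : ℤ) * (t ^ (43 : ℤ)) ^ 2 := by
    rw [sq, ← zpow_add₀ ht.ne', ← zpow_add₀ ht.ne']; norm_num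
  rw [e3, show |(-1 / 2 : ℝ)| = 1 / 2 by norm_num] at T'
  have q := mul_le_mul_of_nonneg_left i1 tb.le
  have : 0 < c2 * (t ^ (b : ℤ) * (t ^ (43 : ℤ)) ^ 2) := by positivity
  nlinarith

end Vale.Agent.P229
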