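import Vale.Agent.P229.Defs

namespace Vale.Agent.P229

lemma pigeon_count (K m : ℕ) : ∀ᶠ T : ℕ in Filter.atTop, K * T ^ m < 2 ^ T := by
  have h := (tendsto_pow_const_div_const_pow_of_one_lt m (r := 2) one_lt_two).const_mul (K : ℝ)
  rw [mul_zero] at h
  filter_upwards [h.eventually (gt_mem_nhds zero_lt_one)] with T hT
  rw [← mul_div_assoc, div_lt_one (by positivity)] at hT
  exact_mod_cast hT

/-- TASK D: pigeonhole.  `2^(T^3)` vectors with at most `A T^2` coordinates, each bounded by `C`: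
two of them agree up to `T^(-e)` in every coordinate. -/
theorem pigeon (A e : ℕ) (C : ℝ) :
    ∀ᶠ T : ℕ in Filter.atTop, ∀ (I : Type) [Fintype I], Fintype.card I ≤ A * T ^ 2 →
      ∀ f : (Fin (T ^ 3) → Bool) → I → ℝ, (∀ τ i, |f τ i| ≤ C) →
        ∃ τ τ', τ ≠ τ' ∧ ∀ i, |f τ i - f τ' i| ≤ (1 / (T : ℝ)) ^ e := by
  classical
  set c : ℕ := ⌈C⌉₊ with hc
  filter_upwards [pigeon_count ((2 * c + 1) ^ A) (e * A), Filter.eventually_ge_atTop 1]
    with T hT hT1 I _ hI f hf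
  have hTpos : (0 : ℝ) < (T : ℝ) ^ e := by positivity
  have hTe : 1 ≤ T ^ e := Nat.one_le_pow _ _ hT1
  have hb : ∀ τ i, 0 ≤ f τ i + c ∧ f τ i + c ≤ 2 * c := by
    intro τ i
    have h1 := abs_le.mp ((hf τ i).trans (Nat.le_ceil C))
    constructor <;> linarith [h1.1, h1.2]
  have hlt : ∀ τ i, ⌊(f τ i + c) * (T : ℝ) ^ e⌋₊ < (2 * c + 1) * T ^ e := by
    intro τ i
    rw [Nat.floor_lt (mul_nonneg (hb τ i).1 hTpos.le)]
    push_cast
    exact mul_lt_mul_of_pos_right (by linarith [(hb τ i).2]) hTpos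
  let g : (Fin (T ^ 3) → Bool) → I → Fin ((2 * c + 1) * T ^ e) := fun τ i => ⟨_, hlt τ i⟩
  have hcard : Fintype.card (I → Fin ((2 * c + 1) * T ^ e)) < Fintype.card (Fin (T ^ 3) → Bool) := by
    simp only [Fintype.card_fun, Fintype.card_fin, Fintype.card_bool]
    calc ((2 * c + 1) * T ^ e) ^ Fintype.card I ≤ ((2 * c + 1) * T ^ e) ^ (A * T ^ 2) :=
          Nat.pow_le_pow_right (by positivity) hI
      _ = ((2 * c + 1) ^ A * T ^ (e * A)) ^ (T ^ 2) := by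
          rw [pow_mul, mul_pow, pow_mul T e A]
      _ < (2 ^ T) ^ (T ^ 2) := Nat.pow_lt_pow_left hT (by positivity)
      _ = 2 ^ (T ^ 3) := by rw [← pow_mul]; congr 1; ring
  obtain ⟨τ, τ', hne, heq⟩ := Fintype.exists_ne_map_eq_of_card_lt g hcard
  refine ⟨τ, τ', hne, fun i => ?_⟩
  have h1 : ⌊(f τ i + c) * (T : ℝ) ^ e⌋₊ = ⌊(f τ' i + c) * (T : ℝ) ^ e⌋₊ :=
    congrArg Fin.val (congrFun heq i)
  have a1 := Nat.floor_le (mul_nonneg (hb τ i).1 hTpos.le)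
  have a2 := Nat.lt_floor_add_one ((f τ i + c) * (T : ℝ) ^ e)
  have b1 := Nat.floor_le (mul_nonneg (hb τ' i).1 hTpos.le)
  have b2 := Nat.lt_floor_add_one ((f τ' i + c) * (T : ℝ) ^ e)
  rw [h1] at a1 a2
  rw [one_div, inv_pow, ← one_div, le_div_iff₀ hTpos, ← abs_of_pos hTpos, ← abs_mul, abs_le]
  constructor <;> nlinarith

end Vale.Agent.P229
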