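import Vale.Agent.P229.Normal
import Vale.Agent.P229.Pair
import Vale.Agent.P229.TaskPigeon

/-! The rescaled core lemma. -/

namespace Vale.Agent.P229

open scoped ContDiff Topology
open Set Filter MeasureTheory

set_option synthInstance.maxSize 2000

/-- The family of all pairs `(r, x)` with a property, as `r` tends to zero. -/
noncomputable def Par.ofProp (α : Type) (Q : ℝ → α → Prop) : Par {x : ℝ × α // Q x.1 x.2} :=
  ⟨comap (fun x => x.1.1) (𝓝[>] 0), fun x => x.1.1, tendsto_comap⟩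

theorem Par.extract {α : Type} {Q R : ℝ → α → Prop}
    (h : ∀ᶠ i in (Par.ofProp α Q).l, R i.1.1 i.1.2) :
    ∃ r₀ : ℝ, 0 < r₀ ∧ ∀ r : ℝ, 0 < r → r ≤ r₀ → ∀ x, Q r x → R r x := by
  have h1 := eventually_comap.1 h
  obtain ⟨u, hu, hsub⟩ := mem_nhdsGT_iff_exists_Ioc_subset.1 h1
  exact ⟨u, hu, fun r h0 h1 x hx => hsub ⟨h0, h1⟩ ⟨(r, x), hx⟩ rfl⟩

theorem level2 (M κ : ℝ) (hκ : 0 < κ) : ∃ a : ℝ, 0 < a ∧ ∃ r₀ : ℝ, 0 < r₀ ∧ ∀ r : ℝ, 0 < r → r ≤ r₀ →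
    (∀ (F : Surf) (β : Fn), Cls M r F → Reg 4 β → B 4 1 (r ^ 5) β →
      Iso F.X F.Y F.u (EF (κ * r ^ 4) β) →
      B 1 1 (κ * r ^ 4 / 2000) (KK F.X F.Y F.u - cst (κ * r ^ 4) * k0) ∧
      a * r ≤ max |dx (dx F.u) o| |dy (dy F.u) o| ∧
      |dy (dx F.u) o| ≤ 21 / 20 * max |dx (dx F.u) o| |dy (dy F.u) o|) ∧
    (∀ G : Surf, Cls M r G → Good a r G → Geo a r G) := by
  set π1 := Par.ofProp (Surf × Fn) (fun r x => Cls M r x.1 ∧ Reg 4 x.2 ∧ B 4 1 (r ^ 5) x.2 ∧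
    Iso x.1.X x.1.Y x.1.u (EF (κ * r ^ 4) x.2)) with hπ1
  have f1 : Fam π1 (-1) (fun i => i.1.2.1) := Fam.of_cls (M := M) (r := π1.t) (by
    filter_upwards [π1.pos] with i hi
    exact ⟨i.2.1, hi.le, by simp⟩)
  have hβ : Bt π1 4 0 5 (fun i => i.1.2.2) := Bt.of_B (M := 1) (ν := fun _ => 1)
    (s := fun i => π1.t i ^ 5) (Eventually.of_forall fun i =>
      ⟨i.2.2.1, i.2.2.2.1, zero_le_one, by simp, by rw [one_mul]; exact (zpow_ofNat _ 5).ge⟩)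
  have hR := f1.Kclose (κ := κ) hβ (Eventually.of_forall fun i => by
    rw [zpow_ofNat]; exact i.2.2.2.2)
  obtain ⟨a, ha, hf⟩ := f1.forcing hκ hR
  obtain ⟨C, hC, hB⟩ := hR
  obtain ⟨r1, hr1, H1⟩ := Par.extract (R := fun r (x : Surf × Fn) =>
      B 1 1 (κ * r ^ 4 / 2000) (KK x.1.X x.1.Y x.1.u - cst (κ * r ^ 4) * k0) ∧
      a * r ≤ max |dx (dx x.1.u) o| |dy (dy x.1.u) o| ∧
      |dy (dx x.1.u) o| ≤ 21 / 20 * max |dx (dx x.1.u) o| |dy (dy x.1.u) o|) (by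
    filter_upwards [hf, hB, π1.tpow_le' (e := 5) (e' := 4) (by omega) C
      (show 0 < κ / 2000 by positivity)] with i h1 h2 h3
    refine ⟨?_, h1⟩
    have := (h2.2.le one_le_two).mono (ν' := 1) (s' := κ * π1.t i ^ 4 / 2000) (by simp) (by simp)
      (by rw [zpow_ofNat (π1.t i) 4] at h3; linarith)
    rw [zpow_ofNat] at this
    exact this)
  set π2 := Par.ofProp Surf (fun r G => Cls M r G ∧ Good a r G) with hπ2
  have f2 : Fam π2 (-1) (fun i => i.1.2) := Fam.of_cls (M := M) (r := π2.t) (by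
    filter_upwards [π2.pos] with i hi
    exact ⟨i.2.1, hi.le, by simp⟩)
  obtain ⟨r2, hr2, H2⟩ := Par.extract (R := fun r G => Geo a r G)
    (f2.geo ha (Eventually.of_forall fun i => i.2.2))
  refine ⟨a, ha, min r1 r2, lt_min hr1 hr2, fun r h0 h1 => ⟨fun F β q1 q2 q3 q4 => ?_,
    fun G q1 q2 => ?_⟩⟩
  · exact H1 r h0 (h1.trans (min_le_left _ _)) (F, β) ⟨q1, q2, q3, q4⟩
  · exact H2 r h0 (h1.trans (min_le_right _ _)) G ⟨q1, q2⟩

theorem B.rescale {k : ℕ} {ν s : ℝ} {f : Fn} (h : B k ν s f) (hν : 1 ≤ ν) :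
    B k 1 (s * ν ^ k) f := by
  induction k generalizing s f with
  | zero => intro z; simpa using h z
  | succ k ih =>
    have hs : 0 ≤ s := (abs_nonneg _).trans (h.1 o)
    have e : s * ν ^ (k + 1) * 1 = s * ν * ν ^ k := by ring
    refine ⟨fun z => (h.1 z).trans (le_mul_of_one_le_right hs (one_le_pow₀ hν)), ?_, ?_⟩
    · rw [e]; exact ih h.2.1
    · rw [e]; exact ih h.2.2

/-- The parameter `1/T` along a filter finer than `atTop`. -/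
noncomputable def Par.nat (l : Filter ℕ) (hl : l ≤ atTop) : Par ℕ :=
  ⟨l, fun T => 1 / (T : ℝ), by
    refine tendsto_nhdsWithin_iff.2 ⟨tendsto_one_div_atTop_nhds_zero_nat.mono_left hl, ?_⟩
    filter_upwards [hl (eventually_gt_atTop 0)] with T hT
    have : (0 : ℝ) < T := by exact_mod_cast hT
    exact one_div_pos.2 this⟩

theorem cube_le (T : ℕ) : ((T ^ 3 : ℕ) : ℝ) ≤ (1 / (T : ℝ)) ^ (-3 : ℤ) := by simp

theorem pert_small {r : ℝ} (hr : 0 < r) {N : ℕ} (hN : 4 ≤ N) : ∀ᶠ T : ℕ in atTop, ∀ ε : ℕ → ℝ,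
    (∀ j, |ε j| ≤ 2) → B 4 1 (r ^ 5) (pertF (1 / (T : ℝ)) (T ^ 3) (43 * N + 4) ε) := by
  set π0 := Par.nat atTop le_rfl
  set π1 := π0.prod {ε : ℕ → ℝ // ∀ j, |ε j| ≤ 2}
  obtain ⟨C, hC, h⟩ := Bt.pertF (π := π1) (k := 4) (n := fun x => x.1 ^ 3) (43 * N + 4)
    (ε := fun x => x.2.1) (Eventually.of_forall fun x => cube_le x.1)
    (Eventually.of_forall fun x => x.2.2)
  filter_upwards [eventually_comap.1 h, π0.pos, π0.small one_pos,
    π0.tpow_le (e := 1) le_rfl C (show 0 < r ^ 5 by positivity)] with T h1 hp h2 h3 ε hε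
  have h5 : (1 : ℝ) ≤ π0.t T ^ (-43 : ℤ) := by
    simpa using zpow_anti hp h2 (show (-43 : ℤ) ≤ 0 by norm_num)
  have h4 := (h1 (T, ⟨ε, hε⟩) rfl).2.rescale h5
  refine h4.mono zero_le_one le_rfl (le_trans ?_ h3)
  show C * π0.t T ^ _ * (π0.t T ^ _) ^ 4 ≤ _
  rw [mul_assoc, ← zpow_natCast, ← zpow_mul, ← zpow_add₀ hp.ne']
  exact mul_le_mul_of_nonneg_left (zpow_anti hp h2 (by push_cast; omega)) hC

/-- The coefficients attached to a choice of bumps. -/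
noncomputable def coef {n : ℕ} (τ : Fin n → Bool) (j : ℕ) : ℝ :=
  if h : j < n then (if τ ⟨j, h⟩ then 1 else 0) else 0

theorem coef_mem {n : ℕ} (τ : Fin n → Bool) (j : ℕ) : 0 ≤ coef τ j ∧ coef τ j ≤ 1 := by
  unfold coef
  split_ifs <;> norm_num

theorem bump1_eq : (bump1 : ℝ → ℝ) = bf (1 / 2) 1 := by
  unfold bf
  rw [dif_pos (by norm_num)]
  rfl

theorem pert_eq (N T : ℕ) (τ : Fin (T ^ 3) → Bool) (z : Om) :
    pert N T τ z = pertF (1 / (T : ℝ)) (T ^ 3) (43 * N + 4) (coef τ) z := by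
  rw [pertF_apply, pert, zpow_natCast, ← Fin.sum_univ_eq_sum_range
    (fun j => coef τ j * bmp (1 / (T : ℝ)) j z)]
  congr 1
  refine Finset.sum_congr rfl (fun i _ => ?_)
  simp only [coef, i.2, dif_pos, Fin.eta, bumpAt, bump2, bump1_eq, bmp, Pi.mul_apply, cmp_apply,
    cst_apply, Pi.sub_apply, cx_apply, cy_apply, zpow_ofNat, div_eq_inv_mul]

theorem exists_good {M κ a r : ℝ} {N T : ℕ} (hT : 2 ≤ T) (τ : Fin (T ^ 3) → Bool)
    (H : ∀ (F : Surf), Cls (6 * M) r F →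
      Iso F.X F.Y F.u (EF (κ * r ^ 4) (pertF (1 / (T : ℝ)) (T ^ 3) (43 * N + 4) (coef τ))) →
      a * r ≤ max |dx (dx F.u) o| |dy (dy F.u) o| ∧
      |dy (dx F.u) o| ≤ 21 / 20 * max |dx (dx F.u) o| |dy (dy F.u) o|)
    {f₁ f₂ f₃ : P → ℝ} (h1 : ContDiff ℝ 4 f₁) (h2 : ContDiff ℝ 4 f₂) (h3 : ContDiff ℝ 4 f₃)
    (hb : ∀ j : ℕ, 1 ≤ j → j ≤ 4 → ∀ z : P, ‖iteratedFDeriv ℝ j f₁ z‖ ≤ M * r ^ (j - 1) ∧
        ‖iteratedFDeriv ℝ j f₂ z‖ ≤ M * r ^ (j - 1) ∧ ‖iteratedFDeriv ℝ j f₃ z‖ ≤ M * r ^ (j - 1))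
    (hi : ∀ z ∈ Metric.ball (0 : P) (7 / 5),
        IsoAt f₁ f₂ f₃ (fun w => 1 + 2 * (κ * r ^ 4 * base w + pert N T τ w)) z) :
    ∃ G : Surf, Cls (6 * M) r G ∧ Good a r G ∧
      Iso G.X G.Y G.u (EF (κ * r ^ 4) (pertF (1 / (T : ℝ)) (T ^ 3) (43 * N + 4) (coef τ))) := by
  have r1 : Reg 4 (res f₁) := Reg.res h1
  have r2 : Reg 4 (res f₂) := Reg.res h2
  have r3 : Reg 4 (res f₃) := Reg.res h3
  have hE : ∀ z : Om, EF (κ * r ^ 4) (pertF (1 / (T : ℝ)) (T ^ 3) (43 * N + 4) (coef τ)) z =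
      1 + 2 * (κ * r ^ 4 * base z + pert N T τ z) := fun z => by
    simp only [EF, Pi.add_apply, Pi.mul_apply, cst_apply, baseF_apply, pert_eq, Pi.ofNat_apply]
  have hiso : Iso (res f₁) (res f₂) (res f₃)
      (EF (κ * r ^ 4) (pertF (1 / (T : ℝ)) (T ^ 3) (43 * N + 4) (coef τ))) := by
    simp only [Iso, dx_res, dy_res]
    exact ⟨funext fun z => by rw [hE]; exact (hi z z.2).1, funext fun z => (hi z z.2).2.1,
      funext fun z => by rw [hE]; exact (hi z z.2).2.2⟩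
  have hT' : (2 : ℝ) ≤ T := by exact_mod_cast hT
  have tp : 0 < 1 / (T : ℝ) := by positivity
  have t1 : 1 / (T : ℝ) ≤ 1 := by rw [div_le_one (by linarith)]; linarith
  have hE0 : EF (κ * r ^ 4) (pertF (1 / (T : ℝ)) (T ^ 3) (43 * N + 4) (coef τ)) o = 1 := by
    have : pertF (1 / (T : ℝ)) (T ^ 3) (43 * N + 4) (coef τ) o = 0 := by
      rw [pertF_apply, Finset.sum_eq_zero, mul_zero]
      intro j _
      rw [bmp_zero tp, mul_zero]
      have t41 := zpow_pos tp 41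
      have := zpow_anti tp t1 (show (41 : ℤ) ≤ 43 by norm_num)
      rw [o_val, zero_sub, norm_neg, ctr, Prod.norm_mk, max_self, Real.norm_eq_abs,
        abs_of_pos (by positivity)]
      have : (0 : ℝ) ≤ j := Nat.cast_nonneg j
      nlinarith
    simp only [EF, Pi.add_apply, Pi.mul_apply, this]
    simp [baseF_apply, base]
  obtain ⟨F, hF, hF'⟩ := normalize (B_res_d h1 (fun j a b z => (hb j a b z).1))
    (B_res_d h2 (fun j a b z => (hb j a b z).2.1)) (B_res_d h3 (fun j a b z => (hb j a b z).2.2))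
    hiso hE0
  obtain ⟨q1, q2⟩ := H F hF hF'
  exact make_good hF hF' (sw_EF _ _ _ _ _) q1 q2

/-- Words of length at most two in the partial derivatives. -/
noncomputable def wd (w : Fin 7) (f : Fn) : Fn :=
  ![f, dx f, dy f, dx (dx f), dy (dx f), dx (dy f), dy (dy f)] w

/-- The six first-order partial derivatives. -/
noncomputable def der (c : Fin 6) (F : Surf) : Fn :=
  ![dx F.X, dy F.X, dx F.Y, dy F.Y, dx F.u, dy F.u] c

theorem wd_sub (w : Fin 7) (f g : Fn) [Reg 2 f] [Reg 2 g] : wd w (f - g) = wd w f - wd w g := by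
  fin_cases w <;> simp [wd, dx_sub, dy_sub]

theorem wd_B {f : Fn} {s : ℝ} (hf : Reg 3 f) (h : B 3 1 s f) (w : Fin 7) :
    Reg 1 (wd w f) ∧ B 1 1 s (wd w f) := by
  have h1 := h.2.1
  have h2 := h.2.2
  have h3 := h1.2.1
  have h4 := h1.2.2
  have h5 := h2.2.1
  have h6 := h2.2.2
  simp only [mul_one] at h1 h2 h3 h4 h5 h6
  fin_cases w
  · exact ⟨hf.le (by omega), h.le (by omega)⟩
  · exact ⟨hf.dx.le (by omega), h1.le (by omega)⟩
  · exact ⟨hf.dy.le (by omega), h2.le (by omega)⟩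
  · exact ⟨hf.dx.dx, h3⟩
  · exact ⟨hf.dx.dy, h4⟩
  · exact ⟨hf.dy.dx, h5⟩
  · exact ⟨hf.dy.dy, h6⟩

theorem B_of_wd {f : Fn} {s : ℝ} (h : ∀ w z, |wd w f z| ≤ s) : B 2 1 s f := by
  simp only [B, mul_one]
  exact ⟨h 0, ⟨h 1, h 3, h 4⟩, h 2, h 5, h 6⟩

theorem der_B {M r : ℝ} {F : Surf} (h : Cls M r F) (h0 : 0 ≤ r) (h1 : r ≤ 1) (c : Fin 6) :
    Reg 3 (der c F) ∧ B 3 1 M (der c F) := by
  fin_cases c
  · exact ⟨h.nrm.rX.dx, h.bXx.mono h0 h1 le_rfl⟩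
  · exact ⟨h.nrm.rX.dy, h.bXy.mono h0 h1 le_rfl⟩
  · exact ⟨h.nrm.rY.dx, h.bYx.mono h0 h1 le_rfl⟩
  · exact ⟨h.nrm.rY.dy, h.bYy.mono h0 h1 le_rfl⟩
  · exact ⟨h.nrm.ru.dx, h.bux.mono h0 h1 le_rfl⟩
  · exact ⟨h.nrm.ru.dy, h.buy.mono h0 h1 le_rfl⟩

theorem grid1 {T : ℕ} (hT : 0 < T) {x : ℝ} (hx : |x| < 7 / 5) :
    ∃ m ∈ Finset.Ico (-2 * (T : ℤ)) (2 * T), |(m : ℝ) / T| ≤ |x| ∧ |x - (m : ℝ) / T| ≤ 1 / T := by
  have hT' : (0 : ℝ) < T := by exact_mod_cast hT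
  have key : ∀ m : ℤ, |(m : ℝ)| ≤ |x * T| → |x * T - m| ≤ 1 →
      m ∈ Finset.Ico (-2 * (T : ℤ)) (2 * T) ∧ |(m : ℝ) / T| ≤ |x| ∧ |x - (m : ℝ) / T| ≤ 1 / T := by
    intro m h1 h2
    rw [abs_mul, abs_of_pos hT'] at h1
    refine ⟨?_, ?_, ?_⟩
    · have h3 : |(m : ℝ)| < 2 * T := by nlinarith [abs_nonneg x]
      rw [abs_lt] at h3
      rw [Finset.mem_Ico]
      constructor
      · have : ((-2 * (T : ℤ) : ℤ) : ℝ) ≤ m := by push_cast; linarith [h3.1]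
        exact_mod_cast this
      · have : (m : ℝ) < ((2 * (T : ℤ) : ℤ) : ℝ) := by push_cast; linarith [h3.2]
        exact_mod_cast this
    · rw [abs_div, abs_of_pos hT', div_le_iff₀ hT']; exact h1
    · have e : x - (m : ℝ) / T = (x * T - m) / T := by field_simp
      rw [e, abs_div, abs_of_pos hT']
      gcongr
  rcases le_total 0 (x * T) with h | h
  · have h1 := Int.floor_le (x * T)
    have h2 := Int.lt_floor_add_one (x * T)
    have h3 : (0 : ℝ) ≤ ⌊x * T⌋ := by exact_mod_cast Int.floor_nonneg.2 h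
    exact ⟨_, key ⌊x * T⌋ (by rw [abs_of_nonneg h3, abs_of_nonneg h]; exact h1)
      (by rw [abs_le]; constructor <;> linarith)⟩
  · have h1 := Int.le_ceil (x * T)
    have h2 := Int.ceil_lt_add_one (x * T)
    have h3 : (⌈x * T⌉ : ℝ) ≤ 0 := by exact_mod_cast Int.ceil_nonpos.2 h
    exact ⟨_, key ⌈x * T⌉ (by rw [abs_of_nonpos h3, abs_of_nonpos h]; linarith)
      (by rw [abs_le]; constructor <;> linarith)⟩

theorem grid_close {T : ℕ} (hT : 0 < T) {g : Fn} {s e : ℝ} (hg : Reg 1 g) (hb : B 1 1 s g)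
    (h : ∀ m ∈ Finset.Ico (-2 * (T : ℤ)) (2 * T), ∀ n ∈ Finset.Ico (-2 * (T : ℤ)) (2 * T),
      |ext g ((m : ℝ) / T, (n : ℝ) / T)| ≤ e) (z : Om) : |g z| ≤ e + 2 * s * (1 / T) := by
  have hz := mem_Om.1 z.2
  obtain ⟨m, hm, m1, m2⟩ := grid1 hT ((norm_fst_le (z : P)).trans_lt hz)
  obtain ⟨n, hn, n1, n2⟩ := grid1 hT ((norm_snd_le (z : P)).trans_lt hz)
  have hmem : ((m : ℝ) / T, (n : ℝ) / T) ∈ Om := by
    rw [mem_Om]
    refine lt_of_le_of_lt ?_ hz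
    rw [Prod.norm_def, Prod.norm_def]
    exact max_le_max m1 n1
  have h1 := h m hm n hn
  rw [ext_of_mem _ hmem] at h1
  have h2 := hb.lip hg z ⟨_, hmem⟩
  have h3 : ‖(z : P) - ((m : ℝ) / T, (n : ℝ) / T)‖ ≤ 1 / T := by
    rw [Prod.norm_def]; exact max_le m2 n2
  have hs : 0 ≤ s := (abs_nonneg _).trans (hb.abs o)
  have h4 : 2 * (s * 1) * ‖(z : P) - ((m : ℝ) / T, (n : ℝ) / T)‖ ≤ 2 * s * (1 / T) := by
    rw [mul_one]; gcongr
  have := abs_sub_abs_le_abs_sub (g z) (g ⟨_, hmem⟩)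
  linarith

theorem cell_bound {T : ℕ} (hT : 0 < T) (m n : ℤ) {g : Fn} {s : ℝ} (h : ∀ z, |g z| ≤ s) :
    |∫ z in cell (1 / (T : ℝ)) m n, ext g z| ≤ s := by
  have hs : 0 ≤ s := (abs_nonneg _).trans (h o)
  have hT' : (1 : ℝ) ≤ T := by exact_mod_cast hT
  have hv : volume (cell (1 / (T : ℝ)) m n) =
      ENNReal.ofReal (1 / (T : ℝ)) * ENNReal.ofReal (1 / (T : ℝ)) := by
    rw [cell, Measure.volume_eq_prod, Measure.prod_prod, Real.volume_Ico, Real.volume_Ico]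
    congr 2 <;> ring
  have h1 := norm_setIntegral_le_of_norm_le_const (μ := volume) (s := cell (1 / (T : ℝ)) m n)
    (f := ext g) (C := s) (by rw [hv]; finiteness) (fun z _ => by
      by_cases hz : z ∈ Om
      · rw [ext_of_mem _ hz]; exact h _
      · rw [ext_of_not_mem _ hz]; simpa using hs)
  rw [Measure.real, hv, ENNReal.toReal_mul, ENNReal.toReal_ofReal (by positivity)] at h1
  have h2 : 1 / (T : ℝ) ≤ 1 := by rw [div_le_one (by linarith)]; exact hT'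
  exact h1.trans (mul_le_of_le_one_right hs (mul_le_one₀ h2 (by positivity) h2))

theorem cell_sub {S : Set P} (k : ℕ) (f g : Fn) [Reg 0 f] [Reg 0 g] :
    ∫ z in S, ext (th k * (f - g)) z = (∫ z in S, ext (th k * f) z) - ∫ z in S, ext (th k * g) z := by
  have key : ∀ f : Fn, Reg 0 f → IntegrableOn (ext (th k * f)) S := fun f _ => by
    have hv : Van (th k * f) := (th_van k).mul_right _
    exact ((hv.contDiff (k := 0) inferInstance).continuous.integrable_of_hasCompactSupport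
      hv.compact).integrableOn
  rw [← integral_sub (key f inferInstance) (key g inferInstance)]
  congr 1
  funext z
  by_cases hz : z ∈ Om
  · simp only [ext_of_mem _ hz, Pi.mul_apply, Pi.sub_apply]; ring
  · simp [ext_of_not_mem _ hz]

/-- What the pigeonhole principle produces. -/
theorem pigeon_pair (M r : ℝ) (h0 : 0 ≤ r) (h1 : r ≤ 1) (b : ℕ) : ∀ᶠ T : ℕ in atTop,
    ∀ F : (Fin (T ^ 3) → Bool) → Surf, (∀ τ, Cls M r (F τ)) → ∃ τ τ', τ ≠ τ' ∧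
      (∀ c : Fin 6, B 2 1 ((1 + 4 * M) * (1 / (T : ℝ))) (der c (F τ') - der c (F τ))) ∧
      ∀ k : ℕ, k ≤ b + 3 → ∀ m n : ℤ, -2 * (T : ℤ) ≤ m → m < 2 * (T : ℤ) → -2 * (T : ℤ) ≤ n →
        n < 2 * (T : ℤ) → |∫ z in cell (1 / (T : ℝ)) m n, ext (th k * ((F τ').u - (F τ).u)) z| ≤
          (1 / (T : ℝ)) ^ (b + 5) := by
  filter_upwards [pigeon (16 * (46 + b)) (b + 5) (3 * M), eventually_gt_atTop 0] with T hP hT F hF
  have hT' : (1 : ℝ) ≤ T := by exact_mod_cast hT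
  have t1 : 1 / (T : ℝ) ≤ 1 := by rw [div_le_one (by linarith)]; exact hT'
  obtain ⟨τ, τ', hne, hclose⟩ := hP (((Fin 6 × Fin 7) ⊕ Fin (b + 4)) ×
      (Finset.Ico (-2 * (T : ℤ)) (2 * T) × Finset.Ico (-2 * (T : ℤ)) (2 * T)))
    (by
      have : (Finset.Ico (-2 * (T : ℤ)) (2 * T)).card = 4 * T := by
        rw [Int.card_Ico]; omega
      simp only [Fintype.card_prod, Fintype.card_sum, Fintype.card_fin, Fintype.card_coe, this]
      exact le_of_eq (by ring))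
    (fun τ x => Sum.elim
      (fun y : Fin 6 × Fin 7 => ext (wd y.2 (der y.1 (F τ))) ((x.2.1 : ℝ) / T, (x.2.2 : ℝ) / T))
      (fun k : Fin (b + 4) => ∫ z in cell (1 / (T : ℝ)) x.2.1 x.2.2, ext (th k * (F τ).u) z) x.1)
    (by
      rintro τ ⟨y | k, x⟩
      · obtain ⟨q1, q2⟩ := der_B (hF τ) h0 h1 y.1
        have q3 := (wd_B q1 q2 y.2).2.abs
        have hM : 0 ≤ M := (abs_nonneg _).trans (q3 o)
        simp only [Sum.elim_inl]
        by_cases hz : (((x.1 : ℤ) : ℝ) / T, ((x.2 : ℤ) : ℝ) / T) ∈ Om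
        · rw [ext_of_mem _ hz]; linarith [q3 ⟨_, hz⟩]
        · rw [ext_of_not_mem _ hz]; simpa using hM
      · simp only [Sum.elim_inr]
        refine cell_bound hT _ _ (fun z => ?_)
        have q1 := lip ((hF τ).nrm.ru.le (by omega)) (hF τ).bux.abs (hF τ).buy.abs z o
        have hM : 0 ≤ M := (abs_nonneg _).trans ((hF τ).bux.abs o)
        rw [(hF τ).nrm.u0, sub_zero, o_val, sub_zero] at q1
        have q2 := norm_le_Om z
        rw [Pi.mul_apply, abs_mul]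
        calc _ ≤ 1 * |(F τ).u z| := mul_le_mul_of_nonneg_right (th_abs k z) (abs_nonneg _)
          _ ≤ _ := by nlinarith)
  refine ⟨τ, τ', hne, fun c => B_of_wd (fun w z => ?_), fun k hk m n m1 m2 n1 n2 => ?_⟩
  · obtain ⟨q1, q2⟩ := der_B (hF τ) h0 h1 c
    obtain ⟨q3, q4⟩ := der_B (hF τ') h0 h1 c
    have q5 : B 3 1 (M + M) (der c (F τ') - der c (F τ)) := by
      rw [sub_eq_add_neg]; exact B.add q3 inferInstance q4 q2.neg
    obtain ⟨q6, q7⟩ := wd_B inferInstance q5 w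
    have := grid_close hT (e := 1 / (T : ℝ)) q6 q7 (fun m hm n hn => by
      have q8 := hclose (Sum.inl (c, w), (⟨m, hm⟩, ⟨n, hn⟩))
      simp only [Sum.elim_inl] at q8
      have q9 : (1 / (T : ℝ)) ^ (b + 5) ≤ 1 / (T : ℝ) :=
        pow_le_of_le_one (by positivity) t1 (by omega)
      by_cases hz : ((m : ℝ) / T, (n : ℝ) / T) ∈ Om
      · rw [ext_of_mem _ hz, ext_of_mem _ hz, abs_sub_comm] at q8
        rw [ext_of_mem _ hz, wd_sub]
        exact q8.trans q9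
      · rw [ext_of_not_mem _ hz, abs_zero]; positivity) z
    linarith
  · have q8 := hclose (Sum.inr ⟨k, by omega⟩,
      (⟨m, Finset.mem_Ico.2 ⟨m1, m2⟩⟩, ⟨n, Finset.mem_Ico.2 ⟨n1, n2⟩⟩))
    simp only [Sum.elim_inr] at q8
    have := (hF τ).nrm.ru
    have := (hF τ').nrm.ru
    rw [cell_sub, abs_sub_comm]
    exact q8

theorem core : CoreStmt := by
  intro M κ hκ _
  obtain ⟨a, ha, r₀, hr₀, H⟩ := level2 (6 * M) κ hκ
  refine ⟨min r₀ 1, lt_min hr₀ one_pos, fun r hr hr' N hN => ?_⟩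
  obtain ⟨H1, H2⟩ := H r hr (hr'.trans (min_le_left _ _))
  have hr1 : r ≤ 1 := hr'.trans (min_le_right _ _)
  by_contra hcon
  rw [not_eventually] at hcon
  obtain ⟨S, hS⟩ : ∃ S : Set ℕ, S = {T : ℕ | ¬ ∃ τ : Fin (T ^ 3) → Bool, ∀ f₁ f₂ f₃ : P → ℝ,
      ContDiff ℝ 4 f₁ → ContDiff ℝ 4 f₂ → ContDiff ℝ 4 f₃ →
      (∀ j : ℕ, 1 ≤ j → j ≤ 4 → ∀ z : P, ‖iteratedFDeriv ℝ j f₁ z‖ ≤ M * r ^ (j - 1) ∧
        ‖iteratedFDeriv ℝ j f₂ z‖ ≤ M * r ^ (j - 1) ∧ ‖iteratedFDeriv ℝ j f₃ z‖ ≤ M * r ^ (j - 1)) →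
      ¬ ∀ z ∈ Metric.ball (0 : P) (7 / 5),
        IsoAt f₁ f₂ f₃ (fun w => 1 + 2 * (κ * r ^ 4 * base w + pert N T τ w)) z} := ⟨_, rfl⟩
  have hne : (atTop ⊓ 𝓟 S).NeBot := by
    rw [← frequently_mem_iff_neBot, hS]; exact hcon
  set π := Par.nat (atTop ⊓ 𝓟 S) inf_le_left with hπ
  set b := 43 * N + 4 with hb
  have cb : ∀ {n : ℕ} (τ : Fin n → Bool) j, |coef τ j| ≤ 2 := fun τ j => by
    have := coef_mem τ j
    rw [abs_le]; constructor <;> linarith [this.1, this.2]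
  have : Nonempty Surf := ⟨⟨0, 0, 0⟩⟩
  have main : ∀ᶠ T in π.l, ∃ y : Surf × Surf × ℕ × (ℕ → ℝ) × (ℕ → ℝ),
      (Cls (6 * M) r y.1 ∧ Cls (6 * M) r y.2.1) ∧ (Good a r y.1 ∧ Good a r y.2.1) ∧
      (Iso y.1.X y.1.Y y.1.u (EF (κ * r ^ 4) (pertF (π.t T) (T ^ 3) b y.2.2.2.1)) ∧
        Iso y.2.1.X y.2.1.Y y.2.1.u (EF (κ * r ^ 4) (pertF (π.t T) (T ^ 3) b y.2.2.2.2))) ∧
      B 1 1 (κ * r ^ 4 / 2000) (KK y.1.X y.1.Y y.1.u - cst (κ * r ^ 4) * k0) ∧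
      (∀ j, |y.2.2.2.2 j - y.2.2.2.1 j| ≤ 2) ∧
      (y.2.2.1 < T ^ 3 ∧ |y.2.2.2.2 y.2.2.1 - y.2.2.2.1 y.2.2.1| = 1) ∧
      (∀ c : Fin 6, B 2 1 ((1 + 4 * (6 * M)) * (1 / (T : ℝ))) (der c y.2.1 - der c y.1)) ∧
      0 < T ∧
      ∀ k : ℕ, k ≤ b + 3 → ∀ m n : ℤ, -2 * (T : ℤ) ≤ m → m < 2 * (T : ℤ) → -2 * (T : ℤ) ≤ n →
        n < 2 * (T : ℤ) → |∫ z in cell (1 / (T : ℝ)) m n, ext (th k * (y.2.1.u - y.1.u)) z| ≤
          (1 / (T : ℝ)) ^ (b + 5) := by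
    have e1 : ∀ᶠ T in π.l, T ∈ S := mem_inf_of_right (mem_principal_self S)
    filter_upwards [e1, (inf_le_left : π.l ≤ atTop) (pigeon_pair (6 * M) r hr.le hr1 b),
      (inf_le_left : π.l ≤ atTop) (pert_small hr hN),
      (inf_le_left : π.l ≤ atTop) (eventually_ge_atTop 2)] with T hT hP hs hT2
    rw [hS] at hT
    simp only [mem_ofPred_eq, not_exists, not_forall, not_not] at hT
    have : ∀ τ : Fin (T ^ 3) → Bool, ∃ G : Surf, Cls (6 * M) r G ∧ Good a r G ∧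
        Iso G.X G.Y G.u (EF (κ * r ^ 4) (pertF (1 / (T : ℝ)) (T ^ 3) b (coef τ))) := by
      intro τ
      obtain ⟨f₁, f₂, f₃, q1, q2, q3, q4, q5⟩ := hT τ
      exact exists_good hT2 τ
        (fun F c1 c2 => (H1 F _ c1 inferInstance (hs _ (cb τ)) c2).2) q1 q2 q3 q4 q5
    choose F hF using this
    obtain ⟨τ, τ', hne, c1, c2⟩ := hP F (fun τ => (hF τ).1)
    obtain ⟨j, hj⟩ := Function.ne_iff.1 hne
    refine ⟨(F τ, F τ', j, coef τ, coef τ'), ⟨(hF τ).1, (hF τ').1⟩, ⟨(hF τ).2.1, (hF τ').2.1⟩,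
      ⟨(hF τ).2.2, (hF τ').2.2⟩, (H1 _ _ (hF τ).1 inferInstance (hs _ (cb τ)) (hF τ).2.2).1,
      fun j => ?_, ⟨j.2, ?_⟩, c1, by omega, c2⟩
    · have := coef_mem τ j
      have := coef_mem τ' j
      rw [abs_le]; constructor <;> simp only <;> linarith [this.1, this.2]
    · simp only [coef, j.2, dif_pos, Fin.eta]
      revert hj
      cases τ j <;> cases τ' j <;> simp
  have : π.l.NeBot := hne
  obtain ⟨y, hy⟩ := main.choice
  have hc : ∀ c : Fin 6, Bt π 2 0 1 (fun T => der c (y T).2.1 - der c (y T).1) := fun c =>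
    Bt.of_B (M := 1 + 4 * (6 * M)) (ν := fun _ => 1)
      (s := fun T => (1 + 4 * (6 * M)) * (1 / (T : ℝ))) (by
      filter_upwards [hy] with T h
      have := (der_B h.1.1 hr.le hr1 c).1
      have := (der_B h.1.2 hr.le hr1 c).1
      exact ⟨inferInstance, h.2.2.2.2.2.2.1 c, zero_le_one, by simp, by rw [zpow_one]; rfl⟩)
  have hD : PairData π (6 * M) κ a r b (fun T => (y T).1) (fun T => (y T).2.1) (fun T => T ^ 3)
      (fun T => (y T).2.2.1) (fun T => (y T).2.2.2.1) (fun T => (y T).2.2.2.2) :=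
    ⟨hκ, ha, hr, hr1, H2, hy.mono fun _ h => h.1, hy.mono fun _ h => h.2.1,
      hy.mono fun _ h => h.2.2.1, hy.mono fun _ h => h.2.2.2.1,
      Eventually.of_forall fun T => cube_le T, hy.mono fun _ h => h.2.2.2.2.1,
      hy.mono fun _ h => h.2.2.2.2.2.1, hc 0, hc 1, hc 2, hc 3, hc 4, hc 5,
      fun k hk => hy.mono fun T h => ⟨T, h.2.2.2.2.2.2.2.1, rfl, fun m n m1 m2 n1 n2 => by
        have := h.2.2.2.2.2.2.2.2 k hk m n m1 m2 n1 n2
        rw [← zpow_natCast] at this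
        exact this⟩⟩
  exact hne.ne (eventually_false_iff_eq_bot.1 hD.false)

end Vale.Agent.P229
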