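import Vale.Agent.P229.Integ

/-! Cutoff functions and the one-variable profile functions. -/

namespace Vale.Agent.P229

open scoped ContDiff Topology
open Set Filter MeasureTheory

open Classical in
/-- A smooth bump, equal to 1 on `[-a, a]` and to 0 outside `(-b, b)`. -/
noncomputable def bf (a b : ℝ) : ℝ → ℝ :=
  if h : 0 < a ∧ a < b then ((⟨a, b, h.1, h.2⟩ : ContDiffBump (0 : ℝ)) : ℝ → ℝ) else 0

instance (a b : ℝ) : Smo (bf a b) := by
  unfold bf
  split_ifs with h
  · exact ⟨ContDiffBump.contDiff _⟩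
  · exact ⟨contDiff_const⟩

theorem bf_nonneg (a b x : ℝ) : 0 ≤ bf a b x := by
  unfold bf
  split_ifs with h
  · exact ContDiffBump.nonneg _
  · simp

theorem bf_le_one (a b x : ℝ) : bf a b x ≤ 1 := by
  unfold bf
  split_ifs with h
  · exact ContDiffBump.le_one _
  · simp

theorem bf_one {a b x : ℝ} (ha : 0 < a) (hab : a < b) (hx : |x| ≤ a) : bf a b x = 1 := by
  unfold bf
  rw [dif_pos ⟨ha, hab⟩]
  exact ContDiffBump.one_of_mem_closedBall _ (by simpa using hx)

theorem bf_zero {a b x : ℝ} (hx : b ≤ |x|) : bf a b x = 0 := by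
  unfold bf
  split_ifs with h
  · exact ContDiffBump.zero_of_le_dist _ (by simpa using hx)
  · simp

theorem bf_compact (a b : ℝ) : HasCompactSupport (bf a b) :=
  HasCompactSupport.intro (isCompact_closedBall (0 : ℝ) b) (fun x hx => bf_zero (by
    simp only [Metric.mem_closedBall, dist_zero_right, Real.norm_eq_abs, not_le] at hx
    exact hx.le))

theorem bf_allBdd (a b : ℝ) : AllBdd (bf a b) := AllBdd.of_compact (bf_compact a b)

/-- Square cutoff at scale `ρ`. -/
noncomputable def cut (a b ρ : ℝ) : Fn :=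
  cmp (bf a b) (cst ρ⁻¹ * cx) * cmp (bf a b) (cst ρ⁻¹ * cy)

instance (k : ℕ) (a b ρ : ℝ) : Reg k (cut a b ρ) := by
  unfold cut; infer_instance

theorem cut_nonneg (a b ρ : ℝ) (z : Om) : 0 ≤ cut a b ρ z :=
  mul_nonneg (bf_nonneg _ _ _) (bf_nonneg _ _ _)

theorem cut_le_one (a b ρ : ℝ) (z : Om) : cut a b ρ z ≤ 1 :=
  mul_le_one₀ (bf_le_one _ _ _) (bf_nonneg _ _ _) (bf_le_one _ _ _)

theorem cut_one {a b ρ : ℝ} (ha : 0 < a) (hab : a < b) (hρ : 0 < ρ) {z : Om}
    (hz : ‖(z : P)‖ ≤ a * ρ) : cut a b ρ z = 1 := by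
  have h1 : |(z : P).1| ≤ ‖(z : P)‖ := norm_fst_le (z : P)
  have h2 : |(z : P).2| ≤ ‖(z : P)‖ := norm_snd_le (z : P)
  have key : ∀ x : ℝ, |x| ≤ a * ρ → |ρ⁻¹ * x| ≤ a := fun x hx => by
    rw [abs_mul, abs_of_pos (inv_pos.2 hρ), inv_mul_le_iff₀ hρ]; linarith
  simp only [cut, Pi.mul_apply, cmp_apply, cst_apply, cx_apply, cy_apply]
  rw [bf_one ha hab (key _ (h1.trans hz)), bf_one ha hab (key _ (h2.trans hz)), one_mul]

theorem cut_zero {a b ρ : ℝ} (hρ : 0 < ρ) {z : Om} (hz : b * ρ ≤ ‖(z : P)‖) :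
    cut a b ρ z = 0 := by
  have key : ∀ x : ℝ, b * ρ ≤ |x| → b ≤ |ρ⁻¹ * x| := fun x hx => by
    rw [abs_mul, abs_of_pos (inv_pos.2 hρ), le_inv_mul_iff₀ hρ]; linarith
  simp only [cut, Pi.mul_apply, cmp_apply, cst_apply, cx_apply, cy_apply]
  rw [Prod.norm_def, le_max_iff] at hz
  rcases hz with hz | hz
  · rw [bf_zero (key _ hz), zero_mul]
  · rw [bf_zero (x := ρ⁻¹ * (z : P).2) (key _ hz), mul_zero]

theorem ev_norm_lt {z : Om} {ρ : ℝ} (h : ‖(z : P)‖ < ρ) : ∀ᶠ w : Om in 𝓝 z, ‖(w : P)‖ < ρ :=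
  (continuous_subtype_val.norm.continuousAt.eventually (gt_mem_nhds h))

theorem ev_norm_gt {z : Om} {ρ : ℝ} (h : ρ < ‖(z : P)‖) : ∀ᶠ w : Om in 𝓝 z, ρ < ‖(w : P)‖ :=
  (continuous_subtype_val.norm.continuousAt.eventually (lt_mem_nhds h))

variable {ι : Type} {π : Par ι}

theorem Bt.scaled_cx {k : ℕ} (e : ℤ) (c : ι → ℝ) {g : ℝ → ℝ} [Smo g] (hg : AllBdd g) :
    Bt π k e 0 (fun i => P229.cmp g (P229.cst (π.t i ^ e)⁻¹ * (P229.cx - P229.cst (c i)))) := by
  refine (Bt.cmp (k := k) hg (Eventually.of_forall fun _ => inferInstance) ?_ ?_).mono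
    (Nat.le_succ k) le_rfl le_rfl
  · simp only [dx_mul, dx_sub, dx_cst, dx_cx, sub_zero, mul_one, zero_mul, add_zero, ← zpow_neg]
    exact Bt.cst (Ot.tpow π _)
  · simp only [dy_mul, dy_sub, dy_cst, dy_cx, sub_zero, mul_zero, zero_mul, add_zero]
    exact Bt.zero

theorem Bt.scaled_cy {k : ℕ} (e : ℤ) (c : ι → ℝ) {g : ℝ → ℝ} [Smo g] (hg : AllBdd g) :
    Bt π k e 0 (fun i => P229.cmp g (P229.cst (π.t i ^ e)⁻¹ * (P229.cy - P229.cst (c i)))) := by
  refine (Bt.cmp (k := k) hg (Eventually.of_forall fun _ => inferInstance) ?_ ?_).mono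
    (Nat.le_succ k) le_rfl le_rfl
  · simp only [dx_mul, dx_sub, dx_cst, dx_cy, sub_zero, mul_zero, zero_mul, add_zero]
    exact Bt.zero
  · simp only [dy_mul, dy_sub, dy_cst, dy_cy, sub_zero, mul_one, zero_mul, add_zero, ← zpow_neg]
    exact Bt.cst (Ot.tpow π _)

theorem Bt.cut {k : ℕ} (a b : ℝ) (e : ℤ) :
    Bt π k e 0 (fun i => cut a b (π.t i ^ e)) := by
  have h1 := Bt.scaled_cx (π := π) (k := k) e (fun _ => 0) (bf_allBdd a b)
  have h2 := Bt.scaled_cy (π := π) (k := k) e (fun _ => 0) (bf_allBdd a b)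
  have e0 : (P229.cst 0 : Fn) = 0 := rfl
  simp only [e0, sub_zero] at h1 h2
  exact h1.mul' h2 (by omega)

theorem Bt.cut1 {k : ℕ} (a b : ℝ) : Bt π k 0 0 (fun _ => P229.cut a b 1) := by
  simpa using Bt.cut (π := π) (k := k) a b 0

/-- Inner radii of the collar annuli. -/
noncomputable def ra (k : ℕ) : ℝ := 6 / 5 - 1 / (10 * ((k : ℝ) + 1))

/-- Outer radii of the collar annuli. -/
noncomputable def rb (k : ℕ) : ℝ := 5 / 4 + 1 / (10 * ((k : ℝ) + 1))

theorem frac_le (k : ℕ) : 1 / (10 * ((k : ℝ) + 1)) ≤ 1 / 10 := by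
  have : (0 : ℝ) ≤ k := Nat.cast_nonneg k
  exact one_div_le_one_div_of_le (by norm_num) (by linarith)

theorem frac_pos (k : ℕ) : 0 < 1 / (10 * ((k : ℝ) + 1)) := by positivity

theorem frac_lt (k : ℕ) : 1 / (10 * (((k + 1 : ℕ) : ℝ) + 1)) < 1 / (10 * ((k : ℝ) + 1)) := by
  have : (0 : ℝ) ≤ k := Nat.cast_nonneg k
  push_cast
  exact one_div_lt_one_div_of_lt (by positivity) (by linarith)

theorem ra_ge (k : ℕ) : 11 / 10 ≤ ra k := by have := frac_le k; unfold ra; linarith
theorem ra_lt (k : ℕ) : ra k < 6 / 5 := by have := frac_pos k; unfold ra; linarith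
theorem rb_gt (k : ℕ) : 5 / 4 < rb k := by have := frac_pos k; unfold rb; linarith
theorem rb_le (k : ℕ) : rb k ≤ 27 / 20 := by have := frac_le k; unfold rb; linarith
theorem ra_succ (k : ℕ) : ra k < ra (k + 1) := by have := frac_lt k; unfold ra; linarith
theorem rb_succ (k : ℕ) : rb (k + 1) < rb k := by have := frac_lt k; unfold rb; linarith

/-- Annular cutoffs in the collar. -/
noncomputable def th (k : ℕ) : Fn := cut (rb (k + 1)) (rb k) 1 - cut (ra k) (ra (k + 1)) 1

instance (j k : ℕ) : Reg j (th k) := by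
  unfold th; infer_instance

theorem Bt.th {j : ℕ} (k : ℕ) : Bt π j 0 0 (fun _ => th k) := (Bt.cut1 _ _).sub (Bt.cut1 _ _)

theorem th_zero_in {k : ℕ} {z : Om} (h : ‖(z : P)‖ ≤ ra k) : th k z = 0 := by
  have := ra_ge k; have := ra_lt k; have := rb_gt (k + 1)
  simp only [th, Pi.sub_apply]
  rw [cut_one (by linarith) (rb_succ k) one_pos (by linarith),
    cut_one (by linarith) (ra_succ k) one_pos (by linarith), sub_self]

theorem th_zero_out {k : ℕ} {z : Om} (h : rb k ≤ ‖(z : P)‖) : th k z = 0 := by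
  have := ra_lt (k + 1); have := rb_gt k
  simp only [th, Pi.sub_apply]
  rw [cut_zero one_pos (by linarith), cut_zero one_pos (by linarith), sub_self]

theorem th_one {k : ℕ} {z : Om} (h : ra (k + 1) ≤ ‖(z : P)‖) (h' : ‖(z : P)‖ ≤ rb (k + 1)) :
    th k z = 1 := by
  have := rb_gt (k + 1)
  simp only [th, Pi.sub_apply]
  rw [cut_one (by linarith) (rb_succ k) one_pos (by linarith), cut_zero one_pos (by linarith),
    sub_zero]

theorem th_van (k : ℕ) : Van (th k) := fun _ hz => th_zero_out ((rb_le k).trans hz)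

theorem th_abs (k : ℕ) (z : Om) : |th k z| ≤ 1 := by
  have := cut_nonneg (rb (k + 1)) (rb k) 1 z
  have := cut_le_one (rb (k + 1)) (rb k) 1 z
  have := cut_nonneg (ra k) (ra (k + 1)) 1 z
  have := cut_le_one (ra k) (ra (k + 1)) 1 z
  simp only [th, Pi.sub_apply]
  rw [abs_le]; constructor <;> linarith

/-- The identity function, cut to zero near the origin. -/
noncomputable def GG (x : ℝ) : ℝ := x - ∫ s in (0 : ℝ)..x, bf 1 2 s

theorem bf_continuous (a b : ℝ) : Continuous (bf a b) := (Smo.out (g := bf a b)).continuous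

theorem GG_hasDeriv (x : ℝ) : HasDerivAt GG (1 - bf 1 2 x) x :=
  (hasDerivAt_id x).sub (intervalIntegral.integral_hasDerivAt_right
    ((bf_continuous 1 2).intervalIntegrable _ _)
    ((bf_continuous 1 2).stronglyMeasurableAtFilter _ _) (bf_continuous 1 2).continuousAt)

theorem deriv_GG : deriv GG = fun x => 1 - bf 1 2 x := funext fun x => (GG_hasDeriv x).deriv

instance : Smo GG := ⟨by
  rw [contDiff_infty_iff_deriv, deriv_GG]
  exact ⟨fun x => (GG_hasDeriv x).differentiableAt, contDiff_const.sub (Smo.out (g := bf 1 2))⟩⟩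

theorem GG_zero {x : ℝ} (hx : |x| ≤ 1) : GG x = 0 := by
  have : ∫ s in (0 : ℝ)..x, bf 1 2 s = ∫ _ in (0 : ℝ)..x, (1 : ℝ) := by
    refine intervalIntegral.integral_congr (fun s hs => bf_one one_pos one_lt_two ?_)
    rw [abs_le] at hx ⊢
    rcases mem_uIcc.1 hs with h | h <;> constructor <;> linarith [h.1, h.2]
  simp [GG, this]

theorem GG_sub (x : ℝ) : |GG x - x| ≤ 4 := by
  have hi : Integrable (bf 1 2) := (bf_continuous 1 2).integrable_of_hasCompactSupport (bf_compact 1 2)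
  have h1 : ∫ s, bf 1 2 s ≤ 4 := by
    have hm : MeasurableSet (Icc (-2 : ℝ) 2) := measurableSet_Icc
    calc ∫ s, bf 1 2 s ≤ ∫ s, (Icc (-2 : ℝ) 2).indicator (fun _ => (1 : ℝ)) s := by
          refine integral_mono hi ((integrable_indicator_iff hm).2 (integrableOn_const (by simp)))
            (fun s => ?_)
          by_cases h : s ∈ Icc (-2 : ℝ) 2
          · simpa [indicator_of_mem h] using bf_le_one 1 2 s
          · rw [indicator_of_notMem h, bf_zero]
            simp only [mem_Icc, not_and_or, not_le] at h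
            rcases h with h | h
            · exact le_abs.2 (Or.inr (by linarith))
            · exact le_abs.2 (Or.inl h.le)
      _ = 4 := by rw [integral_indicator_const _ hm]; simp; norm_num
  have h2 : |∫ s in (0 : ℝ)..x, bf 1 2 s| ≤ ∫ s, bf 1 2 s := by
    rw [intervalIntegral.abs_integral_eq_abs_integral_uIoc,
      abs_of_nonneg (integral_nonneg (fun s => bf_nonneg 1 2 s))]
    exact setIntegral_le_integral hi (Eventually.of_forall fun s => bf_nonneg 1 2 s)
  simp only [GG, sub_sub_cancel_left, abs_neg]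
  linarith

/-- The profile of the test function. -/
noncomputable def prof (x : ℝ) : ℝ := x ^ 2 / 2 * bf 1 2 x

instance : Smo prof := ⟨((contDiff_id.pow 2).div_const 2).mul (Smo.out (g := bf 1 2))⟩

theorem prof_zero {x : ℝ} (hx : 2 ≤ |x|) : prof x = 0 := by simp [prof, bf_zero hx]

theorem prof_allBdd : AllBdd prof :=
  AllBdd.of_compact (HasCompactSupport.intro (isCompact_closedBall (0 : ℝ) 2) (fun x hx =>
    prof_zero (by
      simp only [Metric.mem_closedBall, dist_zero_right, Real.norm_eq_abs, not_le] at hx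
      exact hx.le)))

theorem prof_dd {x : ℝ} (hx : |x| < 1) : deriv (deriv prof) x = 1 := by
  have h1 : prof =ᶠ[𝓝 x] fun y => y ^ 2 / 2 := by
    filter_upwards [continuous_abs.continuousAt.eventually (gt_mem_nhds hx)] with y hy
    simp [prof, bf_one one_pos one_lt_two (le_of_lt hy)]
  rw [h1.deriv.deriv_eq]
  have : deriv (fun y : ℝ => y ^ 2 / 2) = fun y => y := by
    funext y; simp
  rw [this]; simp

theorem prof_far {x : ℝ} (hx : 2 < |x|) : deriv prof x = 0 ∧ deriv (deriv prof) x = 0 := by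
  have h1 : prof =ᶠ[𝓝 x] fun _ => 0 := by
    filter_upwards [continuous_abs.continuousAt.eventually (lt_mem_nhds hx)] with y hy
    exact prof_zero (le_of_lt hy)
  refine ⟨by rw [h1.deriv_eq]; simp, by rw [h1.deriv.deriv_eq]; simp⟩

end Vale.Agent.P229
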