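import Mathlib

/-! Plain definitions shared by the files of the P229 development. -/

namespace Vale.Agent.P229

open scoped ContDiff

/-- The plane, with the sup norm. -/
abbrev P : Type := ℝ × ℝ

/-- One-dimensional bump: equal to 1 on `[-1/2, 1/2]`, supported in `(-1, 1)`. -/
noncomputable def bump1 : ContDiffBump (0 : ℝ) := ⟨1 / 2, 1, by norm_num, by norm_num⟩

/-- Two-dimensional product bump. -/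
noncomputable def bump2 (z : P) : ℝ := bump1 z.1 * bump1 z.2

/-- The `i`-th small bump at parameter `t`: centre `((i+1) t^41, (i+1) t^41)`, radius `t^43`. -/
noncomputable def bumpAt (t : ℝ) (i : ℕ) (z : P) : ℝ :=
  bump2 ((z.1 - (i + 1) * t ^ 41) / t ^ 43, (z.2 - (i + 1) * t ^ 41) / t ^ 43)

/-- The perturbation `δ ∑ τ i bump_i` with `t = 1/T`, `n = T^3` bumps and `δ = t^(43 N + 4)`. -/
noncomputable def pert (N T : ℕ) (τ : Fin (T ^ 3) → Bool) (z : P) : ℝ :=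
  (1 / (T : ℝ)) ^ (43 * N + 4) * ∑ i : Fin (T ^ 3), (if τ i then 1 else 0) * bumpAt (1 / (T : ℝ)) i z

/-- The polynomial part of the conformal factor (after rescaling the island to radius 1). -/
noncomputable def base (z : P) : ℝ := (z.1 ^ 2 + z.2 ^ 2) / 4 - (z.1 ^ 2 + z.2 ^ 2) ^ 2 / 16

/-- The three scalar functions `f₁ f₂ f₃` form an isometric immersion of `E (dx² + dy²)` at `z`. -/
def IsoAt (f₁ f₂ f₃ E : P → ℝ) (z : P) : Prop :=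
  fderiv ℝ f₁ z (1, 0) ^ 2 + fderiv ℝ f₂ z (1, 0) ^ 2 + fderiv ℝ f₃ z (1, 0) ^ 2 = E z ∧
  fderiv ℝ f₁ z (1, 0) * fderiv ℝ f₁ z (0, 1) + fderiv ℝ f₂ z (1, 0) * fderiv ℝ f₂ z (0, 1) +
    fderiv ℝ f₃ z (1, 0) * fderiv ℝ f₃ z (0, 1) = 0 ∧
  fderiv ℝ f₁ z (0, 1) ^ 2 + fderiv ℝ f₂ z (0, 1) ^ 2 + fderiv ℝ f₃ z (0, 1) ^ 2 = E z

/-- Statement of the rescaled core lemma. -/
def CoreStmt : Prop :=
  ∀ (M κ : ℝ), 0 < κ → κ ≤ 1 → ∃ r₀ : ℝ, 0 < r₀ ∧ ∀ r : ℝ, 0 < r → r ≤ r₀ → ∀ N : ℕ, 4 ≤ N →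
    ∀ᶠ T : ℕ in Filter.atTop, ∃ τ : Fin (T ^ 3) → Bool, ∀ f₁ f₂ f₃ : P → ℝ,
      ContDiff ℝ 4 f₁ → ContDiff ℝ 4 f₂ → ContDiff ℝ 4 f₃ →
      (∀ j : ℕ, 1 ≤ j → j ≤ 4 → ∀ z : P, ‖iteratedFDeriv ℝ j f₁ z‖ ≤ M * r ^ (j - 1) ∧
        ‖iteratedFDeriv ℝ j f₂ z‖ ≤ M * r ^ (j - 1) ∧ ‖iteratedFDeriv ℝ j f₃ z‖ ≤ M * r ^ (j - 1)) →
      ¬ ∀ z ∈ Metric.ball (0 : P) (7 / 5),
        IsoAt f₁ f₂ f₃ (fun w => 1 + 2 * (κ * r ^ 4 * base w + pert N T τ w)) z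

/-- Statement of the block lemma. -/
def BlockStmt : Prop :=
  ∀ (M R ε : ℝ) (N : ℕ), 0 < R → 0 < ε → ∃ φ : P → ℝ, ContDiff ℝ ∞ φ ∧
    tsupport φ ⊆ Metric.ball (0 : P) R ∧
    (∀ k : ℕ, k ≤ N → ∀ z : P, ‖iteratedFDeriv ℝ k φ z‖ ≤ ε) ∧
    ∀ f₁ f₂ f₃ : P → ℝ, ContDiff ℝ 4 f₁ → ContDiff ℝ 4 f₂ → ContDiff ℝ 4 f₃ →
      (∀ j : ℕ, j ≤ 4 → ∀ z : P, ‖iteratedFDeriv ℝ j f₁ z‖ ≤ M ∧
        ‖iteratedFDeriv ℝ j f₂ z‖ ≤ M ∧ ‖iteratedFDeriv ℝ j f₃ z‖ ≤ M) →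
      ¬ ∀ z ∈ Metric.ball (0 : P) R, IsoAt f₁ f₂ f₃ (fun w => 1 + 2 * φ w) z

/-- The half-open grid cell `[i ℓ, (i+1) ℓ) × [j ℓ, (j+1) ℓ)`. -/
def cell (l : ℝ) (i j : ℤ) : Set P :=
  Set.Ico (i * l) ((i + 1) * l) ×ˢ Set.Ico (j * l) ((j + 1) * l)

end Vale.Agent.P229
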