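import Vale.Agent.P229.Cut

/-! Geometry of normalized surfaces at small scale. -/

namespace Vale.Agent.P229

open scoped ContDiff Topology
open Set Filter

set_option synthInstance.maxSize 2000

/-- A map to three-space, given by its components. -/
structure Surf where
  /-- first component -/
  X : Fn
  /-- second component -/
  Y : Fn
  /-- third component -/
  u : Fn

/-- Normalization at the origin. -/
structure Nrm (F : Surf) : Prop where
  rX : Reg 4 F.X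
  rY : Reg 4 F.Y
  ru : Reg 4 F.u
  X0 : F.X o = 0
  Y0 : F.Y o = 0
  u0 : F.u o = 0
  Xx : dx F.X o = 1
  Xy : dy F.X o = 0
  Yx : dx F.Y o = 0
  Yy : dy F.Y o = 1
  ux : dx F.u o = 0
  uy : dy F.u o = 0

/-- Normalized surfaces with bounded derivatives. -/
structure Cls (M r : ℝ) (F : Surf) : Prop where
  nrm : Nrm F
  bXx : B 3 r M (dx F.X)
  bXy : B 3 r M (dy F.X)
  bYx : B 3 r M (dx F.Y)
  bYy : B 3 r M (dy F.Y)
  bux : B 3 r M (dx F.u)
  buy : B 3 r M (dy F.u)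

variable {ι : Type} {π : Par ι}

/-- Families of normalized surfaces with uniform bounds. -/
structure Fam (π : Par ι) (a : ℤ) (F : ι → Surf) : Prop where
  nrm : ∀ᶠ i in π.l, Nrm (F i)
  bXx : Bt π 3 a 0 (fun i => dx (F i).X)
  bXy : Bt π 3 a 0 (fun i => dy (F i).X)
  bYx : Bt π 3 a 0 (fun i => dx (F i).Y)
  bYy : Bt π 3 a 0 (fun i => dy (F i).Y)
  bux : Bt π 3 a 0 (fun i => dx (F i).u)
  buy : Bt π 3 a 0 (fun i => dy (F i).u)

theorem Bt.of_B {k : ℕ} {a e : ℤ} {f : ι → Fn} {ν s : ι → ℝ} {M : ℝ}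
    (h : ∀ᶠ i in π.l, Reg k (f i) ∧ B k (ν i) (s i) (f i) ∧ 0 ≤ ν i ∧ ν i ≤ π.t i ^ (-a) ∧
      s i ≤ M * π.t i ^ e) : Bt π k a e f := by
  refine ⟨|M|, abs_nonneg _, ?_⟩
  filter_upwards [h, π.pos] with i ⟨h1, h2, h3, h4, h5⟩ hp
  exact ⟨h1, h2.mono h3 h4
    (h5.trans (mul_le_mul_of_nonneg_right (le_abs_self _) (zpow_pos hp _).le))⟩

theorem Fam.of_cls {M : ℝ} {a : ℤ} {r : ι → ℝ} {F : ι → Surf}
    (h : ∀ᶠ i in π.l, Cls M (r i) (F i) ∧ 0 ≤ r i ∧ r i ≤ π.t i ^ (-a)) : Fam π a F := by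
  refine ⟨h.mono fun i hi => hi.1.nrm, ?_, ?_, ?_, ?_, ?_, ?_⟩ <;>
    refine Bt.of_B (M := M) (ν := r) (s := fun _ => M) ?_ <;>
    filter_upwards [h] with i ⟨h1, h2, h3⟩
  · exact ⟨h1.nrm.rX.dx, h1.bXx, h2, h3, by simp⟩
  · exact ⟨h1.nrm.rX.dy, h1.bXy, h2, h3, by simp⟩
  · exact ⟨h1.nrm.rY.dx, h1.bYx, h2, h3, by simp⟩
  · exact ⟨h1.nrm.rY.dy, h1.bYy, h2, h3, by simp⟩
  · exact ⟨h1.nrm.ru.dx, h1.bux, h2, h3, by simp⟩
  · exact ⟨h1.nrm.ru.dy, h1.buy, h2, h3, by simp⟩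

variable {F : ι → Surf}

theorem Fam.J {a : ℤ} (h : Fam π a F) : Bt π 3 a 0 (fun i => br (F i).X (F i).Y) :=
  Bt.br h.bXx h.bXy h.bYx h.bYy

theorem Fam.crd {a : ℤ} (h : Fam π a F) (hJ : ∀ᶠ i in π.l, ∀ z, 1 / 2 ≤ br (F i).X (F i).Y z) :
    Crd π 3 a (fun i => (F i).X) (fun i => (F i).Y) :=
  ⟨h.bXx, h.bXy, h.bYx, h.bYy, h.J.inv (c := 1 / 2) (by norm_num) (by
    filter_upwards [hJ] with i hi z
    simpa using (hi z).trans (le_abs_self _))⟩

theorem nz_of_le {f : Fn} {c : ℝ} (hc : 0 < c) (h : ∀ z, c ≤ f z) : NZ f :=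
  ⟨fun z => (hc.trans_le (h z)).ne'⟩

theorem Nrm.J0 {F : Surf} (h : Nrm F) : br F.X F.Y o = 1 := by
  simp [br, h.Xx, h.Xy, h.Yx, h.Yy]

theorem Nrm.d1o {F : Surf} (h : Nrm F) (f : Fn) : d1 F.X F.Y f o = dx f o := by
  rw [d1, Pi.mul_apply, Pi.inv_apply, h.J0]
  simp [br, h.Yx, h.Yy]

theorem Nrm.d2o {F : Surf} (h : Nrm F) (f : Fn) : d2 F.X F.Y f o = dy f o := by
  rw [d2, Pi.mul_apply, Pi.inv_apply, h.J0]
  simp [br, h.Xx, h.Xy]

theorem Nrm.second {F : Surf} (h : Nrm F) [NZ (br F.X F.Y)] :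
    dx (d1 F.X F.Y F.u) o = dx (dx F.u) o ∧ dy (d1 F.X F.Y F.u) o = dy (dx F.u) o ∧
      dy (d2 F.X F.Y F.u) o = dy (dy F.u) o := by
  have := h.rX; have := h.rY; have := h.ru
  have c1 := dx_chain F.X F.Y F.u
  have c2 := dy_chain F.X F.Y F.u
  have e1 := congrFun (congrArg dx c1) o
  have e2 := congrFun (congrArg dy c1) o
  have e3 := congrFun (congrArg dy c2) o
  simp only [dx_add, dy_add, dx_mul, dy_mul, Pi.add_apply, Pi.mul_apply, h.d1o, h.d2o, h.Xx, h.Xy,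
    h.Yx, h.Yy, h.ux, h.uy] at e1 e2 e3
  refine ⟨by linarith, by linarith, by linarith⟩

theorem Bt.taylor' {k : ℕ} {e : ℤ} {f : ι → Fn} {c : ι → ℝ} (h : Bt π (k + 1) (-1) e f)
    (h0 : ∀ᶠ i in π.l, f i o = c i) : Bt π (k + 1) 0 (e + 1) (fun i => f i - P229.cst (c i)) := by
  refine Bt.taylor ?_ ?_ ?_ ?_
  · filter_upwards [h.reg] with i hi; infer_instance
  · filter_upwards [h0] with i hi; simp [hi]
  · refine (h.dx.mono le_rfl (by omega) (by omega)).congr ?_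
    filter_upwards [h.reg] with i hi
    have := hi.le (j := 1) (by omega)
    rw [dx_sub, dx_cst, sub_zero]
  · refine (h.dy.mono le_rfl (by omega) (by omega)).congr ?_
    filter_upwards [h.reg] with i hi
    have := hi.le (j := 1) (by omega)
    rw [dy_sub, dy_cst, sub_zero]

theorem Fam.J1 (h : Fam π (-1) F) : Bt π 3 0 1 (fun i => br (F i).X (F i).Y - cst 1) :=
  h.J.taylor' (c := fun _ => 1) (h.nrm.mono fun _ hi => hi.J0)

theorem Fam.Jlow (h : Fam π (-1) F) : ∀ᶠ i in π.l, ∀ z, 1 / 2 ≤ br (F i).X (F i).Y z := by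
  filter_upwards [h.J1.small (e' := 0) one_pos (show (0 : ℝ) < 1 / 2 by norm_num)] with i hi z
  have := (abs_le.1 (hi z)).1
  simp only [Pi.sub_apply, cst_apply, zpow_zero] at this
  linarith

/-- The polynomial part of the conformal factor. -/
noncomputable def baseF : Fn := cst (1 / 4) * (cx ^ 2 + cy ^ 2) - cst (1 / 16) * (cx ^ 2 + cy ^ 2) ^ 2

/-- The model curvature. -/
noncomputable def k0 : Fn := cx ^ 2 + cy ^ 2 - 1

instance (k : ℕ) : Reg k baseF := by unfold baseF; infer_instance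
instance (k : ℕ) : Reg k k0 := by unfold k0; infer_instance

theorem baseF_apply (z : Om) : baseF z = base z := by
  simp only [baseF, base, Pi.sub_apply, Pi.mul_apply, Pi.add_apply, Pi.pow_apply, cst_apply,
    cx_apply, cy_apply]
  ring

theorem lap_baseF : dx (dx baseF) + dy (dy baseF) = -k0 := by
  simp only [baseF, k0, dx_add, dy_add, dx_sub, dy_sub, dx_mul, dy_mul, dx_sq, dy_sq, dx_cst, dy_cst,
    dx_cx, dy_cx, dx_cy, dy_cy, dx_ofNat, dy_ofNat, dx_zero, dy_zero, dx_one, dy_one]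
  funext z
  simp only [Pi.sub_apply, Pi.mul_apply, Pi.add_apply, Pi.pow_apply, cst_apply, Pi.neg_apply,
    Pi.ofNat_apply]
  ring

theorem Bt.baseF {k : ℕ} : Bt π k 0 0 (fun _ => baseF) :=
  ((Bt.const _).mul (Bt.cx.sq.add Bt.cy.sq)).sub ((Bt.const _).mul (Bt.cx.sq.add Bt.cy.sq).sq)

theorem Bt.k0 {k : ℕ} : Bt π k 0 0 (fun _ => k0) := (Bt.cx.sq.add Bt.cy.sq).sub Bt.one

/-- The conformal factor. -/
noncomputable def EF (s : ℝ) (β : Fn) : Fn := 1 + 2 * (cst s * baseF + β)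

instance {k : ℕ} (s : ℝ) (β : Fn) [Reg k β] : Reg k (EF s β) := by unfold EF; infer_instance

theorem Fam.Kclose (h : Fam π (-1) F) {κ : ℝ} {β : ι → Fn} (hβ : Bt π 4 0 5 β)
    (hiso : ∀ᶠ i in π.l, Iso (F i).X (F i).Y (F i).u (EF (κ * π.t i ^ (4 : ℤ)) (β i))) :
    Bt π 2 0 5 (fun i => KK (F i).X (F i).Y (F i).u - cst (κ * π.t i ^ (4 : ℤ)) * k0) := by
  have hs : Bt π 4 0 4 (fun i => cst (κ * π.t i ^ (4 : ℤ))) := Bt.cst ((Ot.tpow π 4).cmul κ)
  have hφ : Bt π 4 0 4 (fun i => 2 * (cst (κ * π.t i ^ (4 : ℤ)) * baseF + β i)) :=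
    Bt.two.mul ((hs.mul Bt.baseF).add (hβ.mono le_rfl le_rfl (by omega)))
  have hE : Bt π 2 0 0 (fun i => EF (κ * π.t i ^ (4 : ℤ)) (β i)) :=
    Bt.one.add (hφ.mono (by omega) le_rfl (by omega))
  have hJ := h.J.mono (k' := 2) (by omega) (show (-1 : ℤ) ≤ 0 by omega) le_rfl
  have hJ1 := h.J1.mono (k' := 2) (by omega) le_rfl le_rfl
  have hJi := (h.crd h.Jlow).inv.mono (k' := 2) (by omega) (show (-1 : ℤ) ≤ 0 by omega) le_rfl
  have hφx := hφ.dx.mono (k' := 2) (by omega) le_rfl le_rfl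
  have hφy := hφ.dy.mono (k' := 2) (by omega) le_rfl le_rfl
  have t1 := (hE.mul' ((hφx.sq.add hφy.sq)) (e'' := 5) (by omega))
  have t2 := hE.sq.mul' (hβ.dx.dx.add hβ.dy.dy) (e'' := 5) (by omega)
  have t3 := (((hφ.mono (k' := 2) (by omega) le_rfl (show (1 : ℤ) ≤ 4 by omega)).mul'
    (hE.add Bt.one) (e'' := 1) (by omega)).sub
    ((hJ1.mul (hJ.add Bt.one)).mul' (hJ.sq.add Bt.one) (by omega)))
  have t4 := ((hs.mono (k' := 2) (by omega) le_rfl le_rfl).mul Bt.k0).mul' t3 (e'' := 5) (by omega)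
  refine (((((Bt.const (1 / 2)).mul' t1 (e'' := 5) (by omega)).sub t2).add t4).mul' hJi.sq.sq
    (by omega)).congr ?_
  filter_upwards [hiso, h.nrm, h.Jlow, hβ.reg] with i hiso hn hJ hβ
  have := hn.rX; have := hn.rY; have := hn.ru
  have hz := nz_of_le (by norm_num) hJ
  have eg := hiso.egregium
  have hl := lap_baseF
  have ex : dx (EF (κ * π.t i ^ (4 : ℤ)) (β i)) =
      dx (2 * (cst (κ * π.t i ^ (4 : ℤ)) * baseF + β i)) := by
    rw [EF, dx_add, dx_one, zero_add]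
  have ey : dy (EF (κ * π.t i ^ (4 : ℤ)) (β i)) =
      dy (2 * (cst (κ * π.t i ^ (4 : ℤ)) * baseF + β i)) := by
    rw [EF, dy_add, dy_one, zero_add]
  have exx : dx (dx (EF (κ * π.t i ^ (4 : ℤ)) (β i))) + dy (dy (EF (κ * π.t i ^ (4 : ℤ)) (β i))) =
      2 * (-(cst (κ * π.t i ^ (4 : ℤ)) * k0) + (dx (dx (β i)) + dy (dy (β i)))) := by
    simp only [EF, dx_add, dy_add, dx_mul, dy_mul, dx_cst, dy_cst, dx_ofNat, dy_ofNat, dx_one,
      dy_one, zero_mul, add_zero, zero_add]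
    linear_combination 2 * cst (κ * π.t i ^ (4 : ℤ)) * hl
  rw [exx, ex, ey] at eg
  have eE : 2 * (cst (κ * π.t i ^ (4 : ℤ)) * baseF + β i) = EF (κ * π.t i ^ (4 : ℤ)) (β i) - 1 := by
    rw [EF]; ring
  funext z
  have eg' := congrFun eg z
  have eE' := congrFun eE z
  have hz' := hz.out z
  simp only [Pi.sub_apply, Pi.mul_apply, Pi.add_apply, Pi.pow_apply, cst_apply, Pi.neg_apply,
    Pi.ofNat_apply, Pi.inv_apply] at eg' eE' ⊢
  rw [eE']
  generalize κ * π.t i ^ (4 : ℤ) = s at *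
  field_simp
  linear_combination eg'

theorem Nrm.hess_k0 {F : Surf} (h : Nrm F) [NZ (br F.X F.Y)] :
    d1 F.X F.Y (d1 F.X F.Y k0) o = 2 ∧ d2 F.X F.Y (d2 F.X F.Y k0) o = 2 ∧
      d2 F.X F.Y (d1 F.X F.Y k0) o = 0 := by
  have := h.rX; have := h.rY
  simp only [k0, d1_add, d2_add, d1_sub, d2_sub, d1_sq, d2_sq, d1_mul, d2_mul, d1_one, d2_one,
    d1_ofNat, d2_ofNat, sub_zero, Pi.add_apply, Pi.mul_apply, Pi.ofNat_apply, cx_apply, cy_apply,
    o_val, h.d1o cx, h.d1o cy, h.d2o cx, h.d2o cy, dx_cx, dy_cx, dx_cy, dy_cy]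
  simp

theorem forcing_big {κ C a t l m n A B' C' D w1 w2 w3 w4 w5 : ℝ} (hκ : 0 < κ) (hC0 : 0 < C)
    (ha : a = κ / (32 * C)) (hp : 0 < t) (h1 : |w1| ≤ C * t ^ 3) (h2 : |w2| ≤ C * t ^ 3)
    (h3 : |w3| ≤ C * t ^ 3) (h4 : |w4| ≤ C * t ^ 3) (h5 : |w5| ≤ C * t ^ 3)
    (r11 : |2 * (A * C' - B' ^ 2) + (w1 * n + l * w3 - 2 * m * w2) - κ * t ^ 4 * 2| ≤ κ / 8 * t ^ 4)
    (r22 : |2 * (B' * D - C' ^ 2) + (w3 * n + l * w5 - 2 * m * w4) - κ * t ^ 4 * 2| ≤ κ / 8 * t ^ 4)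
    (r12 : |A * D - B' * C' + (w2 * n + l * w4 - 2 * m * w3) - κ * t ^ 4 * 0| ≤ κ / 8 * t ^ 4) :
    a * t < |l| ∨ a * t < |m| ∨ a * t < |n| := by
  by_contra hcon
  simp only [not_or, not_lt] at hcon
  obtain ⟨b1, b2, b3⟩ := hcon
  have key : ∀ x y : ℝ, |x| ≤ C * t ^ 3 → |y| ≤ a * t → |x * y| ≤ κ / 32 * t ^ 4 := by
    intro x y hx hy
    rw [abs_mul]
    calc |x| * |y| ≤ (C * t ^ 3) * (a * t) := mul_le_mul hx hy (abs_nonneg _) (by positivity)
      _ = κ / 32 * t ^ 4 := by rw [ha]; field_simp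
  have q1 := abs_le.1 (key w1 n h1 b3)
  have q2 := abs_le.1 (key w3 l h3 b1)
  have q3 := abs_le.1 (key w2 m h2 b2)
  have q4 := abs_le.1 (key w3 n h3 b3)
  have q5 := abs_le.1 (key w5 l h5 b1)
  have q6 := abs_le.1 (key w4 m h4 b2)
  have q7 := abs_le.1 (key w2 n h2 b3)
  have q8 := abs_le.1 (key w4 l h4 b1)
  have q9 := abs_le.1 (key w3 m h3 b2)
  have r11 := abs_le.1 r11
  have r22 := abs_le.1 r22
  have r12 := abs_le.1 r12
  have kt : 0 < κ * t ^ 4 := by positivity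
  have hP : 7 / 8 * (κ * t ^ 4) ≤ A * C' - B' ^ 2 := by linarith [r11.1, q1.2, q2.2, q3.1]
  have hQ : 7 / 8 * (κ * t ^ 4) ≤ B' * D - C' ^ 2 := by linarith [r22.1, q4.2, q5.2, q6.1]
  have hS1 : A * D - B' * C' ≤ 1 / 4 * (κ * t ^ 4) := by linarith [r12.2, q7.1, q8.1, q9.2]
  have hS2 : -(1 / 4 * (κ * t ^ 4)) ≤ A * D - B' * C' := by linarith [r12.1, q7.2, q8.2, q9.1]
  have hS := sq_le_sq' hS2 hS1
  have hc := cubic_hessian A B' C' D (by linarith)
  have := mul_le_mul hP hQ (by positivity) (by linarith)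
  have k2 : 0 < (κ * t ^ 4) ^ 2 := by positivity
  linarith

theorem forcing_fin {κ a t l m n : ℝ} (hp : 0 < t) (ha0 : 0 < a)
    (big : a * t < |l| ∨ a * t < |m| ∨ a * t < |n|)
    (r0 : |l * n - m ^ 2 - κ * t ^ 4 * (0 ^ 2 + 0 ^ 2 - 1)| ≤ a ^ 2 / 100 * t ^ 2)
    (s0 : κ * t ^ 4 ≤ a ^ 2 / 100 * t ^ 2) :
    a / 2 * t ≤ max |l| |n| ∧ |m| ≤ 21 / 20 * max |l| |n| := by
  set L := max |l| |n| with hL
  have l1 : |l| ≤ L := le_max_left _ _
  have l2 : |n| ≤ L := le_max_right _ _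
  have l0 : 0 ≤ L := (abs_nonneg _).trans l1
  have hm : m ^ 2 ≤ L ^ 2 + a ^ 2 / 50 * t ^ 2 := by
    have q1 : l * n ≤ L ^ 2 := by
      calc l * n ≤ |l| * |n| := by rw [← abs_mul]; exact le_abs_self _
        _ ≤ L * L := mul_le_mul l1 l2 (abs_nonneg _) l0
        _ = L ^ 2 := by ring
    have := (abs_le.1 r0).1
    linarith
  have at0 : 0 < a * t := by positivity
  have hLa : a / 2 * t ≤ L := by
    rcases big with hb | hb | hb
    · linarith
    · by_contra hcon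
      have q1 : L ^ 2 ≤ (a / 2 * t) ^ 2 := by gcongr; linarith
      have q2 : (a * t) ^ 2 ≤ |m| ^ 2 := by gcongr
      rw [sq_abs] at q2
      have : 0 < (a * t) ^ 2 := by positivity
      linarith
    · linarith
  refine ⟨hLa, abs_le_of_sq_le_sq ?_ (by positivity)⟩
  have q1 : (a / 2 * t) ^ 2 ≤ L ^ 2 := by gcongr
  have : 0 ≤ L ^ 2 := by positivity
  linarith

theorem Fam.forcing (h : Fam π (-1) F) {κ : ℝ} (hκ : 0 < κ)
    (hR : Bt π 2 0 5 (fun i => KK (F i).X (F i).Y (F i).u - cst (κ * π.t i ^ (4 : ℤ)) * k0)) :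
    ∃ a : ℝ, 0 < a ∧ ∀ᶠ i in π.l,
      a * π.t i ≤ max |dx (dx (F i).u) o| |dy (dy (F i).u) o| ∧
      |dy (dx (F i).u) o| ≤ 21 / 20 * max |dx (dx (F i).u) o| |dy (dy (F i).u) o| := by
  have c := h.crd h.Jlow
  have c0 := c.mono le_rfl (show (-1 : ℤ) ≤ 0 by omega)
  have u1 := c.d1' h.bux h.buy
  have u2 := c.d2' h.bux h.buy
  have u11 := c.d1 u1 (by omega)
  have u12 := c.d2 u1 (by omega)
  have u22 := c.d2 u2 (by omega)
  have u111 := c.d1 u11 (by omega)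
  have u112 := c.d2 u11 (by omega)
  have u122 := c.d2 u12 (by omega)
  have u222 := c.d2 u22 (by omega)
  obtain ⟨C1, hC1, h1⟩ := (c.d1 u111 (by omega)).bound
  obtain ⟨C2, hC2, h2⟩ := (c.d2 u111 (by omega)).bound
  obtain ⟨C3, hC3, h3⟩ := (c.d2 u112 (by omega)).bound
  obtain ⟨C4, hC4, h4⟩ := (c.d2 u122 (by omega)).bound
  obtain ⟨C5, hC5, h5⟩ := (c.d2 u222 (by omega)).bound
  set C := C1 + C2 + C3 + C4 + C5 + 1 with hC
  have hC0 : 0 < C := by positivity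
  set a := κ / (32 * C) with ha
  have ha0 : 0 < a := by positivity
  have hκ8 : 0 < κ / 8 := by positivity
  refine ⟨a / 2, by positivity, ?_⟩
  filter_upwards [h1, h2, h3, h4, h5, h.nrm, h.Jlow, π.pos,
    (c0.d1 (c0.d1 hR (by omega)) (by omega)).small (e' := 4) (by omega) hκ8,
    (c0.d2 (c0.d2 hR (by omega)) (by omega)).small (e' := 4) (by omega) hκ8,
    (c0.d2 (c0.d1 hR (by omega)) (by omega)).small (e' := 4) (by omega) hκ8,
    hR.small (e' := 2) (by omega) (show 0 < a ^ 2 / 100 by positivity),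
    π.tpow_le' (e := 4) (e' := 2) (by omega) κ (show 0 < a ^ 2 / 100 by positivity)]
    with i h1 h2 h3 h4 h5 hn hJ hp r11 r22 r12 r0 s0
  have := hn.rX; have := hn.rY; have := hn.ru
  have hz := nz_of_le (by norm_num) hJ
  obtain ⟨k11, k22, k12⟩ := hn.hess_k0
  obtain ⟨e1, e2, e3⟩ := hn.second
  rw [← hn.d1o] at e1
  rw [← hn.d2o] at e2 e3
  rw [← e1, ← e2, ← e3]
  have r11 := r11 o
  have r22 := r22 o
  have r12 := r12 o
  have r0 := r0 o
  have h1 := h1 o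
  have h2 := h2 o
  have h3 := h3 o
  have h4 := h4 o
  have h5 := h5 o
  simp only [d1_sub, d2_sub, d1_mul, d2_mul, d1_cst, zero_mul, add_zero, d2_cst, KK_11, KK_22,
    KK_12, Pi.sub_apply, Pi.mul_apply, Pi.add_apply, Pi.pow_apply, cst_apply, Pi.ofNat_apply,
    k11, k22, k12] at r11 r22 r12
  simp only [KK, k0, Pi.sub_apply, Pi.mul_apply, Pi.add_apply, Pi.pow_apply, cst_apply, cx_apply,
    cy_apply, o_val, Pi.one_apply] at r0
  have e4 : π.t i ^ (4 : ℤ) = π.t i ^ 4 := zpow_ofNat _ 4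
  have e2' : π.t i ^ (2 : ℤ) = π.t i ^ 2 := zpow_ofNat _ 2
  have e3' : π.t i ^ (0 - -1 - -1 - -1 : ℤ) = π.t i ^ 3 := zpow_ofNat _ 3
  rw [e3'] at h1 h2 h3 h4 h5
  rw [e4] at r11 r22 r12 r0 s0
  rw [e2'] at r0 s0
  simp only [Prod.fst_zero, Prod.snd_zero] at r0
  exact forcing_fin hp ha0 (forcing_big hκ hC0 ha hp (h1.trans (by gcongr; linarith))
    (h2.trans (by gcongr; linarith)) (h3.trans (by gcongr; linarith))
    (h4.trans (by gcongr; linarith)) (h5.trans (by gcongr; linarith)) r11 r22 r12) r0 s0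

theorem Bt.lipe {f : ι → Fn} {k : ℕ} {e : ℤ} (h : Bt π (k + 1) 0 e f) :
    ∃ C : ℝ, 0 ≤ C ∧ ∀ᶠ i in π.l, ∀ z y : Om, |f i z - f i y| ≤ C * π.t i ^ e * ‖(z : P) - y‖ := by
  obtain ⟨C, hC, h⟩ := h
  refine ⟨2 * C, by positivity, ?_⟩
  filter_upwards [h] with i hi z y
  simpa [mul_assoc] using hi.2.lip (hi.1.le (by omega)) z y

/-- The geometric facts used in the energy estimates. -/
structure Geo (a r : ℝ) (G : Surf) : Prop where
  J : ∀ z, 1 / 2 ≤ br G.X G.Y z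
  H : ∀ z, a * r / 2 ≤ br (d1 G.X G.Y G.u) G.Y z
  Wx : ∃ μ : ℝ, |μ| ≤ 21 / 20 ∧ ∀ z : Om,
    |2 * d1 G.X G.Y G.u z * d1 (d1 G.X G.Y G.u) G.Y cx z +
      9 / 10 * G.Y z * d2 (d1 G.X G.Y G.u) G.Y cx z - (2 * (z : P).1 + 11 / 10 * μ * (z : P).2)| ≤
      1 / 1000
  Wy : ∀ z : Om, |2 * d1 G.X G.Y G.u z * d1 (d1 G.X G.Y G.u) G.Y cy z +
      9 / 10 * G.Y z * d2 (d1 G.X G.Y G.u) G.Y cy z - 9 / 10 * (z : P).2| ≤ 1 / 1000
  low : ∀ z : Om, a * r * ‖(z : P)‖ ≤ 2 * |d1 G.X G.Y G.u z| + 3 * (a * r) * |G.Y z|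

theorem Fam.geo (h : Fam π (-1) F) {a : ℝ} (ha : 0 < a)
    (hL : ∀ᶠ i in π.l, a * π.t i ≤ dx (dx (F i).u) o ∧
      |dy (dx (F i).u) o| ≤ 21 / 20 * dx (dx (F i).u) o) : ∀ᶠ i in π.l, Geo a (π.t i) (F i) := by
  have c := h.crd h.Jlow
  have hp := c.d1' h.bux h.buy
  have hnz : ∀ᶠ i in π.l, NZ (br (F i).X (F i).Y) :=
    h.Jlow.mono fun i hi => nz_of_le (by norm_num) hi
  set L : ι → ℝ := fun i => dx (dx (F i).u) o with hLdef
  set m : ι → ℝ := fun i => dy (dx (F i).u) o with hmdef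
  have OL : Ot π 1 L := h.bux.dx.at (fun _ => o)
  have Om' : Ot π 1 m := h.bux.dy.at (fun _ => o)
  have Oμ : Ot π 0 (fun i => m i / L i) := by
    refine (Ot.const π (21 / 20)).of_le ?_
    filter_upwards [hL, π.pos] with i ⟨h1, h2⟩ hp
    have : 0 < L i := lt_of_lt_of_le (by positivity) h1
    rw [abs_div, abs_of_pos this, div_le_iff₀ this]
    exact h2
  have px : Bt π 2 0 2 (fun i => dx (d1 (F i).X (F i).Y (F i).u) - cst (L i)) :=
    hp.dx.taylor' (by filter_upwards [h.nrm, hnz] with i hn _; exact hn.second.1)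
  have py : Bt π 2 0 2 (fun i => dy (d1 (F i).X (F i).Y (F i).u) - cst (m i)) :=
    hp.dy.taylor' (by filter_upwards [h.nrm, hnz] with i hn _; exact hn.second.2.1)
  have Yx : Bt π 2 0 1 (fun i => dx (F i).Y) := by
    have := h.bYx.taylor' (c := fun _ => 0) (h.nrm.mono fun _ hn => hn.Yx)
    have e0 : (cst 0 : Fn) = 0 := rfl
    simp only [e0, sub_zero] at this
    exact this.mono (by omega) le_rfl le_rfl
  have Yy : Bt π 2 0 1 (fun i => dy (F i).Y - cst 1) :=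
    (h.bYy.taylor' (c := fun _ => 1) (h.nrm.mono fun _ hn => hn.Yy)).mono (by omega) le_rfl le_rfl
  have e1 : Bt π 3 0 2 (fun i => d1 (F i).X (F i).Y (F i).u - cst (L i) * cx - cst (m i) * cy) := by
    refine Bt.taylor ?_ ?_ (px.congr ?_) (py.congr ?_)
    · filter_upwards [hp.reg] with i _; show Reg 3 _; infer_instance
    · filter_upwards [h.nrm] with i hn; simp [hn.d1o, hn.ux]
    · filter_upwards [hp.reg] with i _
      simp only [dx_sub, dx_mul, dx_cst, dx_cx, dx_cy]; ring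
    · filter_upwards [hp.reg] with i _
      simp only [dy_sub, dy_mul, dy_cst, dy_cx, dy_cy]; ring
  have e2 : Bt π 3 0 1 (fun i => (F i).Y - cy) := by
    refine Bt.taylor ?_ ?_ (Yx.congr ?_) (Yy.congr ?_)
    · filter_upwards [h.nrm] with i hn; have := hn.rY; show Reg 3 _; infer_instance
    · filter_upwards [h.nrm] with i hn; simp [hn.Y0]
    · filter_upwards [h.nrm] with i hn
      have := hn.rY
      simp only [dx_sub, dx_cy]; ring
    · filter_upwards [h.nrm] with i hn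
      have := hn.rY
      simp only [dy_sub, dy_cy]; rfl
  have Yy0 : Bt π 2 0 0 (fun i => dy (F i).Y) := h.bYy.mono (by omega) (by omega) le_rfl
  have px1 : Bt π 2 0 1 (fun i => dx (d1 (F i).X (F i).Y (F i).u)) :=
    hp.dx.mono le_rfl (by omega) le_rfl
  have py1 : Bt π 2 0 1 (fun i => dy (d1 (F i).X (F i).Y (F i).u)) :=
    hp.dy.mono le_rfl (by omega) le_rfl
  have HL : Bt π 2 0 2 (fun i => br (d1 (F i).X (F i).Y (F i).u) (F i).Y - cst (L i)) := by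
    refine (((px.mul Yy0).add ((Bt.cst OL).mul Yy)).sub (py1.mul Yx)).congr
      (Eventually.of_forall fun i => ?_)
    have : (cst 1 : Fn) = 1 := rfl
    simp only [br, this]; ring
  have Hlow : ∀ᶠ i in π.l, ∀ z, a * π.t i / 2 ≤ br (d1 (F i).X (F i).Y (F i).u) (F i).Y z := by
    filter_upwards [HL.small (e' := 1) (by omega) (half_pos ha), hL] with i h1 h2 z
    have := (abs_le.1 (h1 z)).1
    simp only [Pi.sub_apply, cst_apply, zpow_one] at this
    linarith [h2.1]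
  have Hi : Bt π 2 0 (-1) (fun i => (br (d1 (F i).X (F i).Y (F i).u) (F i).Y)⁻¹) :=
    (Bt.br px1 py1 (Yx.mono le_rfl le_rfl (by omega)) Yy0).inv (half_pos ha) (by
      filter_upwards [Hlow] with i hi z
      have := (hi z).trans (le_abs_self _)
      norm_num; linarith)
  have e1' := e1.mono (k' := 2) (by omega) le_rfl le_rfl
  have e2' := e2.mono (k' := 2) (by omega) le_rfl le_rfl
  have lin := ((Bt.cst OL).mul (Bt.cx (k := 2))).add ((Bt.cst Om').mul Bt.cy)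
  have wx := ((Bt.two (k := 2)).mul Bt.cx).add (((Bt.const (11 / 10)).mul (Bt.cst Oμ)).mul Bt.cy)
  have WX := (((((Bt.two.mul e1').mul' Yy0 (e'' := 2) (by omega)).add
    ((Bt.two.mul lin).mul' Yy (by omega))).sub
    (((Bt.const (9 / 10)).mul e2').mul' py1 (by omega))).sub
    (((Bt.const (9 / 10)).mul Bt.cy).mul' py (by omega))).sub (HL.mul' wx (by omega))
  have pp1 : Bt π 2 0 1 (fun i => d1 (F i).X (F i).Y (F i).u) := by
    refine ((e1'.mono le_rfl le_rfl (by omega)).add lin).congr (Eventually.of_forall fun i => ?_)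
    ring
  have WY := ((((Bt.const (9 / 10)).mul e2').mul' px1 (e'' := 2) (by omega)).sub
    ((Bt.two.mul pp1).mul' Yx (by omega))).add
    (((Bt.const (9 / 10)).mul Bt.cy).mul' (px.sub HL) (by omega))
  obtain ⟨C1, hC1, h1⟩ := e1.lipe
  obtain ⟨C2, hC2, h2⟩ := e2.lipe
  filter_upwards [h.Jlow, Hlow, hL, h.nrm, π.pos, h1, h2,
    (WX.mul Hi).small (e' := 0) (by omega) (show (0 : ℝ) < 1 / 1000 by norm_num),
    (WY.mul Hi).small (e' := 0) (by omega) (show (0 : ℝ) < 1 / 1000 by norm_num),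
    π.tpow_le' (e := 2) (e' := 1) (by omega) C1 (show 0 < a / 10 by positivity),
    π.tpow_le (e := 1) (by omega) C2 (show (0 : ℝ) < 1 / 10 by norm_num)]
    with i hJ hH ⟨l1, l2⟩ hn hp h1 h2 sx sy s1 s2
  have hL0 : 0 < L i := lt_of_lt_of_le (by positivity) l1
  have hH0 : ∀ z, br (d1 (F i).X (F i).Y (F i).u) (F i).Y z ≠ 0 := fun z =>
    (lt_of_lt_of_le (by positivity) (hH z)).ne'
  refine ⟨hJ, hH, ⟨m i / L i, ?_, fun z => ?_⟩, fun z => ?_, fun z => ?_⟩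
  · rw [abs_div, abs_of_pos hL0, div_le_iff₀ hL0]; exact l2
  · have := sx z
    have hz := hH0 z
    rw [zpow_zero, mul_one] at this
    convert this using 2
    generalize d1 (F i).X (F i).Y (F i).u = p at *
    simp only [d1, d2]
    generalize br p (F i).Y = H at *
    simp only [br, dx_cx, dy_cx, Pi.sub_apply, Pi.mul_apply, Pi.add_apply, cst_apply,
      Pi.ofNat_apply, Pi.inv_apply, cx_apply, cy_apply]
    field_simp
    ring
  · have := sy z
    have hz := hH0 z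
    rw [zpow_zero, mul_one] at this
    convert this using 2
    generalize d1 (F i).X (F i).Y (F i).u = p at *
    simp only [d1, d2]
    generalize br p (F i).Y = H at *
    simp only [br, dx_cy, dy_cy, Pi.sub_apply, Pi.mul_apply, Pi.add_apply, cst_apply,
      Pi.ofNat_apply, Pi.inv_apply, cy_apply]
    field_simp
    ring
  · have a1 := h1 z o
    have a2 := h2 z o
    simp only [Pi.sub_apply, Pi.mul_apply, cst_apply, cx_apply, cy_apply, o_val, hn.d1o, hn.ux,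
      hn.Y0, Prod.fst_zero, Prod.snd_zero, mul_zero, sub_zero] at a1 a2
    rw [zpow_one] at s1
    have n0 := norm_nonneg (z : P)
    have a3 : |d1 (F i).X (F i).Y (F i).u z - L i * (z : P).1 - m i * (z : P).2| ≤
        L i / 10 * ‖(z : P)‖ := a1.trans (by gcongr; linarith)
    have a4 : |(F i).Y z - (z : P).2| ≤ 1 / 10 * ‖(z : P)‖ := a2.trans (by gcongr)
    generalize d1 (F i).X (F i).Y (F i).u z = p at *
    generalize (F i).Y z = y at *
    have b1 : |(z : P).2| ≤ |y| + 1 / 10 * ‖(z : P)‖ := by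
      have := abs_sub_abs_le_abs_sub (z : P).2 y
      rw [abs_sub_comm] at this
      linarith
    have b2 : L i * |(z : P).1| ≤ |p| + 21 / 20 * L i * |(z : P).2| + L i / 10 * ‖(z : P)‖ := by
      have q1 : |m i * (z : P).2| ≤ 21 / 20 * L i * |(z : P).2| := by
        rw [abs_mul]; gcongr
      have q2 : L i * |(z : P).1| = |L i * (z : P).1| := by rw [abs_mul, abs_of_pos hL0]
      rw [q2]
      have q3 := abs_le.1 a3
      have q4 := abs_le.1 q1
      rw [abs_le]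
      constructor <;> linarith [q3.1, q3.2, q4.1, q4.2, le_abs_self p, neg_abs_le p]
    have b3 : L i * ‖(z : P)‖ ≤ 2 * |p| + 3 * L i * |y| := by
      have py := abs_nonneg p
      have yy := abs_nonneg y
      have q1 := mul_le_mul_of_nonneg_left b1 hL0.le
      have q2 := mul_nonneg hL0.le yy
      have q3 := mul_nonneg hL0.le n0
      rcases le_total |(z : P).1| |(z : P).2| with hc | hc
      · have : ‖(z : P)‖ = |(z : P).2| := by rw [Prod.norm_def]; exact max_eq_right hc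
        rw [← this] at q1
        linarith
      · have : ‖(z : P)‖ = |(z : P).1| := by rw [Prod.norm_def]; exact max_eq_left hc
        rw [← this] at b2
        linarith
    have ar : 0 < a * π.t i := by positivity
    by_cases hc : ‖(z : P)‖ ≤ 3 * |y|
    · nlinarith [abs_nonneg p]
    · have := mul_le_mul_of_nonneg_right l1 (show 0 ≤ ‖(z : P)‖ - 3 * |y| by linarith)
      linarith

end Vale.Agent.P229
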