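import Vale.Agent.P229.Coord

/-! Pointwise differential identities. -/

namespace Vale.Agent.P229

open scoped ContDiff Topology
open Set Filter

theorem d1_chain (α β γ ε f : Fn) [NZ (br γ ε)] :
    d1 α β f = d1 γ ε f * d1 α β γ + d2 γ ε f * d1 α β ε := by
  have h1 := dx_chain γ ε f
  have h2 := dy_chain γ ε f
  generalize d1 γ ε f = a at *
  generalize d2 γ ε f = b at *
  simp only [d1]
  generalize (br α β)⁻¹ = j
  simp only [br]
  rw [h1, h2]; ring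

theorem d2_chain (α β γ ε f : Fn) [NZ (br γ ε)] :
    d2 α β f = d1 γ ε f * d2 α β γ + d2 γ ε f * d2 α β ε := by
  have h1 := dx_chain γ ε f
  have h2 := dy_chain γ ε f
  generalize d1 γ ε f = a at *
  generalize d2 γ ε f = b at *
  simp only [d2]
  generalize (br α β)⁻¹ = j
  simp only [br]
  rw [h1, h2]; ring

/-- Determinant of the Hessian of `u` in the coordinates `X, Y`. -/
noncomputable def KK (X Y u : Fn) : Fn :=
  d1 X Y (d1 X Y u) * d2 X Y (d2 X Y u) - d2 X Y (d1 X Y u) ^ 2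

/-- The bilinear Monge-Ampere form. -/
noncomputable def MA (X Y u w : Fn) : Fn :=
  d1 X Y (d1 X Y u) * d2 X Y (d2 X Y w) + d2 X Y (d2 X Y u) * d1 X Y (d1 X Y w) -
    2 * d2 X Y (d1 X Y u) * d2 X Y (d1 X Y w)

/-- The operator `D₂ D₂ + D₁ K D₁`. -/
noncomputable def PP (α β K w : Fn) : Fn :=
  d2 α β (d2 α β w) + d1 α β (K * d1 α β w)

instance Reg.KK1 {X Y u : Fn} [Reg 3 X] [Reg 3 Y] [Reg 3 u] [NZ (P229.br X Y)] :
    Reg 1 (KK X Y u) := by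
  unfold KK; infer_instance

instance Reg.KK2 {X Y u : Fn} [Reg 4 X] [Reg 4 Y] [Reg 4 u] [NZ (P229.br X Y)] :
    Reg 2 (KK X Y u) := by
  unfold KK; infer_instance

/-- The linearized Monge-Ampere operator in partial Legendre coordinates. -/
theorem legendre (X Y u w : Fn) [Reg 3 X] [Reg 3 Y] [Reg 3 u] [Reg 2 w] [NZ (br X Y)]
    [NZ (br (d1 X Y u) Y)] :
    br (d1 X Y u) Y * PP (d1 X Y u) Y (KK X Y u) w = br X Y * MA X Y u w := by
  have e1 : ∀ f : Fn, d1 X Y f = d1 (d1 X Y u) Y f * d1 X Y (d1 X Y u) := fun f => by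
    rw [d1_chain X Y (d1 X Y u) Y f, d1_snd]; ring
  have e2 : ∀ f : Fn, d2 X Y f = d1 (d1 X Y u) Y f * d2 X Y (d1 X Y u) + d2 (d1 X Y u) Y f :=
    fun f => by rw [d2_chain X Y (d1 X Y u) Y f, d2_snd]; ring
  have hH := d1_mul_br X Y (d1 X Y u)
  have w1 := congrArg (d1 X Y) (e1 w)
  have w12 := congrArg (d2 X Y) (e1 w)
  have w2 := congrArg (d2 X Y) (e2 w)
  have hK : d1 X Y (KK X Y u) = _ := e1 _
  have hc := d1_d2 (d1 X Y u) Y w
  simp only [d1_mul, d2_mul, d2_add] at w1 w12 w2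
  conv_lhs at hK => simp only [KK, d1_sub, d1_mul, d1_sq, d1_d2]
  rw [e1 (d1 (d1 X Y u) Y w)] at w1
  rw [e2 (d1 (d1 X Y u) Y w)] at w12 w2
  rw [e2 (d2 (d1 X Y u) Y w), hc] at w2
  simp only [PP, MA, d1_mul]
  rw [w1, w12, w2, ← hH]
  simp only [KK] at hK ⊢
  linear_combination (-(br X Y) * d1 (d1 X Y u) Y w) * hK

/-- The multiplier identity. -/
theorem multiplier (α β K w b c : Fn) [Reg 2 α] [Reg 2 β] [Reg 2 w] [Reg 1 K] [Reg 1 b] [Reg 1 c]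
    [NZ (br α β)] :
    2 * (b * d1 α β w + c * d2 α β w) * PP α β K w =
      ((d1 α β b - d2 α β c) * d2 α β w ^ 2 +
        (b * d1 α β K + c * d2 α β K - (d1 α β b - d2 α β c) * K) * d1 α β w ^ 2 -
        2 * (d2 α β b + d1 α β c * K) * (d1 α β w * d2 α β w)) +
      d1 α β (b * (K * d1 α β w ^ 2 - d2 α β w ^ 2) + 2 * c * K * d1 α β w * d2 α β w) +
      d2 α β (2 * b * d1 α β w * d2 α β w + c * (d2 α β w ^ 2 - K * d1 α β w ^ 2)) := by
  simp only [PP, d1_add, d2_add, d1_sub, d2_sub, d1_mul, d2_mul, d1_sq, d2_sq, d1_ofNat, d2_ofNat,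
    d1_d2]
  ring

/-- The Caccioppoli identity. -/
theorem caccio (α β K w θ : Fn) [Reg 2 α] [Reg 2 β] [Reg 2 w] [Reg 1 K] [Reg 1 θ]
    [NZ (br α β)] :
    d2 α β (θ * w) ^ 2 + K * d1 α β (θ * w) ^ 2 =
      w ^ 2 * (d2 α β θ ^ 2 + K * d1 α β θ ^ 2) + d1 α β (θ ^ 2 * w * (K * d1 α β w)) +
        d2 α β (θ ^ 2 * w * d2 α β w) - θ ^ 2 * w * PP α β K w := by
  simp only [PP, d1_mul, d2_mul, d1_sq, d2_sq]
  ring

/-- The identity for the test function. -/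
theorem testid (α β K w χ Φ : Fn) (l : ℝ) [Reg 2 α] [Reg 2 β] [Reg 2 w] [Reg 1 K] [Reg 1 χ]
    [Reg 1 Φ] [NZ (br α β)] (h : d2 α β Φ = cst l * d1 α β Φ) :
    χ * Φ * PP α β K w =
      d1 α β (χ * Φ * ((K + cst l ^ 2) * d1 α β w - cst l * (d2 α β w + cst l * d1 α β w))) +
      d2 α β (χ * Φ * (d2 α β w + cst l * d1 α β w)) -
      Φ * (d2 α β χ - cst l * d1 α β χ) * (d2 α β w + cst l * d1 α β w) -
      d1 α β (χ * Φ) * (K + cst l ^ 2) * d1 α β w := by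
  simp only [PP, d1_add, d2_add, d1_sub, d1_mul, d2_mul, d1_sq, d1_cst, d2_cst, d1_d2, h]
  ring

/-- The curl-curl identity. -/
theorem curlcurl (X Y u ξ η ζ : Fn) [Reg 3 X] [Reg 3 Y] [Reg 3 u] [Reg 3 ξ] [Reg 3 η] [Reg 3 ζ]
    [NZ (br X Y)] :
    d2 X Y (d2 X Y (2 * (d1 X Y ξ + d1 X Y u * d1 X Y ζ))) -
      2 * d1 X Y (d2 X Y (d2 X Y ξ + d1 X Y η + d1 X Y u * d2 X Y ζ + d2 X Y u * d1 X Y ζ)) +
      d1 X Y (d1 X Y (2 * (d2 X Y η + d2 X Y u * d2 X Y ζ))) = -2 * MA X Y u ζ := by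
  simp only [MA, d1_add, d2_add, d1_mul, d2_mul, d1_ofNat, d2_ofNat, d1_d2, zero_mul, add_zero]
  ring

/-- Components of the Euclidean metric of the domain in the coordinates `X, Y`. -/
noncomputable def g11 (X Y : Fn) : Fn := d1 X Y cx ^ 2 + d1 X Y cy ^ 2
/-- Components of the Euclidean metric of the domain in the coordinates `X, Y`. -/
noncomputable def g12 (X Y : Fn) : Fn := d1 X Y cx * d2 X Y cx + d1 X Y cy * d2 X Y cy
/-- Components of the Euclidean metric of the domain in the coordinates `X, Y`. -/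
noncomputable def g22 (X Y : Fn) : Fn := d2 X Y cx ^ 2 + d2 X Y cy ^ 2

theorem d1_xy (X Y f : Fn) : d1 X Y f = d1 X Y cx * dx f + d1 X Y cy * dy f := by
  simp only [d1]
  generalize (br X Y)⁻¹ = j
  simp only [br, dx_cx, dy_cx, dx_cy, dy_cy]; ring

theorem d2_xy (X Y f : Fn) : d2 X Y f = d2 X Y cx * dx f + d2 X Y cy * dy f := by
  simp only [d2]
  generalize (br X Y)⁻¹ = j
  simp only [br, dx_cx, dy_cx, dx_cy, dy_cy]; ring

/-- The symmetric product of `d(X,Y,u)` and `d(ξ,η,ζ)` is `W/2` times the Euclidean metric. -/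
def Lin (X Y u ξ η ζ W : Fn) : Prop :=
  2 * (dx X * dx ξ + dx Y * dx η + dx u * dx ζ) = W ∧
  dx X * dy ξ + dy X * dx ξ + dx Y * dy η + dy Y * dx η + dx u * dy ζ + dy u * dx ζ = 0 ∧
  2 * (dy X * dy ξ + dy Y * dy η + dy u * dy ζ) = W

theorem Lin.h11 {X Y u ξ η ζ W : Fn} [NZ (br X Y)] (h : Lin X Y u ξ η ζ W) :
    2 * (d1 X Y ξ + d1 X Y u * d1 X Y ζ) = W * g11 X Y := by
  obtain ⟨h1, h2, h3⟩ := h
  have hX := d1_fst X Y
  have hY := d1_snd X Y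
  rw [d1_xy] at hX hY
  rw [d1_xy X Y ξ, d1_xy X Y u, d1_xy X Y ζ, g11]
  set a := d1 X Y cx
  set b := d1 X Y cy
  linear_combination a ^ 2 * h1 + 2 * a * b * h2 + b ^ 2 * h3 -
    2 * (a * dx ξ + b * dy ξ) * hX - 2 * (a * dx η + b * dy η) * hY

theorem Lin.h22 {X Y u ξ η ζ W : Fn} [NZ (br X Y)] (h : Lin X Y u ξ η ζ W) :
    2 * (d2 X Y η + d2 X Y u * d2 X Y ζ) = W * g22 X Y := by
  obtain ⟨h1, h2, h3⟩ := h
  have hX := d2_fst X Y
  have hY := d2_snd X Y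
  rw [d2_xy] at hX hY
  rw [d2_xy X Y η, d2_xy X Y u, d2_xy X Y ζ, g22]
  set a := d2 X Y cx
  set b := d2 X Y cy
  linear_combination a ^ 2 * h1 + 2 * a * b * h2 + b ^ 2 * h3 -
    2 * (a * dx ξ + b * dy ξ) * hX - 2 * (a * dx η + b * dy η) * hY

theorem Lin.h12 {X Y u ξ η ζ W : Fn} [NZ (br X Y)] (h : Lin X Y u ξ η ζ W) :
    d2 X Y ξ + d1 X Y η + d1 X Y u * d2 X Y ζ + d2 X Y u * d1 X Y ζ = W * g12 X Y := by
  obtain ⟨h1, h2, h3⟩ := h
  have hX := d1_fst X Y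
  have hY := d1_snd X Y
  have hX' := d2_fst X Y
  have hY' := d2_snd X Y
  rw [d1_xy] at hX hY
  rw [d2_xy] at hX' hY'
  rw [d2_xy X Y ξ, d1_xy X Y η, d1_xy X Y u, d2_xy X Y u, d1_xy X Y ζ, d2_xy X Y ζ, g12]
  set a := d1 X Y cx
  set b := d1 X Y cy
  set c := d2 X Y cx
  set d := d2 X Y cy
  linear_combination a * c * h1 + (a * d + b * c) * h2 + b * d * h3 -
    (c * dx ξ + d * dy ξ) * hX - (c * dx η + d * dy η) * hY -
    (a * dx ξ + b * dy ξ) * hX' - (a * dx η + b * dy η) * hY'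

/-- The curl-curl of the conformal tensor `W g`. -/
noncomputable def CC (X Y W : Fn) : Fn :=
  d2 X Y (d2 X Y (W * g11 X Y)) - 2 * d1 X Y (d2 X Y (W * g12 X Y)) +
    d1 X Y (d1 X Y (W * g22 X Y))

theorem Lin.eq {X Y u ξ η ζ W : Fn} [Reg 3 X] [Reg 3 Y] [Reg 3 u] [Reg 3 ξ] [Reg 3 η] [Reg 3 ζ]
    [NZ (br X Y)] (h : Lin X Y u ξ η ζ W) : CC X Y W = -2 * MA X Y u ζ := by
  rw [CC, ← h.h11, ← h.h12, ← h.h22, curlcurl]

instance {X Y : Fn} [Reg 3 X] [Reg 3 Y] [NZ (br X Y)] : Reg 2 (g11 X Y) := by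
  unfold g11; infer_instance
instance {X Y : Fn} [Reg 3 X] [Reg 3 Y] [NZ (br X Y)] : Reg 2 (g12 X Y) := by
  unfold g12; infer_instance
instance {X Y : Fn} [Reg 3 X] [Reg 3 Y] [NZ (br X Y)] : Reg 2 (g22 X Y) := by
  unfold g22; infer_instance

/-- The adjoint expression. -/
noncomputable def Xi (X Y ψ : Fn) : Fn :=
  d2 X Y (d2 X Y ψ) * g11 X Y - 2 * d2 X Y (d1 X Y ψ) * g12 X Y + d1 X Y (d1 X Y ψ) * g22 X Y

theorem adjoint (X Y W ψ : Fn) [Reg 3 X] [Reg 3 Y] [Reg 2 W] [Reg 2 ψ] [NZ (br X Y)] :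
    ψ * CC X Y W = W * Xi X Y ψ +
      d1 X Y (ψ * d1 X Y (W * g22 X Y) - d1 X Y ψ * (W * g22 X Y) -
        2 * ψ * d2 X Y (W * g12 X Y)) +
      d2 X Y (ψ * d2 X Y (W * g11 X Y) - d2 X Y ψ * (W * g11 X Y) +
        2 * d1 X Y ψ * (W * g12 X Y)) := by
  have e : W * Xi X Y ψ = d2 X Y (d2 X Y ψ) * (W * g11 X Y) -
      2 * d2 X Y (d1 X Y ψ) * (W * g12 X Y) + d1 X Y (d1 X Y ψ) * (W * g22 X Y) := by
    rw [Xi]; ring
  rw [e, CC]
  have i1 : Reg 2 (W * g11 X Y) := inferInstance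
  have i2 : Reg 2 (W * g12 X Y) := inferInstance
  have i3 : Reg 2 (W * g22 X Y) := inferInstance
  generalize W * g11 X Y = h11 at *
  generalize W * g12 X Y = h12 at *
  generalize W * g22 X Y = h22 at *
  simp only [d2_add, d1_sub, d2_sub, d1_mul, d2_mul, d1_ofNat, d2_ofNat]
  ring

theorem Xi_cmp (X Y s : Fn) (φ : ℝ → ℝ) [Smo φ] [Reg 3 X] [Reg 3 Y] [Reg 2 s] [NZ (br X Y)] :
    Xi X Y (cmp φ s) = cmp (deriv (deriv φ)) s * ((dx s ^ 2 + dy s ^ 2) * (br X Y)⁻¹ ^ 2) +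
      cmp (deriv φ) s * Xi X Y s := by
  have h1 := dx_chain X Y s
  have h2 := dy_chain X Y s
  have key : d2 X Y s ^ 2 * g11 X Y - 2 * d2 X Y s * d1 X Y s * g12 X Y +
      d1 X Y s ^ 2 * g22 X Y = (dx s ^ 2 + dy s ^ 2) * (br X Y)⁻¹ ^ 2 := by
    rw [h1, h2]
    generalize d1 X Y s = a
    generalize d2 X Y s = b
    simp only [g11, g12, g22, d1, d2]
    generalize (br X Y)⁻¹ = j
    simp only [br, dx_cx, dy_cx, dx_cy, dy_cy]; ring
  simp only [Xi, d1_cmp, d2_cmp, d1_mul, d2_mul]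
  rw [← key]; ring

theorem Xi_congr (X Y : Fn) {f g : Fn} {z : Om} (h : f =ᶠ[𝓝 z] g) : Xi X Y f z = Xi X Y g z := by
  have h1 := (d1_congr X Y (d1_congr X Y h)).eq_of_nhds
  have h2 := (d2_congr X Y (d1_congr X Y h)).eq_of_nhds
  have h3 := (d2_congr X Y (d2_congr X Y h)).eq_of_nhds
  simp [Xi, h1, h2, h3]

theorem CC_zero (X Y : Fn) {W : Fn} {z : Om} (h : W =ᶠ[𝓝 z] 0) : CC X Y W z = 0 := by
  have e : ∀ g : Fn, W * g =ᶠ[𝓝 z] 0 := fun g => by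
    filter_upwards [h] with w hw
    simp [hw]
  have h1 := (d1_congr X Y (d1_congr X Y (e (g22 X Y)))).eq_of_nhds
  have h2 := (d1_congr X Y (d2_congr X Y (e (g12 X Y)))).eq_of_nhds
  have h3 := (d2_congr X Y (d2_congr X Y (e (g11 X Y)))).eq_of_nhds
  simp only [d1_zero, d2_zero] at h1 h2 h3
  simp [CC, h1, h2, h3]

/-- `(X, Y, u)` is an isometric immersion of `E (dx² + dy²)`. -/
def Iso (X Y u E : Fn) : Prop :=
  dx X ^ 2 + dx Y ^ 2 + dx u ^ 2 = E ∧ dx X * dy X + dx Y * dy Y + dx u * dy u = 0 ∧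
    dy X ^ 2 + dy Y ^ 2 + dy u ^ 2 = E

theorem Iso.lin {X Y u E X' Y' u' E' : Fn} [Reg 1 X] [Reg 1 Y] [Reg 1 u] [Reg 1 X'] [Reg 1 Y']
    [Reg 1 u'] (h : Iso X Y u E) (h' : Iso X' Y' u' E') :
    Lin (cst (1 / 2) * (X + X')) (cst (1 / 2) * (Y + Y')) (cst (1 / 2) * (u + u'))
      (X' - X) (Y' - Y) (u' - u) (E' - E) := by
  obtain ⟨h1, h2, h3⟩ := h
  obtain ⟨h1', h2', h3'⟩ := h'
  have hc : (2 : Fn) * cst (1 / 2) = 1 := by
    funext z; simp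
  simp only [Lin, dx_mul, dy_mul, dx_add, dy_add, dx_sub, dy_sub, dx_cst, dy_cst]
  refine ⟨?_, ?_, ?_⟩
  · linear_combination h1' - h1 + (dx X' ^ 2 + dx Y' ^ 2 + dx u' ^ 2 -
      (dx X ^ 2 + dx Y ^ 2 + dx u ^ 2)) * hc
  · linear_combination (2 * cst (1 / 2)) * h2' - (2 * cst (1 / 2)) * h2
  · linear_combination h3' - h3 + (dy X' ^ 2 + dy Y' ^ 2 + dy u' ^ 2 -
      (dy X ^ 2 + dy Y ^ 2 + dy u ^ 2)) * hc

/-- Theorema egregium, in the form used here. -/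
theorem Iso.egregium {X Y u E : Fn} [Reg 3 X] [Reg 3 Y] [Reg 3 u] [NZ (br X Y)]
    (h : Iso X Y u E) :
    2 * KK X Y u * br X Y ^ 4 = E * (dx E ^ 2 + dy E ^ 2) - E ^ 2 * (dx (dx E) + dy (dy E)) := by
  obtain ⟨h1, h2, h3⟩ := h
  have h1x := congrArg dx h1
  have h1y := congrArg dy h1
  have h2x := congrArg dx h2
  have h2y := congrArg dy h2
  have h3x := congrArg dx h3
  have h3y := congrArg dy h3
  simp only [dx_add, dy_add, dx_mul, dy_mul, dx_sq, dy_sq, dx_dy, dx_zero, dy_zero]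
    at h1x h1y h2x h2y h3x h3y
  have h1yy := congrArg dy h1y
  have h2xy := congrArg dy h2x
  have h3xx := congrArg dx h3x
  simp only [dx_add, dy_add, dx_mul, dy_mul, dx_dy, dy_zero, dx_ofNat, dy_ofNat]
    at h1yy h2xy h3xx
  have cx1 := dx_chain X Y u
  have cy1 := dy_chain X Y u
  have cxx := congrArg dx cx1
  have cxy := congrArg dy cx1
  have cyy := congrArg dy cy1
  simp only [dx_add, dy_add, dx_mul, dy_mul] at cxx cxy cyy
  rw [dx_chain X Y (d1 X Y u), dx_chain X Y (d2 X Y u)] at cxx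
  rw [dy_chain X Y (d1 X Y u), dy_chain X Y (d2 X Y u)] at cxy cyy
  rw [d1_d2] at cxx cxy cyy
  have hp := d1_mul_br X Y u
  have hq := d2_mul_br X Y u
  simp only [KK]
  generalize d1 X Y (d1 X Y u) = u11 at *
  generalize d2 X Y (d1 X Y u) = u12 at *
  generalize d2 X Y (d2 X Y u) = u22 at *
  generalize d1 X Y u = p at *
  generalize d2 X Y u = q at *
  simp only [br] at *
  -- dot products
  have axx : 2 * (dx (dx X) * dx X + dx (dx Y) * dx Y + dx (dx u) * dx u) = dx E := by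
    linear_combination h1x
  have axy : 2 * (dx (dx X) * dy X + dx (dx Y) * dy Y + dx (dx u) * dy u) = -dy E := by
    linear_combination 2 * h2x - h1y
  have bx : 2 * (dy (dx X) * dx X + dy (dx Y) * dx Y + dy (dx u) * dx u) = dy E := by
    linear_combination h1y
  have by' : 2 * (dy (dx X) * dy X + dy (dx Y) * dy Y + dy (dx u) * dy u) = dx E := by
    linear_combination h3x
  have ccx : 2 * (dy (dy X) * dx X + dy (dy Y) * dx Y + dy (dy u) * dx u) = -dx E := by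
    linear_combination 2 * h2y - h3x
  have ccy : 2 * (dy (dy X) * dy X + dy (dy Y) * dy Y + dy (dy u) * dy u) = dy E := by
    linear_combination h3y
  have acb : 2 * ((dx (dx X) * dy (dy X) + dx (dx Y) * dy (dy Y) + dx (dx u) * dy (dy u)) -
      (dy (dx X) ^ 2 + dy (dx Y) ^ 2 + dy (dx u) ^ 2)) = -(dx (dx E) + dy (dy E)) := by
    linear_combination 2 * h2xy - h1yy - h3xx
  set J := dx X * dy Y - dy X * dx Y with hJ
  -- normal components
  have na : J * (u11 * dx X ^ 2 + 2 * u12 * dx X * dx Y + u22 * dx Y ^ 2) =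
      dx (dx X) * (dx Y * dy u - dx u * dy Y) + dx (dx Y) * (dx u * dy X - dx X * dy u) +
        dx (dx u) * J := by
    linear_combination (-J) * cxx - dx (dx X) * hp - dx (dx Y) * hq
  have nb : J * (u11 * dx X * dy X + u12 * (dx X * dy Y + dy X * dx Y) + u22 * dx Y * dy Y) =
      dy (dx X) * (dx Y * dy u - dx u * dy Y) + dy (dx Y) * (dx u * dy X - dx X * dy u) +
        dy (dx u) * J := by
    linear_combination (-J) * cxy - dy (dx X) * hp - dy (dx Y) * hq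
  have nc : J * (u11 * dy X ^ 2 + 2 * u12 * dy X * dy Y + u22 * dy Y ^ 2) =
      dy (dy X) * (dx Y * dy u - dx u * dy Y) + dy (dy Y) * (dx u * dy X - dx X * dy u) +
        dy (dy u) * J := by
    linear_combination (-J) * cyy - dy (dy X) * hp - dy (dy Y) * hq
  have e1 : (u11 * u22 - u12 ^ 2) * J ^ 4 =
      (J * (u11 * dx X ^ 2 + 2 * u12 * dx X * dx Y + u22 * dx Y ^ 2)) *
        (J * (u11 * dy X ^ 2 + 2 * u12 * dy X * dy Y + u22 * dy Y ^ 2)) -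
      (J * (u11 * dx X * dy X + u12 * (dx X * dy Y + dy X * dx Y) + u22 * dx Y * dy Y)) ^ 2 := by
    rw [hJ]; ring
  rw [na, nb, nc] at e1
  have e2 : 4 * ((u11 * u22 - u12 ^ 2) * J ^ 4) =
      2 * (2 * ((dx (dx X) * dy (dy X) + dx (dx Y) * dy (dy Y) + dx (dx u) * dy (dy u)) -
        (dy (dx X) ^ 2 + dy (dx Y) ^ 2 + dy (dx u) ^ 2))) *
        ((dx X ^ 2 + dx Y ^ 2 + dx u ^ 2) * (dy X ^ 2 + dy Y ^ 2 + dy u ^ 2) -
          (dx X * dy X + dx Y * dy Y + dx u * dy u) ^ 2) -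
      ((2 * (dx (dx X) * dx X + dx (dx Y) * dx Y + dx (dx u) * dx u)) *
          (2 * (dy (dy X) * dx X + dy (dy Y) * dx Y + dy (dy u) * dx u)) -
        (2 * (dy (dx X) * dx X + dy (dx Y) * dx Y + dy (dx u) * dx u)) ^ 2) *
        (dy X ^ 2 + dy Y ^ 2 + dy u ^ 2) -
      ((2 * (dx (dx X) * dy X + dx (dx Y) * dy Y + dx (dx u) * dy u)) *
          (2 * (dy (dy X) * dy X + dy (dy Y) * dy Y + dy (dy u) * dy u)) -
        (2 * (dy (dx X) * dy X + dy (dx Y) * dy Y + dy (dx u) * dy u)) ^ 2) *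
        (dx X ^ 2 + dx Y ^ 2 + dx u ^ 2) +
      ((2 * (dx (dx X) * dx X + dx (dx Y) * dx Y + dx (dx u) * dx u)) *
          (2 * (dy (dy X) * dy X + dy (dy Y) * dy Y + dy (dy u) * dy u)) +
        (2 * (dx (dx X) * dy X + dx (dx Y) * dy Y + dx (dx u) * dy u)) *
          (2 * (dy (dy X) * dx X + dy (dy Y) * dx Y + dy (dy u) * dx u)) -
        2 * (2 * (dy (dx X) * dx X + dy (dx Y) * dx Y + dy (dx u) * dx u)) *
          (2 * (dy (dx X) * dy X + dy (dx Y) * dy Y + dy (dx u) * dy u))) *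
        (dx X * dy X + dx Y * dy Y + dx u * dy u) := by
    rw [e1, hJ]; ring
  rw [axx, axy, bx, by', ccx, ccy, acb, h1, h2, h3] at e2
  funext z
  have := congrFun e2 z
  simp only [Pi.mul_apply, Pi.add_apply, Pi.sub_apply, Pi.pow_apply, Pi.neg_apply,
    Pi.ofNat_apply] at this ⊢
  linear_combination this / 2

/-- Second derivatives of the Hessian determinant. -/
theorem KK_11 (X Y u : Fn) [Reg 4 X] [Reg 4 Y] [Reg 4 u] [NZ (br X Y)] :
    d1 X Y (d1 X Y (KK X Y u)) =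
      2 * (d1 X Y (d1 X Y (d1 X Y u)) * d2 X Y (d2 X Y (d1 X Y u)) -
        d2 X Y (d1 X Y (d1 X Y u)) ^ 2) +
      (d1 X Y (d1 X Y (d1 X Y (d1 X Y u))) * d2 X Y (d2 X Y u) +
        d1 X Y (d1 X Y u) * d2 X Y (d2 X Y (d1 X Y (d1 X Y u))) -
        2 * d2 X Y (d1 X Y u) * d2 X Y (d1 X Y (d1 X Y (d1 X Y u)))) := by
  simp only [KK, d1_add, d1_sub, d1_mul, d1_sq, d1_ofNat, d1_d2]
  ring

theorem KK_22 (X Y u : Fn) [Reg 4 X] [Reg 4 Y] [Reg 4 u] [NZ (br X Y)] :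
    d2 X Y (d2 X Y (KK X Y u)) =
      2 * (d2 X Y (d1 X Y (d1 X Y u)) * d2 X Y (d2 X Y (d2 X Y u)) -
        d2 X Y (d2 X Y (d1 X Y u)) ^ 2) +
      (d2 X Y (d2 X Y (d1 X Y (d1 X Y u))) * d2 X Y (d2 X Y u) +
        d1 X Y (d1 X Y u) * d2 X Y (d2 X Y (d2 X Y (d2 X Y u))) -
        2 * d2 X Y (d1 X Y u) * d2 X Y (d2 X Y (d2 X Y (d1 X Y u)))) := by
  simp only [KK, d2_add, d2_sub, d2_mul, d2_sq, d2_ofNat]
  ring

theorem KK_12 (X Y u : Fn) [Reg 4 X] [Reg 4 Y] [Reg 4 u] [NZ (br X Y)] :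
    d2 X Y (d1 X Y (KK X Y u)) =
      (d1 X Y (d1 X Y (d1 X Y u)) * d2 X Y (d2 X Y (d2 X Y u)) -
        d2 X Y (d1 X Y (d1 X Y u)) * d2 X Y (d2 X Y (d1 X Y u))) +
      (d2 X Y (d1 X Y (d1 X Y (d1 X Y u))) * d2 X Y (d2 X Y u) +
        d1 X Y (d1 X Y u) * d2 X Y (d2 X Y (d2 X Y (d1 X Y u))) -
        2 * d2 X Y (d1 X Y u) * d2 X Y (d2 X Y (d1 X Y (d1 X Y u)))) := by
  simp only [KK, d2_add, d1_sub, d2_sub, d1_mul, d2_mul, d1_sq, d2_ofNat, d1_d2]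
  ring

/-- The Hessian covariant of a binary cubic form is never positive definite. -/
theorem cubic_hessian (A B C D : ℝ) (hP : 0 < A * C - B ^ 2) :
    4 * (A * C - B ^ 2) * (B * D - C ^ 2) ≤ (A * D - B * C) ^ 2 := by
  have hA : A ≠ 0 := by
    rintro rfl
    nlinarith [sq_nonneg B]
  have hA2 : 0 < A ^ 2 := by positivity
  have key : A ^ 2 * ((A * D - B * C) ^ 2 - 4 * (A * C - B ^ 2) * (B * D - C ^ 2)) =
      (A * (A * D - B * C) - 2 * B * (A * C - B ^ 2)) ^ 2 + 4 * (A * C - B ^ 2) ^ 3 := by ring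
  have h3 : 0 ≤ A ^ 2 * ((A * D - B * C) ^ 2 - 4 * (A * C - B ^ 2) * (B * D - C ^ 2)) := by
    rw [key]; positivity
  have := (mul_nonneg_iff_of_pos_left hA2).1 h3
  linarith

end Vale.Agent.P229
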