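import Vale.Agent.P229.Bound

/-! Integration over a compact square inside `Om`; the divergence theorem for functions vanishing
near the boundary. -/

namespace Vale.Agent.P229

open scoped ContDiff Topology
open Set Filter MeasureTheory

/-- The compact square of integration. -/
def Kc : Set P := Metric.closedBall 0 (11 / 8)

theorem Kc_sub : Kc ⊆ Om := Metric.closedBall_subset_ball (by norm_num)

theorem mem_Kc {z : P} : z ∈ Kc ↔ ‖z‖ ≤ 11 / 8 := by simp [Kc]

theorem isCompact_Kc : IsCompact Kc := isCompact_closedBall _ _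

theorem meas_Kc : MeasurableSet Kc := isCompact_Kc.isClosed.measurableSet

/-- The integral. -/
noncomputable def I (f : Fn) : ℝ := ∫ z in Kc, ext f z

/-- `f` vanishes near the boundary. -/
def Van (f : Fn) : Prop := ∀ z : Om, 27 / 20 ≤ ‖(z : P)‖ → f z = 0

theorem Reg.integrableOn {f : Fn} (hf : Reg 0 f) : IntegrableOn (ext f) Kc :=
  (hf.out.continuousOn.mono Kc_sub).integrableOn_compact isCompact_Kc

theorem I_congr_plain {f : Fn} {g : P → ℝ} (h : ∀ w : Om, f w = g w) : I f = ∫ z in Kc, g z :=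
  setIntegral_congr_fun meas_Kc (fun _ hz => ext_eqOn h (Kc_sub hz))

theorem I_add (f g : Fn) [hf : Reg 0 f] [hg : Reg 0 g] : I (f + g) = I f + I g := by
  rw [I_congr_plain (g := fun z => ext f z + ext g z) (fun w => by simp),
    integral_add hf.integrableOn hg.integrableOn]
  rfl

theorem I_sub (f g : Fn) [hf : Reg 0 f] [hg : Reg 0 g] : I (f - g) = I f - I g := by
  rw [I_congr_plain (g := fun z => ext f z - ext g z) (fun w => by simp),
    integral_sub hf.integrableOn hg.integrableOn]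
  rfl

theorem I_cmul (c : ℝ) (f : Fn) : I (cst c * f) = c * I f := by
  rw [I_congr_plain (g := fun z => c * ext f z) (fun w => by simp), integral_const_mul]
  rfl

theorem I_two_mul (f : Fn) : I (2 * f) = 2 * I f := I_cmul 2 f

theorem I_mono {f g : Fn} [hf : Reg 0 f] [hg : Reg 0 g] (h : ∀ z, f z ≤ g z) : I f ≤ I g :=
  setIntegral_mono_on hf.integrableOn hg.integrableOn meas_Kc (fun z hz => by
    rw [ext_of_mem f (Kc_sub hz), ext_of_mem g (Kc_sub hz)]; exact h _)

theorem I_nonneg {f : Fn} (h : ∀ z, 0 ≤ f z) : 0 ≤ I f :=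
  setIntegral_nonneg meas_Kc (fun z hz => by rw [ext_of_mem f (Kc_sub hz)]; exact h _)

theorem vol_closedBall (c : P) {ρ : ℝ} (hρ : 0 ≤ ρ) :
    (volume : Measure P).real (Metric.closedBall c ρ) = 4 * ρ ^ 2 := by
  obtain ⟨a, b⟩ := c
  rw [← closedBall_prod_same, Measure.real, Measure.volume_eq_prod, Measure.prod_prod,
    Real.volume_closedBall, Real.volume_closedBall, ENNReal.toReal_mul,
    ENNReal.toReal_ofReal (by positivity)]
  ring

theorem int_indicator (c : P) {ρ : ℝ} (hρ : 0 ≤ ρ) (s : ℝ) (hs : 0 ≤ s) :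
    ∫ z in Kc, (Metric.closedBall c ρ).indicator (fun _ => s) z ≤ 4 * ρ ^ 2 * s := by
  have hm : MeasurableSet (Metric.closedBall c ρ) := Metric.isClosed_closedBall.measurableSet
  have hfin : volume (Metric.closedBall c ρ) < ⊤ := (isCompact_closedBall c ρ).measure_lt_top
  have hi : Integrable ((Metric.closedBall c ρ).indicator (fun _ => s)) (volume : Measure P) :=
    (integrable_indicator_iff hm).2 (integrableOn_const hfin.ne)
  calc ∫ z in Kc, (Metric.closedBall c ρ).indicator (fun _ => s) z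
      ≤ ∫ z, (Metric.closedBall c ρ).indicator (fun _ => s) z :=
        setIntegral_le_integral hi (Eventually.of_forall fun z => indicator_nonneg (fun _ _ => hs) z)
    _ = 4 * ρ ^ 2 * s := by
        rw [integral_indicator_const _ hm, vol_closedBall c hρ, smul_eq_mul]

theorem indicator_integrableOn (c : P) (ρ s : ℝ) :
    IntegrableOn ((Metric.closedBall c ρ).indicator (fun _ => s)) Kc := by
  have hm : MeasurableSet (Metric.closedBall c ρ) := Metric.isClosed_closedBall.measurableSet
  have hfin : volume (Metric.closedBall c ρ) < ⊤ := (isCompact_closedBall c ρ).measure_lt_top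
  exact ((integrable_indicator_iff hm).2 (integrableOn_const hfin.ne)).integrableOn

/-- Upper bound with a term supported in a small ball. -/
theorem I_le_ball {f g : Fn} [hf : Reg 0 f] [hg : Reg 0 g] {ρ s : ℝ} (hρ : 0 ≤ ρ) (hs : 0 ≤ s)
    (h1 : ∀ z : Om, ‖(z : P)‖ ≤ ρ → f z ≤ g z + s) (h2 : ∀ z : Om, ρ < ‖(z : P)‖ → f z ≤ g z) :
    I f ≤ I g + 4 * ρ ^ 2 * s := by
  have := int_indicator 0 hρ s hs
  calc I f ≤ ∫ z in Kc, (ext g z + (Metric.closedBall (0 : P) ρ).indicator (fun _ => s) z) := by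
        refine setIntegral_mono_on hf.integrableOn
          (hg.integrableOn.add (indicator_integrableOn 0 ρ s)) meas_Kc (fun z hz => ?_)
        rw [ext_of_mem f (Kc_sub hz), ext_of_mem g (Kc_sub hz)]
        by_cases h : ‖z‖ ≤ ρ
        · rw [indicator_of_mem (by simpa using h)]; exact h1 ⟨z, Kc_sub hz⟩ h
        · rw [indicator_of_notMem (by simpa using h), add_zero]
          exact h2 ⟨z, Kc_sub hz⟩ (not_le.1 h)
    _ = I g + ∫ z in Kc, (Metric.closedBall (0 : P) ρ).indicator (fun _ => s) z :=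
        integral_add hg.integrableOn (indicator_integrableOn 0 ρ s)
    _ ≤ _ := by linarith

theorem I_zero : I 0 = 0 := by
  rw [I_congr_plain (g := fun _ => 0) (fun w => by simp)]; simp

theorem I_neg (f : Fn) : I (-f) = -I f := by
  rw [I_congr_plain (g := fun z => -ext f z) (fun w => by simp), integral_neg]
  rfl

theorem I_le_const {f : Fn} [hf : Reg 0 f] {s : ℝ} (h : ∀ z, f z ≤ s) (hs : 0 ≤ s) :
    I f ≤ 8 * s := by
  have := I_le_ball (f := f) (g := 0) (ρ := 7 / 5) (by norm_num) hs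
    (fun z _ => by simpa using h z) (fun z hz => absurd (norm_le_Om z) (not_le.2 hz))
  rw [I_zero] at this
  nlinarith

/-- Weighted arithmetic-geometric mean bound for a function supported in a small ball. -/
theorem I_abs_le {f g : Fn} [hf : Reg 0 f] [hg : Reg 0 g] {ρ a w : ℝ} (hρ : 0 ≤ ρ) (ha : 0 ≤ a)
    (hw : 0 < w) (hg0 : ∀ z, 0 ≤ g z) (h1 : ∀ z, f z ^ 2 ≤ a ^ 2 * g z)
    (h2 : ∀ z : Om, ρ < ‖(z : P)‖ → f z = 0) :
    |I f| ≤ a / w * I g + 4 * ρ ^ 2 * (a * w) := by
  have key : ∀ z, |f z| ≤ a / w * g z + a * w := by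
    intro z
    have h3 : 0 ≤ a / w * g z + a * w := by have := hg0 z; positivity
    refine abs_le_of_sq_le_sq' ?_ h3 |> fun h => abs_le.2 h
    have h4 : (a / w * g z + a * w) ^ 2 = (a / w * g z - a * w) ^ 2 + 4 * (a ^ 2 * g z) := by
      field_simp; ring
    have := hg0 z
    have : 0 ≤ a ^ 2 * g z := by positivity
    nlinarith [h1 z, sq_nonneg (a / w * g z - a * w)]
  have e : I (cst (a / w) * g) = a / w * I g := I_cmul _ _
  rw [abs_le, ← e]
  constructor
  · have := I_le_ball (f := -f) (g := cst (a / w) * g) hρ (s := a * w) (by positivity)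
      (fun z _ => by simpa using (neg_le_abs _).trans (key z))
      (fun z hz => by have := hg0 z; simp [h2 z hz]; positivity)
    rw [I_neg] at this
    linarith
  · exact I_le_ball hρ (by positivity) (fun z _ => by simpa using (le_abs_self _).trans (key z))
      (fun z hz => by have := hg0 z; simp [h2 z hz]; positivity)

theorem I_ge_ball {f : Fn} [hf : Reg 0 f] (c : P) {ρ s : ℝ} (hρ : 0 ≤ ρ)
    (hc : ‖c‖ + ρ ≤ 11 / 8) (h0 : ∀ z, 0 ≤ f z)
    (h1 : ∀ z : Om, ‖(z : P) - c‖ ≤ ρ → s ≤ f z) : 4 * ρ ^ 2 * s ≤ I f := by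
  have hm : MeasurableSet (Metric.closedBall c ρ) := Metric.isClosed_closedBall.measurableSet
  have hsub : Metric.closedBall c ρ ⊆ Kc := by
    intro z hz
    rw [mem_Kc]
    have : ‖z - c‖ ≤ ρ := by simpa [dist_eq_norm] using hz
    calc ‖z‖ = ‖(z - c) + c‖ := by simp
      _ ≤ ‖z - c‖ + ‖c‖ := norm_add_le _ _
      _ ≤ _ := by linarith
  calc 4 * ρ ^ 2 * s = ∫ z in Kc, (Metric.closedBall c ρ).indicator (fun _ => s) z := by
        rw [setIntegral_indicator hm, inter_eq_self_of_subset_right hsub, setIntegral_const,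
          vol_closedBall c hρ, smul_eq_mul]
    _ ≤ I f := by
        refine setIntegral_mono_on (indicator_integrableOn c ρ s) hf.integrableOn meas_Kc
          (fun z hz => ?_)
        rw [ext_of_mem f (Kc_sub hz)]
        by_cases h : z ∈ Metric.closedBall c ρ
        · rw [indicator_of_mem h]
          exact h1 ⟨z, Kc_sub hz⟩ (by simpa [dist_eq_norm] using h)
        · rw [indicator_of_notMem h]; exact h0 _

theorem Van.ext_zero {f : Fn} (hv : Van f) {z : P} (hz : 27 / 20 ≤ ‖z‖) : ext f z = 0 := by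
  by_cases h : z ∈ Om
  · rw [ext_of_mem f h]; exact hv ⟨z, h⟩ hz
  · exact ext_of_not_mem f h

theorem Van.ext_ev {f : Fn} (hv : Van f) {z : P} (hz : 27 / 20 < ‖z‖) :
    ext f =ᶠ[𝓝 z] fun _ => 0 := by
  have : ∀ᶠ w in 𝓝 z, 27 / 20 < ‖w‖ := (continuous_norm.continuousAt.eventually (lt_mem_nhds hz))
  filter_upwards [this] with w hw
  exact hv.ext_zero hw.le

theorem Van.contDiff {k : ℕ} {f : Fn} (hv : Van f) (hf : Reg k f) : ContDiff ℝ k (ext f) := by
  rw [contDiff_iff_contDiffAt]
  intro z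
  by_cases h : z ∈ Om
  · exact hf.contDiffAt ⟨z, h⟩
  · have hz : 27 / 20 < ‖z‖ := by
      rw [mem_Om] at h; linarith [not_lt.1 h]
    exact contDiffAt_const.congr_of_eventuallyEq (hv.ext_ev hz)

theorem Van.compact {f : Fn} (hv : Van f) : HasCompactSupport (ext f) := by
  refine HasCompactSupport.intro isCompact_Kc (fun z hz => hv.ext_zero ?_)
  rw [mem_Kc] at hz; linarith [not_le.1 hz]

theorem Van.fderiv_zero {f : Fn} (hv : Van f) {z : P} (hz : z ∉ Kc) : fderiv ℝ (ext f) z = 0 := by
  rw [mem_Kc] at hz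
  rw [(hv.ext_ev (by linarith [not_le.1 hz])).fderiv_eq]
  simp

theorem I_dd {f : Fn} [hf : Reg 1 f] (hv : Van f) (v : P) : I (dd v f) = 0 := by
  have h1 : ContDiff ℝ 1 (ext f) := by simpa using hv.contDiff hf
  rw [I_congr_plain (f := dd v f) (g := fun z => fderiv ℝ (ext f) z v) (fun _ => rfl),
    setIntegral_eq_integral_of_forall_compl_eq_zero (fun z hz => by simp [hv.fderiv_zero hz])]
  have hc : Continuous (fun z => fderiv ℝ (ext f) z v) :=
    (h1.continuous_fderiv (by simp)).clm_apply continuous_const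
  have hcs : HasCompactSupport (fun z => fderiv ℝ (ext f) z v) :=
    HasCompactSupport.intro isCompact_Kc (fun z hz => by simp [hv.fderiv_zero hz])
  have := integral_mul_fderiv_eq_neg_fderiv_mul_of_integrable (μ := (volume : Measure P))
    (f := fun _ => (1 : ℝ)) (g := ext f) (v := v) (by simp)
    (by simpa using hc.integrable_of_hasCompactSupport hcs)
    (by simpa using h1.continuous.integrable_of_hasCompactSupport hv.compact)
    (by simp) (fun x _ => h1.differentiable (by simp) x)
  simpa using this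

theorem I_dx {f : Fn} [Reg 1 f] (hv : Van f) : I (dx f) = 0 := I_dd hv _
theorem I_dy {f : Fn} [Reg 1 f] (hv : Van f) : I (dy f) = 0 := I_dd hv _

theorem Van.mul_right {f : Fn} (hv : Van f) (g : Fn) : Van (f * g) := fun z hz => by
  simp [hv z hz]

theorem Van.mul_left {f : Fn} (hv : Van f) (g : Fn) : Van (g * f) := fun z hz => by
  simp [hv z hz]

theorem I_d1 (α β : Fn) {f : Fn} [Reg 1 f] [Reg 2 β] [NZ (br α β)] (hv : Van f) :
    I (d1 α β f * br α β) = 0 := by
  rw [d1_mul_br, br_left_div, I_sub, I_dx (hv.mul_right _), I_dy (hv.mul_right _), sub_zero]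

theorem I_d2 (α β : Fn) {f : Fn} [Reg 1 f] [Reg 2 α] [NZ (br α β)] (hv : Van f) :
    I (d2 α β f * br α β) = 0 := by
  rw [d2_mul_br, br_right_div, I_sub, I_dy (hv.mul_right _), I_dx (hv.mul_right _), sub_zero]

theorem Van.I_eq {f : Fn} (hv : Van f) (G : ℝ → ℝ) (hG : G 0 = 0) :
    I (cmp G f) = ∫ z, G (ext f z) := by
  rw [I_congr_plain (g := fun z => G (ext f z)) (fun w => by simp)]
  refine setIntegral_eq_integral_of_forall_compl_eq_zero (fun z hz => ?_)
  rw [mem_Kc] at hz
  rw [hv.ext_zero (by linarith [not_le.1 hz]), hG]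

theorem Van.I_grad {f : Fn} (hv : Van f) :
    I (dx f ^ 2 + dy f ^ 2) =
      ∫ z, (fderiv ℝ (ext f) z (1, 0) ^ 2 + fderiv ℝ (ext f) z (0, 1) ^ 2) := by
  rw [I_congr_plain (g := fun z => fderiv ℝ (ext f) z (1, 0) ^ 2 + fderiv ℝ (ext f) z (0, 1) ^ 2)
    (fun w => by simp [dx, dy, dd])]
  exact setIntegral_eq_integral_of_forall_compl_eq_zero (fun z hz => by simp [hv.fderiv_zero hz])

end Vale.Agent.P229
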