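import Vale.Agent.P229.Pert

/-! Normalization of an immersion by a rigid motion, a reflection and a swap of coordinates. -/

namespace Vale.Agent.P229

open scoped ContDiff Topology
open Set Filter

set_option synthInstance.maxSize 2000

theorem dx_res (g : P → ℝ) : dx (res g) = res (fun z => fderiv ℝ g z (1, 0)) :=
  funext fun z => dd_res g _ z

theorem dy_res (g : P → ℝ) : dy (res g) = res (fun z => fderiv ℝ g z (0, 1)) :=
  funext fun z => dd_res g _ z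

theorem pd_bound {g : P → ℝ} {k j : ℕ} (hg : ContDiff ℝ (k + 1 : ℕ) g) (hj : j ≤ k) (v : P)
    (hv : ‖v‖ ≤ 1) (z : P) :
    ‖iteratedFDeriv ℝ j (fun z => fderiv ℝ g z v) z‖ ≤ ‖iteratedFDeriv ℝ (j + 1) g z‖ := by
  have h1 : ContDiff ℝ k (fderiv ℝ g) := hg.fderiv_right (by simp)
  have h2 := norm_iteratedFDeriv_clm_apply_const (c := v) (x := z) (n := j) h1.contDiffAt
    (by exact_mod_cast hj)
  rw [norm_iteratedFDeriv_fderiv] at h2
  exact h2.trans (mul_le_of_le_one_left (norm_nonneg _) hv)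

theorem pd_contDiff {g : P → ℝ} {k : ℕ} (hg : ContDiff ℝ (k + 1 : ℕ) g) (v : P) :
    ContDiff ℝ k (fun z => fderiv ℝ g z v) :=
  (hg.fderiv_right (by simp)).clm_apply contDiff_const

theorem B_res {k : ℕ} {ν s : ℝ} {g : P → ℝ} (hg : ContDiff ℝ k g)
    (h : ∀ j : ℕ, j ≤ k → ∀ z, ‖iteratedFDeriv ℝ j g z‖ ≤ s * ν ^ j) : B k ν s (res g) := by
  have key : ∀ {s : ℝ} {g : P → ℝ}, (∀ z, ‖iteratedFDeriv ℝ 0 g z‖ ≤ s * ν ^ 0) →
      ∀ z : Om, |res g z| ≤ s := fun h z => by simpa using h z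
  induction k generalizing s g with
  | zero => exact key (h 0 le_rfl)
  | succ k ih =>
    refine ⟨key (h 0 (by omega)), ?_, ?_⟩
    · rw [dx_res]
      refine ih (pd_contDiff hg _) (fun j hj z => (pd_bound hg hj _ (by simp) z).trans ?_)
      rw [mul_assoc, ← pow_succ']; exact h _ (by omega) z
    · rw [dy_res]
      refine ih (pd_contDiff hg _) (fun j hj z => (pd_bound hg hj _ (by simp) z).trans ?_)
      rw [mul_assoc, ← pow_succ']; exact h _ (by omega) z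

theorem B_res_d {M r : ℝ} {g : P → ℝ} (hg : ContDiff ℝ 4 g)
    (h : ∀ j : ℕ, 1 ≤ j → j ≤ 4 → ∀ z, ‖iteratedFDeriv ℝ j g z‖ ≤ M * r ^ (j - 1)) :
    B 3 r M (dx (res g)) ∧ B 3 r M (dy (res g)) := by
  have hg' : ContDiff ℝ (3 + 1 : ℕ) g := hg
  rw [dx_res, dy_res]
  exact ⟨B_res (pd_contDiff hg' _) (fun j hj z => (pd_bound hg' hj _ (by simp) z).trans
      (h (j + 1) (by omega) (by omega) z)),
    B_res (pd_contDiff hg' _) (fun j hj z => (pd_bound hg' hj _ (by simp) z).trans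
      (h (j + 1) (by omega) (by omega) z))⟩

theorem frame {a1 a2 a3 b1 b2 b3 : ℝ} (ha : a1 ^ 2 + a2 ^ 2 + a3 ^ 2 = 1)
    (hab : a1 * b1 + a2 * b2 + a3 * b3 = 0) (hb : b1 ^ 2 + b2 ^ 2 + b3 ^ 2 = 1)
    (v1 v2 v3 w1 w2 w3 : ℝ) :
    (a1 * v1 + a2 * v2 + a3 * v3) * (a1 * w1 + a2 * w2 + a3 * w3) +
      (b1 * v1 + b2 * v2 + b3 * v3) * (b1 * w1 + b2 * w2 + b3 * w3) +
      ((a2 * b3 - a3 * b2) * v1 + (a3 * b1 - a1 * b3) * v2 + (a1 * b2 - a2 * b1) * v3) *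
        ((a2 * b3 - a3 * b2) * w1 + (a3 * b1 - a1 * b3) * w2 + (a1 * b2 - a2 * b1) * w3) =
      v1 * w1 + v2 * w2 + v3 * w3 := by
  linear_combination ((b1 ^ 2 + b2 ^ 2 + b3 ^ 2) * (v1 * w1 + v2 * w2 + v3 * w3) -
      (b1 * v1 + b2 * v2 + b3 * v3) * (b1 * w1 + b2 * w2 + b3 * w3)) * ha +
    ((v1 * w1 + v2 * w2 + v3 * w3) -
      (a1 * v1 + a2 * v2 + a3 * v3) * (a1 * w1 + a2 * w2 + a3 * w3)) * hb +
    (-(a1 * b1 + a2 * b2 + a3 * b3) * (v1 * w1 + v2 * w2 + v3 * w3) +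
      (a1 * v1 + a2 * v2 + a3 * v3) * (b1 * w1 + b2 * w2 + b3 * w3) +
      (b1 * v1 + b2 * v2 + b3 * v3) * (a1 * w1 + a2 * w2 + a3 * w3)) * hab

/-- A linear combination vanishing at the origin. -/
noncomputable def comb (c1 c2 c3 : ℝ) (f1 f2 f3 : Fn) : Fn :=
  cst c1 * (f1 - cst (f1 o)) + cst c2 * (f2 - cst (f2 o)) + cst c3 * (f3 - cst (f3 o))

theorem dx_comb (c1 c2 c3 : ℝ) (f1 f2 f3 : Fn) [Reg 1 f1] [Reg 1 f2] [Reg 1 f3] :
    dx (comb c1 c2 c3 f1 f2 f3) = cst c1 * dx f1 + cst c2 * dx f2 + cst c3 * dx f3 := by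
  simp only [comb, dx_add, dx_mul, dx_sub, dx_cst]; ring

theorem dy_comb (c1 c2 c3 : ℝ) (f1 f2 f3 : Fn) [Reg 1 f1] [Reg 1 f2] [Reg 1 f3] :
    dy (comb c1 c2 c3 f1 f2 f3) = cst c1 * dy f1 + cst c2 * dy f2 + cst c3 * dy f3 := by
  simp only [comb, dy_add, dy_mul, dy_sub, dy_cst]; ring

theorem B.comb3 {k : ℕ} {r M c1 c2 c3 : ℝ} {g1 g2 g3 : Fn} [r1 : Reg k g1] [r2 : Reg k g2]
    [r3 : Reg k g3] (h1 : B k r M g1) (h2 : B k r M g2) (h3 : B k r M g3) (a1 : |c1| ≤ 2)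
    (a2 : |c2| ≤ 2) (a3 : |c3| ≤ 2) :
    B k r (6 * M) (P229.cst c1 * g1 + P229.cst c2 * g2 + P229.cst c3 * g3) := by
  have := B.add inferInstance inferInstance
    (B.add inferInstance inferInstance (B.cmul r1 h1 a1) (B.cmul r2 h2 a2)) (B.cmul r3 h3 a3)
  convert this using 1
  ring

theorem normalize {M r : ℝ} {f1 f2 f3 E : Fn} [Reg 4 f1] [Reg 4 f2] [Reg 4 f3]
    (b1 : B 3 r M (dx f1) ∧ B 3 r M (dy f1)) (b2 : B 3 r M (dx f2) ∧ B 3 r M (dy f2))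
    (b3 : B 3 r M (dx f3) ∧ B 3 r M (dy f3)) (h : Iso f1 f2 f3 E) (hE : E o = 1) :
    ∃ F : Surf, Cls (6 * M) r F ∧ Iso F.X F.Y F.u E := by
  obtain ⟨h1, h2, h3⟩ := h
  have ha := congrFun h1 o
  have hab := congrFun h2 o
  have hb := congrFun h3 o
  simp only [Pi.add_apply, Pi.mul_apply, Pi.pow_apply, hE, Pi.zero_apply] at ha hab hb
  set a1 := dx f1 o
  set a2 := dx f2 o
  set a3 := dx f3 o
  set c1 := dy f1 o
  set c2 := dy f2 o
  set c3 := dy f3 o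
  have k : ∀ x y z : ℝ, x ^ 2 + y ^ 2 + z ^ 2 = 1 → |x| ≤ 1 ∧ |y| ≤ 1 ∧ |z| ≤ 1 := fun x y z h =>
    ⟨abs_le_of_sq_le_sq (by nlinarith) zero_le_one, abs_le_of_sq_le_sq (by nlinarith) zero_le_one,
      abs_le_of_sq_le_sq (by nlinarith) zero_le_one⟩
  obtain ⟨A1, A2, A3⟩ := k _ _ _ ha
  obtain ⟨C1, C2, C3⟩ := k _ _ _ hb
  have k2 : ∀ x y z w : ℝ, |x| ≤ 1 → |y| ≤ 1 → |z| ≤ 1 → |w| ≤ 1 → |x * y - z * w| ≤ 2 := by
    intro x y z w hx hy hz hw
    have q1 : |x * y| ≤ 1 := by rw [abs_mul]; exact mul_le_one₀ hx (abs_nonneg _) hy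
    have q2 : |z * w| ≤ 1 := by rw [abs_mul]; exact mul_le_one₀ hz (abs_nonneg _) hw
    linarith [abs_sub (x * y) (z * w)]
  have N1 := k2 _ _ _ _ A2 C3 A3 C2
  have N2 := k2 _ _ _ _ A3 C1 A1 C3
  have N3 := k2 _ _ _ _ A1 C2 A2 C1
  have A1' := A1.trans one_le_two
  have A2' := A2.trans one_le_two
  have A3' := A3.trans one_le_two
  have C1' := C1.trans one_le_two
  have C2' := C2.trans one_le_two
  have C3' := C3.trans one_le_two
  refine ⟨⟨comb a1 a2 a3 f1 f2 f3, comb c1 c2 c3 f1 f2 f3,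
    comb (a2 * c3 - a3 * c2) (a3 * c1 - a1 * c3) (a1 * c2 - a2 * c1) f1 f2 f3⟩,
    ⟨⟨?_, ?_, ?_, ?_, ?_, ?_, ?_, ?_, ?_, ?_, ?_, ?_⟩, ?_, ?_, ?_, ?_, ?_, ?_⟩, ?_, ?_, ?_⟩ <;>
    simp only [dx_comb, dy_comb]
  · unfold comb; infer_instance
  · unfold comb; infer_instance
  · unfold comb; infer_instance
  · simp [comb]
  · simp [comb]
  · simp [comb]
  · simp only [Pi.add_apply, Pi.mul_apply, cst_apply]; linear_combination ha
  · simp only [Pi.add_apply, Pi.mul_apply, cst_apply]; linear_combination hab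
  · simp only [Pi.add_apply, Pi.mul_apply, cst_apply]; linear_combination hab
  · simp only [Pi.add_apply, Pi.mul_apply, cst_apply]; linear_combination hb
  · simp only [Pi.add_apply, Pi.mul_apply, cst_apply]; ring
  · simp only [Pi.add_apply, Pi.mul_apply, cst_apply]; ring
  · exact B.comb3 b1.1 b2.1 b3.1 A1' A2' A3'
  · exact B.comb3 b1.2 b2.2 b3.2 A1' A2' A3'
  · exact B.comb3 b1.1 b2.1 b3.1 C1' C2' C3'
  · exact B.comb3 b1.2 b2.2 b3.2 C1' C2' C3'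
  · exact B.comb3 b1.1 b2.1 b3.1 N1 N2 N3
  · exact B.comb3 b1.2 b2.2 b3.2 N1 N2 N3
  · funext z
    have := congrFun h1 z
    simp only [Pi.add_apply, Pi.mul_apply, Pi.pow_apply, cst_apply] at this ⊢
    linear_combination this + frame ha hab hb (dx f1 z) (dx f2 z) (dx f3 z) (dx f1 z) (dx f2 z) (dx f3 z)
  · funext z
    have := congrFun h2 z
    simp only [Pi.add_apply, Pi.mul_apply, cst_apply] at this ⊢
    linear_combination this + frame ha hab hb (dx f1 z) (dx f2 z) (dx f3 z) (dy f1 z) (dy f2 z) (dy f3 z)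
  · funext z
    have := congrFun h3 z
    simp only [Pi.add_apply, Pi.mul_apply, Pi.pow_apply, cst_apply] at this ⊢
    linear_combination this + frame ha hab hb (dy f1 z) (dy f2 z) (dy f3 z) (dy f1 z) (dy f2 z) (dy f3 z)

/-- Swap of the two coordinates of a point. -/
def swp (z : Om) : Om := ⟨(z : P).swap, by
  have := mem_Om.1 z.2
  rw [mem_Om, Prod.norm_def, Prod.fst_swap, Prod.snd_swap, max_comm]
  exact this⟩

/-- Composition with the swap. -/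
def sw (f : Fn) : Fn := fun z => f (swp z)

theorem swp_o : swp o = o := rfl

theorem sw_plain (f : Fn) (w : Om) :
    sw f w = (ext f ∘ ContinuousLinearEquiv.prodComm ℝ ℝ ℝ) w := by
  have : (ContinuousLinearEquiv.prodComm ℝ ℝ ℝ) (w : P) = (swp w : P) := rfl
  simp only [Function.comp, this, ext_apply, sw]

instance Reg.sw {k : ℕ} {f : Fn} [hf : Reg k f] : Reg k (sw f) :=
  Reg.of_plain (hf.out.comp (ContinuousLinearEquiv.prodComm ℝ ℝ ℝ).contDiff.contDiffOn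
    (fun z hz => (swp ⟨z, hz⟩).2)) (sw_plain f)

theorem dx_sw (f : Fn) : dx (sw f) = sw (dy f) := by
  funext z
  rw [dx, dd_of_plain (sw_plain f), ContinuousLinearEquiv.comp_right_fderiv]
  rfl

theorem dy_sw (f : Fn) : dy (sw f) = sw (dx f) := by
  funext z
  rw [dy, dd_of_plain (sw_plain f), ContinuousLinearEquiv.comp_right_fderiv]
  rfl

theorem B.sw {k : ℕ} {ν s : ℝ} {f : Fn} (h : B k ν s f) : B k ν s (sw f) := by
  induction k generalizing s f with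
  | zero => exact fun z => h _
  | succ k ih =>
    refine ⟨fun z => h.1 _, ?_, ?_⟩
    · rw [dx_sw]; exact ih h.2.2
    · rw [dy_sw]; exact ih h.2.1

theorem Cls.swap {M r : ℝ} {F : Surf} (h : Cls M r F) : Cls M r ⟨sw F.Y, sw F.X, sw F.u⟩ := by
  have := h.nrm.rX; have := h.nrm.rY; have := h.nrm.ru
  refine ⟨⟨inferInstance, inferInstance, inferInstance, h.nrm.Y0, h.nrm.X0, h.nrm.u0, ?_, ?_, ?_, ?_,
    ?_, ?_⟩, ?_, ?_, ?_, ?_, ?_, ?_⟩ <;> simp only [dx_sw, dy_sw]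
  · exact h.nrm.Yy
  · exact h.nrm.Yx
  · exact h.nrm.Xy
  · exact h.nrm.Xx
  · exact h.nrm.uy
  · exact h.nrm.ux
  · exact h.bYy.sw
  · exact h.bYx.sw
  · exact h.bXy.sw
  · exact h.bXx.sw
  · exact h.buy.sw
  · exact h.bux.sw

theorem Iso.swap {X Y u E : Fn} (h : Iso X Y u E) (hE : sw E = E) : Iso (sw Y) (sw X) (sw u) E := by
  obtain ⟨h1, h2, h3⟩ := h
  simp only [Iso, dx_sw, dy_sw]
  refine ⟨funext fun z => ?_, funext fun z => ?_, funext fun z => ?_⟩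
  · have := congrFun h3 (swp z)
    have e := congrFun hE z
    simp only [Pi.add_apply, Pi.pow_apply, sw] at this e ⊢
    linarith
  · have := congrFun h2 (swp z)
    simp only [Pi.add_apply, Pi.mul_apply, sw, Pi.zero_apply] at this ⊢
    linarith
  · have := congrFun h1 (swp z)
    have e := congrFun hE z
    simp only [Pi.add_apply, Pi.pow_apply, sw] at this e ⊢
    linarith

theorem Cls.flip {M r : ℝ} {F : Surf} (h : Cls M r F) : Cls M r ⟨F.X, F.Y, -F.u⟩ := by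
  have := h.nrm.ru
  refine ⟨⟨h.nrm.rX, h.nrm.rY, inferInstance, h.nrm.X0, h.nrm.Y0, by simp [h.nrm.u0], h.nrm.Xx,
    h.nrm.Xy, h.nrm.Yx, h.nrm.Yy, by simp [dx_neg, h.nrm.ux], by simp [dy_neg, h.nrm.uy]⟩,
    h.bXx, h.bXy, h.bYx, h.bYy, ?_, ?_⟩
  · simpa only [dx_neg] using h.bux.neg
  · simpa only [dy_neg] using h.buy.neg

theorem Iso.flip {X Y u E : Fn} (h : Iso X Y u E) : Iso X Y (-u) E := by
  obtain ⟨h1, h2, h3⟩ := h
  simp only [Iso, dx_neg, dy_neg]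
  exact ⟨by linear_combination h1, by linear_combination h2, by linear_combination h3⟩

theorem make_good {M a r : ℝ} {F : Surf} {E : Fn} (h : Cls M r F) (hi : Iso F.X F.Y F.u E)
    (hE : sw E = E) (h1 : a * r ≤ max |dx (dx F.u) o| |dy (dy F.u) o|)
    (h2 : |dy (dx F.u) o| ≤ 21 / 20 * max |dx (dx F.u) o| |dy (dy F.u) o|) :
    ∃ G : Surf, Cls M r G ∧ Good a r G ∧ Iso G.X G.Y G.u E := by
  have step : ∀ F : Surf, Cls M r F → Iso F.X F.Y F.u E → a * r ≤ |dx (dx F.u) o| →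
      |dy (dx F.u) o| ≤ 21 / 20 * |dx (dx F.u) o| →
      ∃ G : Surf, Cls M r G ∧ Good a r G ∧ Iso G.X G.Y G.u E := by
    intro F h hi h1 h2
    rcases le_total 0 (dx (dx F.u) o) with hs | hs
    · rw [abs_of_nonneg hs] at h1 h2
      exact ⟨F, h, ⟨h1, h2⟩, hi⟩
    · rw [abs_of_nonpos hs] at h1 h2
      refine ⟨_, h.flip, ?_, hi.flip⟩
      simpa [Good, dx_neg, dy_neg] using ⟨h1, by simpa using h2⟩
  rcases le_total |dy (dy F.u) o| |dx (dx F.u) o| with hm | hm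
  · rw [max_eq_left hm] at h1 h2
    exact step F h hi h1 h2
  · rw [max_eq_right hm] at h1 h2
    have := h.nrm.ru
    refine step _ h.swap (hi.swap hE) ?_ ?_
    · simpa only [dx_sw, dy_sw, sw, swp_o] using h1
    · simpa only [dx_sw, dy_sw, sw, swp_o, dx_dy] using h2

theorem sw_EF (s t : ℝ) (n b : ℕ) (ε : ℕ → ℝ) : sw (EF s (pertF t n b ε)) = EF s (pertF t n b ε) := by
  funext z
  have e1 : baseF (swp z) = baseF z := by
    simp only [baseF_apply, base, swp, Prod.fst_swap, Prod.snd_swap]; ring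
  have e2 : ∀ j, bmp t j (swp z) = bmp t j z := fun j => by
    simp only [bmp, Pi.mul_apply, Pi.sub_apply, cmp_apply, cst_apply, cx_apply, cy_apply, swp,
      Prod.fst_swap, Prod.snd_swap]
    ring
  simp only [sw, EF, Pi.add_apply, Pi.mul_apply, cst_apply, pertF_apply, e1, e2, Pi.one_apply,
    Pi.ofNat_apply]

end Vale.Agent.P229
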