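import Vale.Agent.P229.Geom

/-! The small bumps, and closeness of families. -/

namespace Vale.Agent.P229

open scoped ContDiff Topology
open Set Filter

set_option synthInstance.maxSize 2000

/-- Centre of the `j`-th bump. -/
noncomputable def ctr (t : ℝ) (j : ℕ) : P := (((j : ℝ) + 1) * t ^ (41 : ℤ), ((j : ℝ) + 1) * t ^ (41 : ℤ))

/-- The `j`-th bump. -/
noncomputable def bmp (t : ℝ) (j : ℕ) : Fn :=
  cmp (bf (1 / 2) 1) (cst (t ^ (43 : ℤ))⁻¹ * (cx - cst (((j : ℝ) + 1) * t ^ (41 : ℤ)))) *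
    cmp (bf (1 / 2) 1) (cst (t ^ (43 : ℤ))⁻¹ * (cy - cst (((j : ℝ) + 1) * t ^ (41 : ℤ))))

instance (k : ℕ) (t : ℝ) (j : ℕ) : Reg k (bmp t j) := by unfold bmp; infer_instance

/-- A combination of bumps. -/
noncomputable def pertF (t : ℝ) (n b : ℕ) (ε : ℕ → ℝ) : Fn :=
  cst (t ^ (b : ℤ)) * ∑ j ∈ Finset.range n, cst (ε j) * bmp t j

instance (k : ℕ) (t : ℝ) (n b : ℕ) (ε : ℕ → ℝ) : Reg k (pertF t n b ε) := by
  have := Reg.sum (k := k) (Finset.range n) (fun j => cst (ε j) * bmp t j)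
    (fun _ _ => inferInstance)
  unfold pertF; infer_instance

theorem pertF_apply (t : ℝ) (n b : ℕ) (ε : ℕ → ℝ) (z : Om) :
    pertF t n b ε z = t ^ (b : ℤ) * ∑ j ∈ Finset.range n, ε j * bmp t j z := by
  simp [pertF, Finset.sum_apply]

theorem pertF_sub (t : ℝ) (n b : ℕ) (ε ε' : ℕ → ℝ) :
    pertF t n b ε' - pertF t n b ε = pertF t n b (fun j => ε' j - ε j) := by
  funext z
  simp only [Pi.sub_apply, pertF_apply, sub_mul, Finset.sum_sub_distrib]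
  ring

theorem bmp_nonneg (t : ℝ) (j : ℕ) (z : Om) : 0 ≤ bmp t j z :=
  mul_nonneg (bf_nonneg _ _ _) (bf_nonneg _ _ _)

theorem bmp_zero {t : ℝ} (ht : 0 < t) {j : ℕ} {z : Om} (hz : t ^ (43 : ℤ) ≤ ‖(z : P) - ctr t j‖) :
    bmp t j z = 0 := by
  have hρ := zpow_pos ht 43
  have key : ∀ x : ℝ, t ^ (43 : ℤ) ≤ |x| → 1 ≤ |(t ^ (43 : ℤ))⁻¹ * x| := fun x hx => by
    rw [abs_mul, abs_of_pos (inv_pos.2 hρ), le_inv_mul_iff₀ hρ]; linarith
  simp only [bmp, Pi.mul_apply, Pi.sub_apply, cmp_apply, cst_apply, cx_apply, cy_apply]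
  rw [Prod.norm_def, le_max_iff] at hz
  rcases hz with hz | hz
  · exact mul_eq_zero_of_left (bf_zero (key _ hz)) _
  · exact mul_eq_zero_of_right _ (bf_zero (key _ hz))

theorem bmp_one {t : ℝ} (ht : 0 < t) {j : ℕ} {z : Om}
    (hz : ‖(z : P) - ctr t j‖ ≤ t ^ (43 : ℤ) / 2) : bmp t j z = 1 := by
  have hρ := zpow_pos ht 43
  have h1 := (norm_fst_le ((z : P) - ctr t j)).trans hz
  have h2 := (norm_snd_le ((z : P) - ctr t j)).trans hz
  have key : ∀ x : ℝ, |x| ≤ t ^ (43 : ℤ) / 2 → |(t ^ (43 : ℤ))⁻¹ * x| ≤ 1 / 2 := fun x hx => by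
    rw [abs_mul, abs_of_pos (inv_pos.2 hρ), inv_mul_le_iff₀ hρ]; linarith
  simp only [bmp, Pi.mul_apply, Pi.sub_apply, cmp_apply, cst_apply, cx_apply, cy_apply]
  have e1 := bf_one (a := 1 / 2) (b := 1) (by norm_num) (by norm_num) (key _ h1)
  have e2 := bf_one (a := 1 / 2) (b := 1) (by norm_num) (by norm_num) (key _ h2)
  simp only [ctr, Prod.fst_sub, Prod.snd_sub] at e1 e2
  rw [e1, e2, one_mul]

theorem norm_ctr {t : ℝ} (ht : 0 < t) {j n : ℕ} (hj : j < n) (hn : (n : ℝ) ≤ t ^ (-3 : ℤ)) :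
    ‖ctr t j‖ ≤ t ^ (38 : ℤ) := by
  have h41 := zpow_pos ht 41
  have h1 : (j : ℝ) + 1 ≤ n := by exact_mod_cast hj
  have h2 : ((j : ℝ) + 1) * t ^ (41 : ℤ) ≤ t ^ (38 : ℤ) := by
    calc _ ≤ t ^ (-3 : ℤ) * t ^ (41 : ℤ) := by gcongr; linarith
      _ = _ := by rw [← zpow_add₀ ht.ne']; norm_num
  rw [ctr, Prod.norm_mk, max_self, Real.norm_eq_abs, abs_of_pos (by positivity)]
  exact h2

theorem norm_le_of_bmp {t : ℝ} (ht : 0 < t) (ht1 : t ≤ 1) {j n : ℕ} (hj : j < n)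
    (hn : (n : ℝ) ≤ t ^ (-3 : ℤ)) {z : Om} (hz : bmp t j z ≠ 0) :
    ‖(z : P) - ctr t j‖ < t ^ (43 : ℤ) ∧ ‖(z : P)‖ < 2 * t ^ (38 : ℤ) := by
  have h1 : ‖(z : P) - ctr t j‖ < t ^ (43 : ℤ) := by
    by_contra h
    exact hz (bmp_zero ht (not_lt.1 h))
  refine ⟨h1, ?_⟩
  have h2 := norm_ctr ht hj hn
  have h3 := zpow_anti ht ht1 (show (38 : ℤ) ≤ 43 by norm_num)
  calc ‖(z : P)‖ = ‖((z : P) - ctr t j) + ctr t j‖ := by simp
    _ ≤ ‖(z : P) - ctr t j‖ + ‖ctr t j‖ := norm_add_le _ _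
    _ < _ := by linarith

theorem pertF_zero {t : ℝ} (ht : 0 < t) (ht1 : t ≤ 1) {n b : ℕ} (hn : (n : ℝ) ≤ t ^ (-3 : ℤ))
    (ε : ℕ → ℝ) {z : Om} (hz : 2 * t ^ (38 : ℤ) ≤ ‖(z : P)‖) : pertF t n b ε z = 0 := by
  rw [pertF_apply, Finset.sum_eq_zero, mul_zero]
  intro j hj
  by_cases h : bmp t j z = 0
  · rw [h, mul_zero]
  · exact absurd (norm_le_of_bmp ht ht1 (Finset.mem_range.1 hj) hn h).2 (not_lt.2 hz)

variable {ι : Type} {π : Par ι}

/-- Adding a free index to a family. -/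
def Par.prod (π : Par ι) (α : Type) : Par (ι × α) :=
  ⟨π.l.comap Prod.fst, fun x => π.t x.1, π.ht.comp tendsto_comap⟩

theorem Bt.pertF {k : ℕ} {n : ι → ℕ} (b : ℕ) {ε : ι → ℕ → ℝ}
    (hn : ∀ᶠ i in π.l, (n i : ℝ) ≤ π.t i ^ (-3 : ℤ)) (hε : ∀ᶠ i in π.l, ∀ j, |ε i j| ≤ 2) :
    Bt π k 43 (b - 3) (fun i => pertF (π.t i) (n i) b (ε i)) := by
  have h1 := Bt.scaled_cx (π := π.prod ℕ) (k := k) 43
    (fun x => ((x.2 : ℝ) + 1) * π.t x.1 ^ (41 : ℤ)) (bf_allBdd (1 / 2) 1)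
  have h2 := Bt.scaled_cy (π := π.prod ℕ) (k := k) 43
    (fun x => ((x.2 : ℝ) + 1) * π.t x.1 ^ (41 : ℤ)) (bf_allBdd (1 / 2) 1)
  obtain ⟨C, hC, h⟩ := h1.mul h2
  have h' := eventually_comap.1 h
  have h3 : Bt π k 43 (-3) (fun i => ∑ j ∈ Finset.range (n i), P229.cst (ε i j) * bmp (π.t i) j) := by
    refine Bt.of_B (M := 2 * C) (ν := fun i => π.t i ^ (-43 : ℤ))
      (s := fun i => (n i : ℝ) * (2 * C)) ?_
    filter_upwards [h', hn, hε, π.pos] with i hi hn hε hp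
    refine ⟨Reg.sum _ _ (fun _ _ => inferInstance), ?_, (zpow_pos hp _).le, le_rfl, ?_⟩
    · have := B.sum (k := k) (s := 2 * C) (Finset.range (n i))
        (fun j => P229.cst (ε i j) * bmp (π.t i) j)
        (zpow_pos hp (-43)).le (fun _ _ => inferInstance) (fun j _ => by
          have := (hi (i, j) rfl).2
          simp only [add_zero, zpow_zero, mul_one] at this
          exact B.cmul inferInstance this (hε j))
      simpa using this
    · rw [mul_comm]; gcongr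
  exact (Bt.cst (Ot.tpow π b)).mul' h3 (by omega)

/-- Two bounded families which are close to each other. -/
structure Cl (π : Par ι) (k : ℕ) (f g : ι → Fn) : Prop where
  l : Bt π k 0 0 f
  r : Bt π k 0 0 g
  d : Bt π k 0 1 (fun i => f i - g i)

theorem Cl.mono {k j : ℕ} {f g : ι → Fn} (h : Cl π k f g) (hj : j ≤ k) : Cl π j f g :=
  ⟨h.l.mono hj le_rfl le_rfl, h.r.mono hj le_rfl le_rfl, h.d.mono hj le_rfl le_rfl⟩

theorem Cl.sub {k : ℕ} {f g f' g' : ι → Fn} (h : Cl π k f g) (h' : Cl π k f' g') :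
    Cl π k (fun i => f i - f' i) (fun i => g i - g' i) :=
  ⟨h.l.sub h'.l, h.r.sub h'.r, (h.d.sub h'.d).congr (Eventually.of_forall fun i => by ring)⟩

theorem Cl.mul {k : ℕ} {f g f' g' : ι → Fn} (h : Cl π k f g) (h' : Cl π k f' g') :
    Cl π k (fun i => f i * f' i) (fun i => g i * g' i) :=
  ⟨h.l.mul h'.l, h.r.mul h'.r, ((h.l.mul h'.d).add (h.d.mul h'.r)).congr
    (Eventually.of_forall fun i => by ring)⟩

theorem Cl.sq {k : ℕ} {f g : ι → Fn} (h : Cl π k f g) :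
    Cl π k (fun i => f i ^ 2) (fun i => g i ^ 2) := by
  simpa [_root_.sq] using h.mul h

theorem Cl.dx {k : ℕ} {f g : ι → Fn} (h : Cl π (k + 1) f g) :
    Cl π k (fun i => dx (f i)) (fun i => dx (g i)) := by
  refine ⟨h.l.dx, h.r.dx, h.d.dx.congr ?_⟩
  filter_upwards [h.l.reg, h.r.reg] with i h1 h2
  have := h1.le (j := 1) (by omega)
  have := h2.le (j := 1) (by omega)
  rw [dx_sub]

theorem Cl.dy {k : ℕ} {f g : ι → Fn} (h : Cl π (k + 1) f g) :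
    Cl π k (fun i => dy (f i)) (fun i => dy (g i)) := by
  refine ⟨h.l.dy, h.r.dy, h.d.dy.congr ?_⟩
  filter_upwards [h.l.reg, h.r.reg] with i h1 h2
  have := h1.le (j := 1) (by omega)
  have := h2.le (j := 1) (by omega)
  rw [dy_sub]

theorem Cl.inv {k : ℕ} {f g : ι → Fn} (h : Cl π k f g) {c : ℝ} (hc : 0 < c)
    (hf : ∀ᶠ i in π.l, ∀ z, c ≤ f i z) (hg : ∀ᶠ i in π.l, ∀ z, c ≤ g i z) :
    Cl π k (fun i => (f i)⁻¹) (fun i => (g i)⁻¹) := by
  have h1 := h.l.inv hc (hf.mono fun i hi z => by simpa using (hi z).trans (le_abs_self _))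
  have h2 := h.r.inv hc (hg.mono fun i hi z => by simpa using (hi z).trans (le_abs_self _))
  refine ⟨h1, h2, ((h.d.mul h1).mul h2).neg.congr ?_⟩
  filter_upwards [hf, hg] with i hf hg
  funext z
  have := (hc.trans_le (hf z)).ne'
  have := (hc.trans_le (hg z)).ne'
  simp only [Pi.sub_apply, Pi.mul_apply, Pi.neg_apply, Pi.inv_apply]
  field_simp
  ring

theorem Cl.KK {G F : ι → Surf} (hJG : ∀ᶠ i in π.l, ∀ z, 1 / 2 ≤ br (G i).X (G i).Y z)
    (hJF : ∀ᶠ i in π.l, ∀ z, 1 / 2 ≤ br (F i).X (F i).Y z)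
    (Xx : Cl π 2 (fun i => P229.dx (G i).X) (fun i => P229.dx (F i).X))
    (Xy : Cl π 2 (fun i => P229.dy (G i).X) (fun i => P229.dy (F i).X))
    (Yx : Cl π 2 (fun i => P229.dx (G i).Y) (fun i => P229.dx (F i).Y))
    (Yy : Cl π 2 (fun i => P229.dy (G i).Y) (fun i => P229.dy (F i).Y))
    (ux : Cl π 2 (fun i => P229.dx (G i).u) (fun i => P229.dx (F i).u))
    (uy : Cl π 2 (fun i => P229.dy (G i).u) (fun i => P229.dy (F i).u)) :
    Cl π 1 (fun i => KK (G i).X (G i).Y (G i).u) (fun i => KK (F i).X (F i).Y (F i).u) := by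
  have Ji : Cl π 2 (fun i => (br (G i).X (G i).Y)⁻¹) (fun i => (br (F i).X (F i).Y)⁻¹) :=
    Cl.inv ((Xx.mul Yy).sub (Xy.mul Yx)) (by norm_num) hJG hJF
  have hp : Cl π 2 (fun i => d1 (G i).X (G i).Y (G i).u) (fun i => d1 (F i).X (F i).Y (F i).u) :=
    ((ux.mul Yy).sub (uy.mul Yx)).mul Ji
  have hq : Cl π 2 (fun i => d2 (G i).X (G i).Y (G i).u) (fun i => d2 (F i).X (F i).Y (F i).u) :=
    ((Xx.mul uy).sub (Xy.mul ux)).mul Ji
  have D1 : ∀ {f g : ι → Fn}, Cl π 2 f g →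
      Cl π 1 (fun i => d1 (G i).X (G i).Y (f i)) (fun i => d1 (F i).X (F i).Y (g i)) := fun h =>
    ((h.dx.mul (Yy.mono one_le_two)).sub (h.dy.mul (Yx.mono one_le_two))).mul (Ji.mono one_le_two)
  have D2 : ∀ {f g : ι → Fn}, Cl π 2 f g →
      Cl π 1 (fun i => d2 (G i).X (G i).Y (f i)) (fun i => d2 (F i).X (F i).Y (g i)) := fun h =>
    (((Xx.mono one_le_two).mul h.dy).sub ((Xy.mono one_le_two).mul h.dx)).mul (Ji.mono one_le_two)
  exact ((D1 hp).mul (D2 hq)).sub (D2 hp).sq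

/-- The mean surface. -/
noncomputable def mean (F F' : Surf) : Surf :=
  ⟨cst (1 / 2) * (F.X + F'.X), cst (1 / 2) * (F.Y + F'.Y), cst (1 / 2) * (F.u + F'.u)⟩

theorem dx_mean (f g : Fn) [Reg 1 f] [Reg 1 g] :
    dx (cst (1 / 2) * (f + g)) = cst (1 / 2) * (dx f + dx g) := by
  rw [dx_mul, dx_cst, dx_add, zero_mul, add_zero]

theorem dy_mean (f g : Fn) [Reg 1 f] [Reg 1 g] :
    dy (cst (1 / 2) * (f + g)) = cst (1 / 2) * (dy f + dy g) := by
  rw [dy_mul, dy_cst, dy_add, zero_mul, add_zero]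

theorem B.mean {k : ℕ} {r M : ℝ} {f g : Fn} (rf : Reg k f) (rg : Reg k g) (hf : B k r M f)
    (hg : B k r M g) : B k r M (P229.cst (1 / 2) * (f + g)) := by
  have := B.cmul (c := 1 / 2) (c' := 1 / 2) inferInstance (B.add rf rg hf hg)
    (by rw [abs_of_pos]; norm_num)
  convert this using 1
  ring

theorem Cls.mean {M r : ℝ} {F F' : Surf} (h : Cls M r F) (h' : Cls M r F') :
    Cls M r (mean F F') := by
  have := h.nrm.rX; have := h.nrm.rY; have := h.nrm.ru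
  have := h'.nrm.rX; have := h'.nrm.rY; have := h'.nrm.ru
  refine ⟨⟨?_, ?_, ?_, ?_, ?_, ?_, ?_, ?_, ?_, ?_, ?_, ?_⟩, ?_, ?_, ?_, ?_, ?_, ?_⟩ <;>
    simp only [P229.mean, dx_mean, dy_mean]
  · infer_instance
  · infer_instance
  · infer_instance
  · simp [h.nrm.X0, h'.nrm.X0]
  · simp [h.nrm.Y0, h'.nrm.Y0]
  · simp [h.nrm.u0, h'.nrm.u0]
  · simp [h.nrm.Xx, h'.nrm.Xx]; norm_num
  · simp [h.nrm.Xy, h'.nrm.Xy]
  · simp [h.nrm.Yx, h'.nrm.Yx]
  · simp [h.nrm.Yy, h'.nrm.Yy]; norm_num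
  · simp [h.nrm.ux, h'.nrm.ux]
  · simp [h.nrm.uy, h'.nrm.uy]
  · exact B.mean inferInstance inferInstance h.bXx h'.bXx
  · exact B.mean inferInstance inferInstance h.bXy h'.bXy
  · exact B.mean inferInstance inferInstance h.bYx h'.bYx
  · exact B.mean inferInstance inferInstance h.bYy h'.bYy
  · exact B.mean inferInstance inferInstance h.bux h'.bux
  · exact B.mean inferInstance inferInstance h.buy h'.buy

/-- The second fundamental form at the origin is large in the first direction. -/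
def Good (a r : ℝ) (F : Surf) : Prop :=
  a * r ≤ dx (dx F.u) o ∧ |dy (dx F.u) o| ≤ 21 / 20 * dx (dx F.u) o

theorem Good.mean {a r : ℝ} {F F' : Surf} (hn : Nrm F) (hn' : Nrm F') (h : Good a r F)
    (h' : Good a r F') : Good a r (mean F F') := by
  have := hn.ru; have := hn'.ru
  obtain ⟨h1, h2⟩ := h
  obtain ⟨h1', h2'⟩ := h'
  have h2 := abs_le.1 h2
  have h2' := abs_le.1 h2'
  simp only [Good, P229.mean, dx_mean, dy_mean, Pi.mul_apply, Pi.add_apply, cst_apply, abs_le]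
  refine ⟨by linarith, by linarith [h2.1, h2'.1], by linarith [h2.2, h2'.2]⟩

end Vale.Agent.P229
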