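import Vale.Agent.P229.Defs

namespace Vale.Agent.P229

open scoped ContDiff

lemma exists_deriv_bound {F : P → ℝ} (hF : ContDiff ℝ ∞ F) (hs : HasCompactSupport F) (N : ℕ) :
    ∃ C : ℝ, 0 < C ∧ ∀ k ≤ N, ∀ z, ‖iteratedFDeriv ℝ k F z‖ ≤ C := by
  have h : ∀ k : ℕ, ∃ C : ℝ, ∀ z, ‖iteratedFDeriv ℝ k F z‖ ≤ C := fun k =>
    (hF.continuous_iteratedFDeriv (by exact_mod_cast le_top)).bounded_above_of_compact_support
      (hs.iteratedFDeriv k)
  choose C hC using h
  have h0 : ∀ k, 0 ≤ C k := fun k => (norm_nonneg _).trans (hC k 0)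
  refine ⟨1 + ∑ k ∈ Finset.range (N + 1), C k,
    add_pos_of_pos_of_nonneg one_pos (Finset.sum_nonneg fun k _ => h0 k), fun k hk z => ?_⟩
  have := Finset.single_le_sum (f := C) (fun k _ => h0 k)
    (Finset.mem_range.mpr (Nat.lt_succ_of_le hk))
  linarith [hC k z]

lemma norm_iter_mul {k : ℕ} {f : P → ℝ} (hf : ContDiff ℝ k f) (c : ℝ) (z : P) :
    ‖iteratedFDeriv ℝ k (fun z => c * f z) z‖ = |c| * ‖iteratedFDeriv ℝ k f z‖ := by
  have := iteratedFDeriv_const_smul_apply' (a := c) (x := z) hf.contDiffAt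
  simp only [smul_eq_mul] at this
  rw [this, norm_smul, Real.norm_eq_abs]

lemma norm_iter_affine {k : ℕ} {f : P → ℝ} (hf : ContDiff ℝ k f) (a : ℝ) (c z : P) :
    ‖iteratedFDeriv ℝ k (fun z => f (a • z + c)) z‖ =
      |a| ^ k * ‖iteratedFDeriv ℝ k f (a • z + c)‖ := by
  have h1 : ContDiff ℝ k (fun w => f (w + c)) := hf.comp (contDiff_id.add contDiff_const)
  rw [iteratedFDeriv_comp_const_smul (f := fun w => f (w + c)) a h1]
  simp only [norm_smul, norm_pow, Real.norm_eq_abs, iteratedFDeriv_comp_add_right]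

lemma contDiff_bump2 : ContDiff ℝ ∞ bump2 :=
  (bump1.contDiff.comp contDiff_fst).mul (bump1.contDiff.comp contDiff_snd)

lemma bump2_eq_zero {z : P} (hz : 1 ≤ ‖z‖) : bump2 z = 0 := by
  rw [Prod.norm_def, le_max_iff] at hz
  rcases hz with hz | hz
  · have : bump1 z.1 = 0 := bump1.zero_of_le_dist (by simpa [bump1] using hz)
    simp [bump2, this]
  · have : bump1 z.2 = 0 := bump1.zero_of_le_dist (by simpa [bump1] using hz)
    simp [bump2, this]

lemma hasCompactSupport_bump2 : HasCompactSupport bump2 :=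
  HasCompactSupport.intro (isCompact_closedBall (0 : P) 1) fun z hz =>
    bump2_eq_zero (le_of_lt (by simpa using hz))

lemma bumpAt_smul (t a : ℝ) (i : ℕ) : (fun z : P => bumpAt t i (a • z)) =
    fun z => bump2 ((a / t ^ 43) • z + (-((i + 1) * t ^ 41) / t ^ 43, -((i + 1) * t ^ 41) / t ^ 43)) := by
  funext z
  unfold bumpAt
  congr 1
  ext <;> simp <;> ring

lemma contDiff_bumpAt_smul (t a : ℝ) (i : ℕ) : ContDiff ℝ ∞ (fun z : P => bumpAt t i (a • z)) := by
  rw [bumpAt_smul]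
  exact contDiff_bump2.comp ((contDiff_id.const_smul _).add contDiff_const)

lemma contDiff_pert_smul (N T : ℕ) (τ : Fin (T ^ 3) → Bool) (a : ℝ) :
    ContDiff ℝ ∞ (fun z : P => pert N T τ (a • z)) :=
  contDiff_const.mul (ContDiff.sum fun i _ => contDiff_const.mul (contDiff_bumpAt_smul _ a i))

lemma pert_eq_zero (N T : ℕ) (hT : 1 ≤ T) (τ : Fin (T ^ 3) → Bool) {w : P} (hw : 2 ≤ ‖w‖) :
    pert N T τ w = 0 := by
  have hT' : (1 : ℝ) ≤ T := by exact_mod_cast hT
  set t : ℝ := 1 / (T : ℝ) with ht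
  have ht0 : 0 < t := by positivity
  have ht1 : t ≤ 1 := by rw [ht, div_le_one (by linarith)]; exact hT'
  have htT : t * T = 1 := by rw [ht]; field_simp
  unfold pert
  refine mul_eq_zero_of_right _ (Finset.sum_eq_zero fun i _ => mul_eq_zero_of_right _ ?_)
  unfold bumpAt
  apply bump2_eq_zero
  have h1 : ((i : ℕ) : ℝ) + 1 ≤ (T : ℝ) ^ 3 := by exact_mod_cast i.2
  have h2 : (((i : ℕ) : ℝ) + 1) * t ^ 41 ≤ 1 := by
    calc _ ≤ (T : ℝ) ^ 3 * t ^ 41 := by gcongr
      _ = (t * T) ^ 3 * t ^ 38 := by ring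
      _ ≤ 1 := by rw [htT, one_pow, one_mul]; exact pow_le_one₀ ht0.le ht1
  have h3 : 0 ≤ (((i : ℕ) : ℝ) + 1) * t ^ 41 := by positivity
  have h4 : t ^ 43 ≤ 1 := pow_le_one₀ ht0.le ht1
  have h5 : 0 < t ^ 43 := by positivity
  have key : ∀ x : ℝ, 2 ≤ |x| → 1 ≤ ‖(x - (((i : ℕ) : ℝ) + 1) * t ^ 41) / t ^ 43‖ := by
    intro x hx
    rw [Real.norm_eq_abs, abs_div, abs_of_pos h5, le_div_iff₀ h5]
    have := abs_sub_abs_le_abs_sub x ((((i : ℕ) : ℝ) + 1) * t ^ 41)
    rw [abs_of_nonneg h3] at this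
    linarith
  rw [Prod.norm_def, le_max_iff] at hw ⊢
  exact hw.imp (key _) (key _)

lemma norm_iter_pert {N N' T : ℕ} (hN : N ≤ N') (hT : 1 ≤ T) (τ : Fin (T ^ 3) → Bool) {a C : ℝ}
    (ha : 1 ≤ a) (hC : ∀ k ≤ N, ∀ z, ‖iteratedFDeriv ℝ k bump2 z‖ ≤ C) {k : ℕ} (hk : k ≤ N) (z : P) :
    ‖iteratedFDeriv ℝ k (fun z : P => pert N' T τ (a • z)) z‖ ≤ a ^ N * C / T := by
  have hT' : (1 : ℝ) ≤ T := by exact_mod_cast hT
  set t : ℝ := 1 / (T : ℝ) with ht
  have ht0 : 0 < t := by positivity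
  have ht1 : t ≤ 1 := by rw [ht, div_le_one (by linarith)]; exact hT'
  have htT : t * T = 1 := by rw [ht]; field_simp
  have hC0 : 0 ≤ C := (norm_nonneg _).trans (hC 0 (Nat.zero_le _) 0)
  have hk' : (k : WithTop ℕ∞) ≤ ∞ := by exact_mod_cast le_top
  have hterm : ∀ i : Fin (T ^ 3), ContDiff ℝ k
      (fun z : P => (if τ i then (1 : ℝ) else 0) * bumpAt t i (a • z)) := fun i =>
    contDiff_const.mul ((contDiff_bumpAt_smul _ a i).of_le hk')
  unfold pert
  rw [norm_iter_mul (ContDiff.sum fun i _ => hterm i),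
    iteratedFDeriv_fun_sum_apply (fun i _ => (hterm i).contDiffAt)]
  have hb : ∀ i : Fin (T ^ 3), ‖iteratedFDeriv ℝ k
      (fun z : P => (if τ i then (1 : ℝ) else 0) * bumpAt t i (a • z)) z‖ ≤
      (a / t ^ 43) ^ k * C := by
    intro i
    rw [norm_iter_mul ((contDiff_bumpAt_smul _ a i).of_le hk'), bumpAt_smul,
      norm_iter_affine (contDiff_bump2.of_le hk'), abs_of_pos (a := a / t ^ 43) (by positivity)]
    have h1 : |(if τ i then (1 : ℝ) else 0)| ≤ 1 := by split_ifs <;> simp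
    calc _ ≤ 1 * ((a / t ^ 43) ^ k * C) := by
          gcongr
          exact hC k hk _
      _ = _ := one_mul _
  have hsum := (norm_sum_le _ _).trans (Finset.sum_le_sum fun i (_ : i ∈ Finset.univ) => hb i)
  rw [Finset.sum_const, Finset.card_univ, Fintype.card_fin, nsmul_eq_mul] at hsum
  obtain ⟨d, rfl⟩ := Nat.exists_eq_add_of_le (hk.trans hN)
  calc _ ≤ |t ^ (43 * (k + d) + 4)| * (((T ^ 3 : ℕ) : ℝ) * ((a / t ^ 43) ^ k * C)) := by gcongr
    _ = (t * T) ^ 3 * (t ^ (43 * d) * (a ^ k * C * t)) := by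
        rw [abs_of_pos (by positivity), div_pow a, ← pow_mul]
        push_cast
        field_simp
        ring
    _ ≤ 1 * (1 * (a ^ N * C * t)) := by
        rw [htT, one_pow]
        gcongr
        exact pow_le_one₀ ht0.le ht1
    _ = _ := by rw [ht]; ring

/-- TASK B: rescaling.  Take `φ z = κ * χ z * (r² |z|²/4 - |z|⁴/16) + pert N' T τ (z / r)`. -/
theorem block_of_core (h : CoreStmt) : BlockStmt := by
  intro M R ε N hR hε
  let χ : ContDiffBump (0 : P) := ⟨R / 2, 3 * R / 4, by positivity, by linarith⟩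
  let F₁ : P → ℝ := fun z => χ z * ((z.1 ^ 2 + z.2 ^ 2) / 4)
  let F₂ : P → ℝ := fun z => χ z * ((z.1 ^ 2 + z.2 ^ 2) ^ 2 / 16)
  have hF₁ : ContDiff ℝ ∞ F₁ := χ.contDiff.mul (by fun_prop)
  have hF₂ : ContDiff ℝ ∞ F₂ := χ.contDiff.mul (by fun_prop)
  obtain ⟨C₁, hC₁, b₁⟩ := exists_deriv_bound hF₁ χ.hasCompactSupport.mul_right N
  obtain ⟨C₂, hC₂, b₂⟩ := exists_deriv_bound hF₂ χ.hasCompactSupport.mul_right N
  obtain ⟨C₃, hC₃, b₃⟩ := exists_deriv_bound contDiff_bump2 hasCompactSupport_bump2 N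
  set κ := min 1 (ε / (2 * (C₁ + C₂))) with hκ
  have hκ0 : 0 < κ := lt_min one_pos (by positivity)
  have hκ1 : κ * (C₁ + C₂) ≤ ε / 2 := by
    calc _ ≤ ε / (2 * (C₁ + C₂)) * (C₁ + C₂) := by gcongr; exact min_le_right _ _
      _ = _ := by field_simp
  obtain ⟨r₀, hr₀, hcore⟩ := h M κ hκ0 (min_le_left _ _)
  set r := min r₀ (min 1 (R / 4)) with hr
  have hr0 : 0 < r := lt_min hr₀ (lt_min one_pos (by positivity))
  have hr1 : r ≤ 1 := (min_le_right _ _).trans (min_le_left _ _)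
  have hrR : r ≤ R / 4 := (min_le_right _ _).trans (min_le_right _ _)
  have ha : 1 ≤ r⁻¹ := (one_le_inv₀ hr0).mpr hr1
  obtain ⟨T, ⟨τ, hτ⟩, hT, hT2⟩ := ((hcore r hr0 (min_le_left _ _) (max N 4) (le_max_right _ _)).and
    ((Filter.eventually_ge_atTop 1).and
      (tendsto_natCast_atTop_atTop.eventually_ge_atTop (2 * (r⁻¹ ^ N * C₃) / ε)))).exists
  have hT' : (0 : ℝ) < T := by exact_mod_cast hT
  have hp := contDiff_pert_smul (max N 4) T τ r⁻¹
  refine ⟨fun z => ((κ * r ^ 2) * F₁ z - κ * F₂ z) + pert (max N 4) T τ (r⁻¹ • z),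
    ((contDiff_const.mul hF₁).sub (contDiff_const.mul hF₂)).add hp, ?_, fun k hk z => ?_, ?_⟩
  · refine (closure_minimal (t := Metric.closedBall 0 (3 * R / 4)) ?_
      Metric.isClosed_closedBall).trans (Metric.closedBall_subset_ball (by linarith))
    intro z hz
    by_contra hz'
    have hz2 : 3 * R / 4 < ‖z‖ := by simpa using hz'
    apply hz
    have h1 : χ z = 0 := χ.zero_of_le_dist (by simpa [χ] using hz2.le)
    have h2 : pert (max N 4) T τ (r⁻¹ • z) = 0 := by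
      apply pert_eq_zero _ _ hT
      rw [norm_smul, Real.norm_eq_abs, abs_of_pos (by positivity), le_inv_mul_iff₀ hr0]
      linarith
    simp [F₁, F₂, h1, h2]
  · have hk' : (k : WithTop ℕ∞) ≤ ∞ := by exact_mod_cast le_top
    have g₁ : ContDiff ℝ k fun z => (κ * r ^ 2) * F₁ z := contDiff_const.mul (hF₁.of_le hk')
    have g₂ : ContDiff ℝ k fun z => κ * F₂ z := contDiff_const.mul (hF₂.of_le hk')
    rw [fun_iteratedFDeriv_add_apply (g₁.sub g₂).contDiffAt (hp.of_le hk').contDiffAt,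
      fun_iteratedFDeriv_sub_apply g₁.contDiffAt g₂.contDiffAt]
    have n₁ : ‖iteratedFDeriv ℝ k (fun z => (κ * r ^ 2) * F₁ z) z‖ ≤ κ * C₁ := by
      rw [norm_iter_mul (hF₁.of_le hk'), abs_of_pos (by positivity)]
      calc _ ≤ (κ * 1) * C₁ := by
            gcongr
            · exact pow_le_one₀ hr0.le hr1
            · exact b₁ k hk z
        _ = _ := by ring
    have n₂ : ‖iteratedFDeriv ℝ k (fun z => κ * F₂ z) z‖ ≤ κ * C₂ := by
      rw [norm_iter_mul (hF₂.of_le hk'), abs_of_pos hκ0]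
      gcongr
      exact b₂ k hk z
    have n₃ := norm_iter_pert (le_max_left N 4) hT τ ha b₃ hk z
    have n₄ : r⁻¹ ^ N * C₃ / T ≤ ε / 2 := by
      rw [div_le_iff₀ hε] at hT2
      rw [div_le_iff₀ hT']
      linarith
    refine (norm_add_le _ _).trans ?_
    have := norm_sub_le (iteratedFDeriv ℝ k (fun z => (κ * r ^ 2) * F₁ z) z)
      (iteratedFDeriv ℝ k (fun z => κ * F₂ z) z)
    linarith
  · intro f₁ f₂ f₃ h₁ h₂ h₃ hb hiso
    have sm : ∀ f : P → ℝ, ContDiff ℝ 4 f → ContDiff ℝ 4 fun z : P => r⁻¹ * f (r • z + 0) :=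
      fun f hf => contDiff_const.mul (hf.comp ((contDiff_id.const_smul _).add contDiff_const))
    have bd : ∀ f : P → ℝ, ContDiff ℝ 4 f → ∀ j : ℕ, 1 ≤ j → j ≤ 4 →
        (∀ z, ‖iteratedFDeriv ℝ j f z‖ ≤ M) → ∀ z,
        ‖iteratedFDeriv ℝ j (fun z : P => r⁻¹ * f (r • z + 0)) z‖ ≤ M * r ^ (j - 1) := by
      intro f hf j hj1 hj4 hM z
      have hf' : ContDiff ℝ j f := hf.of_le (by exact_mod_cast hj4)
      rw [norm_iter_mul (f := fun z : P => f (r • z + 0))
        (hf'.comp ((contDiff_id.const_smul _).add contDiff_const)), norm_iter_affine hf',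
        abs_of_pos hr0, abs_of_pos (by positivity)]
      obtain ⟨i, rfl⟩ := Nat.exists_eq_add_of_le' hj1
      calc _ ≤ r⁻¹ * (r ^ (i + 1) * M) := by gcongr; exact hM _
        _ = _ := by simp only [Nat.add_sub_cancel, pow_succ]; field_simp
    have fd : ∀ f : P → ℝ, ContDiff ℝ 4 f → ∀ z v : P,
        fderiv ℝ (fun z : P => r⁻¹ * f (r • z + 0)) z v = fderiv ℝ f (r • z) v := by
      intro f hf z v
      have e1 : HasFDerivAt f (fderiv ℝ f (r • z)) (r • z + 0) := by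
        rw [add_zero]; exact (hf.differentiable (by norm_num) _).hasFDerivAt
      have e2 := (e1.comp z (((hasFDerivAt_id z).const_smul r).add_const 0)).const_mul r⁻¹
      have e3 : fderiv ℝ (fun z : P => r⁻¹ * f (r • z + 0)) z = _ := e2.fderiv
      rw [e3]
      simp only [_root_.smul_apply, ContinuousLinearMap.comp_apply, ContinuousLinearMap.id_apply,
        map_smul, smul_eq_mul]
      field_simp
    refine hτ _ _ _ (sm f₁ h₁) (sm f₂ h₂) (sm f₃ h₃) (fun j hj1 hj4 z =>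
      ⟨bd f₁ h₁ j hj1 hj4 (fun z => (hb j hj4 z).1) z, bd f₂ h₂ j hj1 hj4
        (fun z => (hb j hj4 z).2.1) z, bd f₃ h₃ j hj1 hj4 (fun z => (hb j hj4 z).2.2) z⟩) ?_
    intro z hz
    have hz' : ‖r • z‖ ≤ R / 2 := by
      have : ‖z‖ < 7 / 5 := by simpa using hz
      rw [norm_smul, Real.norm_eq_abs, abs_of_pos hr0]
      nlinarith
    have hi := hiso (r • z) (by simp only [mem_ball_zero_iff]; linarith)
    have h1 : χ (r • z) = 1 := χ.one_of_mem_closedBall (by simpa [χ] using hz')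
    have hE : ((κ * r ^ 2) * F₁ (r • z) - κ * F₂ (r • z)) + pert (max N 4) T τ (r⁻¹ • r • z) =
        κ * r ^ 4 * base z + pert (max N 4) T τ z := by
      rw [inv_smul_smul₀ hr0.ne']
      simp only [F₁, F₂, h1, base, Prod.smul_fst, Prod.smul_snd, smul_eq_mul]
      ring
    simp only [IsoAt, fd _ h₁, fd _ h₂, fd _ h₃] at hi ⊢
    rw [hE] at hi
    exact hi

end Vale.Agent.P229
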