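import Vale.Agent.P229.Defs

namespace Vale.Agent.P229

open scoped ContDiff Topology
open Metric Filter

theorem final_disj {i j : ℕ} (hij : i ≠ j) {z : P}
    (hi : z - ((1 / 2 : ℝ) ^ i, (0 : ℝ)) ∈ ball (0 : P) ((1 / 2 : ℝ) ^ i / 4))
    (hj : z - ((1 / 2 : ℝ) ^ j, (0 : ℝ)) ∈ ball (0 : P) ((1 / 2 : ℝ) ^ j / 4)) : False := by
  wlog h : i < j generalizing i j
  · exact this hij.symm hj hi (lt_of_le_of_ne (not_lt.1 h) hij.symm)
  rw [mem_ball_zero_iff] at hi hj
  have h1 := abs_lt.1 ((norm_fst_le _).trans_lt hi)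
  have h2 := abs_lt.1 ((norm_fst_le _).trans_lt hj)
  have h3 : (1 / 2 : ℝ) ^ j ≤ (1 / 2) ^ (i + 1) :=
    pow_le_pow_of_le_one (by norm_num) (by norm_num) h
  have h4 : (0 : ℝ) < (1 / 2) ^ i := by positivity
  rw [pow_succ] at h3
  simp only [Prod.fst_sub] at h1 h2
  linarith [h1.1, h2.2]

theorem final_bound {f : P → ℝ} (hf : ContDiff ℝ 4 f) (hc : HasCompactSupport f) :
    ∃ M : ℝ, ∀ j : ℕ, j ≤ 4 → ∀ z, ‖iteratedFDeriv ℝ j f z‖ ≤ M := by
  have : ∀ j : Fin 5, ∃ M : ℝ, ∀ z, ‖iteratedFDeriv ℝ j f z‖ ≤ M := fun j =>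
    (hf.continuous_iteratedFDeriv (by exact_mod_cast Nat.le_of_lt_succ j.2)).bounded_above_of_compact_support
      (hc.iteratedFDeriv j)
  choose M hM using this
  obtain ⟨B, hB⟩ := (Set.finite_range M).bddAbove
  exact ⟨B, fun j hj z => (hM ⟨j, by omega⟩ z).trans (hB ⟨_, rfl⟩)⟩

/-- TASK A: global assembly of the blocks. -/
theorem final_of_block (h : BlockStmt) :
    ∃ g : EuclideanSpace ℝ (Fin 2) → Matrix (Fin 2) (Fin 2) ℝ,
      (∀ i j, ContDiff ℝ ∞ (fun x => g x i j)) ∧ (∀ x, (g x).PosDef) ∧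
      ∀ (k : WithTop ℕ∞), 4 ≤ k → ∀ U : Set (EuclideanSpace ℝ (Fin 2)), IsOpen U → 0 ∈ U →
        ∀ F : EuclideanSpace ℝ (Fin 2) → EuclideanSpace ℝ (Fin 3), ContDiffOn ℝ k F U →
          ¬ ∀ x ∈ U, ∀ i j : Fin 2,
            inner ℝ (fderiv ℝ F x (EuclideanSpace.single i 1))
              (fderiv ℝ F x (EuclideanSpace.single j 1)) = g x i j := by
  choose φ φs φt φb φn using fun n : ℕ =>
    h n ((1 / 2 : ℝ) ^ n / 4) ((1 / 2 : ℝ) ^ n / 8) n (by positivity) (by positivity)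
  set c : ℕ → P := fun n => ((1 / 2 : ℝ) ^ n, 0) with hc
  set Φ : P → ℝ := fun z => ∑' n, φ n (z - c n) with hΦ
  have hsum : HasSum (fun n : ℕ => (1 / 2 : ℝ) ^ n / 8) (2 / 8) := hasSum_geometric_two.div_const 8
  have hΦs : ContDiff ℝ ∞ Φ := by
    refine contDiff_tsum_of_eventually (N := ⊤) (v := fun _ n => (1 / 2 : ℝ) ^ n / 8)
      (fun n => (φs n).comp (contDiff_id.sub contDiff_const)) (fun _ _ => hsum.summable) ?_
    intro k _
    rw [Nat.cofinite_eq_atTop]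
    filter_upwards [eventually_ge_atTop k] with n hn z
    rw [iteratedFDeriv_comp_sub]
    exact φb n k hn _
  have hΦb : ∀ z, ‖Φ z‖ ≤ 2 / 8 := fun z =>
    tsum_of_norm_bounded hsum fun n => by
      simpa only [norm_iteratedFDeriv_zero] using φb n 0 (Nat.zero_le _) (z - c n)
  have hΦl : ∀ n, ∀ z ∈ ball (0 : P) ((1 / 2 : ℝ) ^ n / 4), Φ (z + c n) = φ n z := by
    intro n z hz
    simp only [hΦ]
    rw [tsum_eq_single n, add_sub_cancel_right]
    intro m hm
    by_contra h0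
    exact final_disj hm (φt m (subset_tsupport _ h0)) (by simpa [hc] using hz)
  refine ⟨fun x => (1 + 2 * Φ (x 0, x 1)) • (1 : Matrix (Fin 2) (Fin 2) ℝ), ?_, ?_, ?_⟩
  · intro i j
    simp only [Matrix.smul_apply, smul_eq_mul]
    refine ContDiff.mul (contDiff_const.add (contDiff_const.mul (hΦs.comp ?_))) contDiff_const
    fun_prop
  · intro x
    have := abs_le.1 (hΦb (x 0, x 1))
    exact Matrix.PosDef.one.smul (by linarith [this.1])
  intro k hk U hU h0 F hF hiso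
  obtain ⟨r, hr, hrU⟩ := Metric.nhds_basis_closedBall.mem_iff.1 (hU.mem_nhds h0)
  let χ : ContDiffBump (0 : EuclideanSpace ℝ (Fin 2)) := ⟨r / 2, r, by positivity, by linarith⟩
  have hG : ContDiff ℝ 4 fun x => χ x • F x := by
    rw [contDiff_iff_contDiffAt]
    intro x
    by_cases hx : x ∈ U
    · exact χ.contDiffAt.smul ((hF.contDiffAt (hU.mem_nhds hx)).of_le hk)
    · have hx' : x ∉ tsupport χ := fun h' => hx (hrU (χ.tsupport_eq ▸ h'))
      refine (contDiffAt_const (c := (0 : EuclideanSpace ℝ (Fin 3)))).congr_of_eventuallyEq ?_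
      filter_upwards [notMem_tsupport_iff_eventuallyEq.1 hx'] with y hy
      simp [hy]
  have hGc : HasCompactSupport fun x => χ x • F x := χ.hasCompactSupport.smul_right
  let L : P ≃L[ℝ] EuclideanSpace ℝ (Fin 2) :=
    (ContinuousLinearEquiv.finTwoArrow ℝ ℝ).symm.trans (EuclideanSpace.equiv (Fin 2) ℝ).symm
  have L0 : ∀ z : P, L z 0 = z.1 := fun z => rfl
  have L1 : ∀ z : P, L z 1 = z.2 := fun z => rfl
  have e0 : L (1, 0) = EuclideanSpace.single 0 1 := by
    ext i; fin_cases i <;> simp [L0, L1]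
  have e1 : L (0, 1) = EuclideanSpace.single 1 1 := by
    ext i; fin_cases i <;> simp [L0, L1]
  set f : Fin 3 → P → ℝ := fun i z => (χ (L z) • F (L z)) i with hf
  have fs : ∀ i, ContDiff ℝ 4 (f i) := fun i =>
    (EuclideanSpace.proj (𝕜 := ℝ) i).contDiff.comp (hG.comp L.contDiff)
  have fc : ∀ i, HasCompactSupport (f i) := fun i =>
    (hGc.comp_homeomorph L.toHomeomorph).comp_left (g := fun v : EuclideanSpace ℝ (Fin 3) => v i) rfl
  choose M hM using fun i => final_bound (fs i) (fc i)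
  obtain ⟨B, hB⟩ := (Set.finite_range M).bddAbove
  have hnb : L ⁻¹' ball 0 (r / 2) ∈ 𝓝 (0 : P) :=
    L.continuous.continuousAt.preimage_mem_nhds (by rw [map_zero]; exact ball_mem_nhds _ (by positivity))
  obtain ⟨δ, hδ, hδL⟩ := Metric.mem_nhds_iff.1 hnb
  obtain ⟨n, hn1, hn2⟩ := ((tendsto_natCast_atTop_atTop (R := ℝ)).eventually_ge_atTop B).and
    ((tendsto_pow_atTop_nhds_zero_of_lt_one (r := 1 / 2) (by norm_num) (by norm_num)).eventually
      (gt_mem_nhds (half_pos hδ))) |>.exists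
  have tr : ∀ i, ContDiff ℝ 4 fun z => f i (z + c n) := fun i =>
    (fs i).comp (contDiff_id.add contDiff_const)
  have tb : ∀ i, ∀ j : ℕ, j ≤ 4 → ∀ z, ‖iteratedFDeriv ℝ j (fun z => f i (z + c n)) z‖ ≤ n := by
    intro i j hj z
    rw [iteratedFDeriv_comp_add_right]
    exact (hM i j hj _).trans ((hB ⟨i, rfl⟩).trans hn1)
  refine φn n _ _ _ (tr 0) (tr 1) (tr 2) (fun j hj z => ⟨tb 0 j hj z, tb 1 j hj z, tb 2 j hj z⟩) ?_
  intro z hz
  have hw : L (z + c n) ∈ ball (0 : EuclideanSpace ℝ (Fin 2)) (r / 2) := by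
    apply hδL
    rw [mem_ball_zero_iff] at hz ⊢
    have h1 : ‖c n‖ = (1 / 2 : ℝ) ^ n := by simp [hc, Prod.norm_def]
    have h2 : (0 : ℝ) < (1 / 2) ^ n := by positivity
    linarith [norm_add_le z (c n)]
  have hwU : L (z + c n) ∈ U := hrU (ball_subset_closedBall (ball_subset_ball (by linarith) hw))
  have hd : ∀ i v, fderiv ℝ (fun z => f i (z + c n)) z v = fderiv ℝ F (L (z + c n)) (L v) i := by
    intro i v
    rw [fderiv_comp_add_right]
    have h1 : HasFDerivAt F (fderiv ℝ F (L (z + c n))) (L (z + c n)) :=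
      (((hF.contDiffAt (hU.mem_nhds hwU)).of_le hk).differentiableAt (by simp)).hasFDerivAt
    have h2 := (EuclideanSpace.proj (𝕜 := ℝ) i).hasFDerivAt.comp (z + c n)
      (h1.comp (z + c n) L.hasFDerivAt)
    have h3 : f i =ᶠ[𝓝 (z + c n)] (EuclideanSpace.proj (𝕜 := ℝ) i) ∘ F ∘ L := by
      filter_upwards [L.continuous.continuousAt.eventually (χ.eventuallyEq_one_of_mem_ball hw)]
        with y hy
      simp only [hf, hy, Pi.one_apply, one_smul]
      rfl
    rw [h3.fderiv_eq, h2.fderiv]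
    rfl
  have a00 := hiso _ hwU 0 0
  have a01 := hiso _ hwU 0 1
  have a11 := hiso _ hwU 1 1
  simp only [L0, L1, Prod.mk.eta, hΦl n z hz, PiLp.inner_apply, Fin.sum_univ_three,
    RCLike.inner_apply, conj_trivial, Matrix.smul_apply, smul_eq_mul, Matrix.one_apply_eq,
    mul_one, Matrix.one_apply_ne (show (0 : Fin 2) ≠ 1 by decide), mul_zero] at a00 a01 a11
  simp only [IsoAt, hd, e0, e1]
  exact ⟨by linarith, by linarith, by linarith⟩

end Vale.Agent.P229
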